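import Crest.Agent.R258.AlgA

/-! Row 258, sub-task A: construction of the algebraic data. -/

set_option autoImplicit false

noncomputable section

namespace Crest.Agent.R258
namespace AA

open MvPolynomial
open scoped Matrix

abbrev A : Type := Polynomial ℂ
abbrev L : Type := LaurentPolynomial ℂ

def Pa (a : Fin 2) : Fin 2 → A := if a = 0 then ![1, Polynomial.X] else ![Polynomial.X, 1]
def Pa' (a : Fin 2) : Fin 2 → A := if a = 0 then ![0, 1] else ![-1, 0]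

lemma dt_Pa (a : Fin 2) : dt (Pa a) (Pa' a) = 1 := by
  unfold Pa Pa'; split_ifs <;> simp [dt]

def ev (x : ℂ) : A →ₐ[ℂ] ℂ := Polynomial.aeval x

lemma ev_Pa (a : Fin 2) (x : ℂ) : ev x ∘ Pa a = hv a x := by
  unfold Pa hv; ext j; split_ifs <;> fin_cases j <;> simp [ev]

lemma g_C (i : Fin 4) : g ℂ i = gm i := by ext a b; simp [g]

lemma hv_ne (a : Fin 2) (x : ℂ) : hv a x ≠ 0 := fun h => by
  unfold hv at h
  split_ifs at h
  · simpa using congrFun h 0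
  · simpa using congrFun h 1

/-- the function attached to a form with polynomial coefficients -/
def fn (F : Fm A) (x : ℂ) (Y : V2) : ℂ := eval Y (map (ev x : A →+* ℂ) F)

lemma fn_pf {d : ℕ} {F : Fm A} (hF : F.IsHomogeneous d) : PF d (fn F) := by
  refine hom_ind (Q := fun F => PF d (fn F)) ⟨0, by simp [fn]⟩ ?_ ?_ hF
  · rintro F G ⟨c, hc⟩ ⟨c', hc'⟩
    refine ⟨c + c', fun x Y => ?_⟩
    have : fn (F + G) x Y = fn F x Y + fn G x Y := by simp [fn]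
    rw [this, hc, hc', ← Finset.sum_add_distrib]
    simp [add_mul]
  · intro a i j h
    refine ⟨fun l => if l = j then a else 0, fun x Y => ?_⟩
    rw [Finset.sum_eq_single j (fun l _ hl => by simp [hl]) (fun hj => by simp at hj; omega)]
    simp [fn, ev, ← h]

lemma fn_at (F : Fm A) (a : Fin 2) (x : ℂ) (i : Fin 4) :
    fn F x (gm i *ᵥ hv a x) = ev x (eval (g A i *ᵥ Pa a) F) := by
  rw [map_eval', map_g_mulVec, ev_Pa, g_C, fn]

lemma ev_q (a : Fin 2) (x : ℂ) (i k : Fin 4) : ev x (eval (g A k *ᵥ Pa a) (ga (Pa a) i)) =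
    det2 (hv a x) ((gm i * gm k) *ᵥ hv a x) := by
  rw [map_eval', map_g_mulVec, map_ga, ev_Pa, eval_ga, g_C, g_C, Matrix.mulVec_mulVec]; rfl

/-- the equation of the four graphs -/
def Ga (a : Fin 2) : Fm A := ∏ i, ga (Pa a) i

lemma Ga_hom (a : Fin 2) : (Ga a).IsHomogeneous 4 := prod_hom (Pa a) Finset.univ

lemma fn_Ga (a : Fin 2) (x : ℂ) (Y : V2) : fn (Ga a) x Y = gam (hv a x) Y := by
  simp only [fn, Ga, gam, map_prod, map_ga, ev_Pa, eval_ga, g_C]; rfl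

lemma q_ne (hG : GStmt) (a : Fin 2) (i k : Fin 4) (h : i < k) :
    eval (g A k *ᵥ Pa a) (ga (Pa a) i) ≠ 0 := fun h0 => by
  obtain ⟨x, hx⟩ := hG.ne a i k h
  exact hx (by rw [← ev_q, h0, map_zero])

lemma exists_th' (hG : GStmt) (a : Fin 2) :
    ∃ th : Fm A, th.IsHomogeneous 30 ∧ ∀ i, eval (g A i *ᵥ Pa a) th = 1 := by
  obtain ⟨th, h1, h2⟩ := exists_th hG (dt_Pa a) (fun i j k hij hjk => by
    rw [Polynomial.isCoprime_iff_aeval_ne_zero_of_isAlgClosed ℂ ℂ]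
    intro x
    have := hG.cop i j k hij hjk (hv a x) (hv_ne a x)
    rw [← ev_q, ← ev_q] at this
    exact or_iff_not_imp_left.2 fun h => this (not_not.1 h)) Finset.univ
  exact ⟨th, h1, fun i => h2 i (Finset.mem_univ i)⟩

/-- a constant form seen over `A` -/
def cf (f : Fm ℂ) : Fm A := map (algebraMap ℂ A) f

lemma fn_cf (f : Fm ℂ) (x : ℂ) (Y : V2) : fn (cf f) x Y = eval Y f := by
  rw [fn, cf, map_map, AlgHom.comp_algebraMap, Algebra.algebraMap_self, map_id]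

lemma ev_cf (f : Fm ℂ) (a : Fin 2) (x : ℂ) : ev x (eval (Pa a) (cf f)) = eval (hv a x) f := by
  rw [map_eval', ev_Pa]; exact fn_cf f x _

lemma exists_c (hG : GStmt) (a : Fin 2) {th : Fm A} (h1 : th.IsHomogeneous 30)
    (h2 : ∀ i, eval (g A i *ᵥ Pa a) th = 1) {f : Fm ℂ} (hf : f.IsHomogeneous 60)
    (hinv : ∀ i z, eval (gm i *ᵥ z) f = eval z f) :
    ∃ c1 c2 : Fm A, c1.IsHomogeneous 26 ∧ c2.IsHomogeneous 52 ∧
      cf f = C (eval (Pa a) (cf f)) * th ^ 2 + c1 * th * Ga a + c2 * Ga a ^ 2 := by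
  obtain ⟨R1, h3, h4⟩ := div hG (dt_Pa a) (q_ne hG a) Finset.univ 56
    (F := cf f - C (eval (Pa a) (cf f)) * th ^ 2)
    ((hf.map _).sub ((h1.pow 2).C_mul _)) fun i _ => by
      simp only [map_sub, map_mul, map_pow, eval_C, h2, one_pow, mul_one, sub_eq_zero]
      refine Polynomial.funext fun x => ?_
      have e1 := fn_at (cf f) a x i
      have e2 := ev_cf f a x
      rw [fn_cf, hinv, ← e2] at e1
      simpa [ev] using e1.symm
  obtain ⟨c1, c2, h5, h6, rfl⟩ := red hG (dt_Pa a) h1 h2 Finset.univ 22 (F := R1) h3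
  exact ⟨c1, c2, h5, h6, by rw [Ga]; linear_combination h4⟩

/-! ### the overlap -/

def t : L := LaurentPolynomial.T 1
def t' : L := LaurentPolynomial.T (-1)

lemma tt' : t * t' = 1 := by rw [t, t', ← LaurentPolynomial.T_add]; rfl

def i0 : A →ₐ[ℂ] L := Polynomial.aeval t
def i1 : A →ₐ[ℂ] L := Polynomial.aeval t'

lemma i0_inj : Function.Injective i0 := by
  have : i0 = Polynomial.toLaurentAlg := Polynomial.algHom_ext (by simp [i0, t])
  rw [this]; exact Polynomial.toLaurent_injective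

lemma split (a : L) : ∃ p q : A, a = i0 p + i1 q := by
  induction a using LaurentPolynomial.induction_on' with
  | add a b ha hb =>
    obtain ⟨p, q, rfl⟩ := ha
    obtain ⟨p', q', rfl⟩ := hb
    exact ⟨p + p', q + q', by simp; ring⟩
  | C_mul_T n c =>
    obtain ⟨m, rfl | rfl⟩ := n.eq_nat_or_neg
    · exact ⟨Polynomial.C c * Polynomial.X ^ m, 0, by
        simp [i0, t, -LaurentPolynomial.single_eq_C_mul_T]; exact Or.inl rfl⟩
    · exact ⟨0, Polynomial.C c * Polynomial.X ^ m, by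
        simp [i1, t', -LaurentPolynomial.single_eq_C_mul_T]; exact Or.inl rfl⟩

lemma clear {s s' : L} (h : s * s' = 1) (q : A) :
    ∃ D₀ : ℕ, ∀ D ≥ D₀, ∃ p : A, Polynomial.aeval s p = s ^ D * Polynomial.aeval s' q := by
  induction q using Polynomial.induction_on' with
  | add a b ha hb =>
    obtain ⟨D, hD⟩ := ha
    obtain ⟨D', hD'⟩ := hb
    refine ⟨D + D', fun E hE => ?_⟩
    obtain ⟨p, hp⟩ := hD E (by omega)
    obtain ⟨p', hp'⟩ := hD' E (by omega)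
    exact ⟨p + p', by rw [map_add, map_add, hp, hp', mul_add]⟩
  | monomial n c =>
    refine ⟨n, fun E hE => ?_⟩
    obtain ⟨m, rfl⟩ := Nat.exists_eq_add_of_le hE
    refine ⟨Polynomial.monomial m c, ?_⟩
    simp only [Polynomial.aeval_monomial]
    have : s ^ n * s' ^ n = 1 := by rw [← mul_pow, h, one_pow]
    linear_combination (-(algebraMap ℂ L c * s ^ m)) * this

lemma clearF {s s' : L} (h : s * s' = 1)
    (hs : ∀ a : L, ∃ p q : A, a = Polynomial.aeval s p + Polynomial.aeval s' q) {n : ℕ} {F : Fm L}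
    (hF : F.IsHomogeneous n) : ∃ D₀ : ℕ, ∀ D ≥ D₀, ∃ E : Fm A, E.IsHomogeneous n ∧
      map ((Polynomial.aeval s : A →ₐ[ℂ] L) : A →+* L) E = C s ^ D * F := by
  refine hom_ind (Q := fun F => ∃ D₀ : ℕ, ∀ D ≥ D₀, ∃ E : Fm A, E.IsHomogeneous n ∧
      map ((Polynomial.aeval s : A →ₐ[ℂ] L) : A →+* L) E = C s ^ D * F)
    ⟨0, fun _ _ => ⟨0, isHomogeneous_zero _ _ _, by simp⟩⟩ ?_ ?_ hF
  · rintro F G ⟨D, hD⟩ ⟨D', hD'⟩
    refine ⟨D + D', fun E hE => ?_⟩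
    obtain ⟨p, h1, hp⟩ := hD E (by omega)
    obtain ⟨p', h2, hp'⟩ := hD' E (by omega)
    exact ⟨p + p', h1.add h2, by rw [map_add, hp, hp', mul_add]⟩
  · intro a i j hij
    obtain ⟨p, q, rfl⟩ := hs a
    obtain ⟨D, hD⟩ := clear h q
    refine ⟨D, fun E hE => ?_⟩
    obtain ⟨p', hp'⟩ := hD E hE
    refine ⟨_, hom_mon (Polynomial.X ^ E * p + p') hij, ?_⟩
    simp only [map_mul, map_pow, map_X, map_C, RingHom.coe_coe, map_add, hp', Polynomial.aeval_X]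
    ring

abbrev m0 : Fm A →+* Fm L := map (i0 : A →+* L)
abbrev m1 : Fm A →+* Fm L := map (i1 : A →+* L)

lemma splitF {n : ℕ} {F : Fm L} (hF : F.IsHomogeneous n) : ∃ E E' : Fm A, E.IsHomogeneous n ∧
    E'.IsHomogeneous n ∧ F = m0 E + m1 E' := by
  refine hom_ind (Q := fun F => ∃ E E' : Fm A, E.IsHomogeneous n ∧ E'.IsHomogeneous n ∧
      F = m0 E + m1 E')
    ⟨0, 0, isHomogeneous_zero _ _ _, isHomogeneous_zero _ _ _, by simp⟩ ?_ ?_ hF
  · rintro _ _ ⟨p, q, h1, h2, rfl⟩ ⟨p', q', h3, h4, rfl⟩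
    exact ⟨p + p', q + q', h1.add h3, h2.add h4, by rw [map_add, map_add]; ring⟩
  · intro a i j hij
    obtain ⟨p, q, rfl⟩ := split a
    refine ⟨_, _, hom_mon p hij, hom_mon q hij, ?_⟩
    simp only [map_mul, map_pow, map_X, map_C, RingHom.coe_coe, map_add]
    ring

lemma P0_eq : i0 ∘ Pa 0 = t • (i1 ∘ Pa 1) := by
  ext1 j; fin_cases j <;> simp [Pa, i0, i1, tt']

lemma P1_eq : i1 ∘ Pa 1 = t' • (i0 ∘ Pa 0) := by
  rw [P0_eq, smul_smul, mul_comm, tt', one_smul]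

lemma dt_L : dt (i0 ∘ Pa 0) (i0 ∘ Pa' 0) = 1 := by simp [dt, Pa, Pa']

lemma ev_m0 (F : Fm A) (i : Fin 4) :
    eval (g L i *ᵥ (i0 ∘ Pa 0)) (m0 F) = i0 (eval (g A i *ᵥ Pa 0) F) := by
  rw [map_eval', map_g_mulVec]

lemma ev_m1 {n : ℕ} {F : Fm A} (hF : F.IsHomogeneous n) (i : Fin 4) :
    eval (g L i *ᵥ (i0 ∘ Pa 0)) (m1 F) = t ^ n * i1 (eval (g A i *ᵥ Pa 1) F) := by
  rw [map_eval', map_g_mulVec, P0_eq, Matrix.mulVec_smul, eval_smul' (hF.map _)]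

lemma m0_Ga : m0 (Ga 0) = ∏ i, ga (i0 ∘ Pa 0) i := by simp only [Ga, map_prod, map_ga]

lemma m1_Ga : m1 (Ga 1) = C t' ^ 4 * m0 (Ga 0) := by
  have : ∀ i, ga (t' • (i0 ∘ Pa 0)) i = C t' * ga (i0 ∘ Pa 0) i := fun i => by
    simp only [ga, Pi.smul_apply, smul_eq_mul, map_mul]; ring
  simp only [Ga, map_prod, map_ga, P1_eq, this, Finset.prod_mul_distrib]
  simp

lemma qL (hG : GStmt) (i k : Fin 4) (h : i < k) :
    eval (g L k *ᵥ (i0 ∘ Pa 0)) (ga (i0 ∘ Pa 0) i) ≠ 0 := by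
  rw [← map_ga, ev_m0]
  exact (map_ne_zero_iff _ i0_inj).2 (q_ne hG 0 i k h)

lemma divL (hG : GStmt) (n : ℕ) {F : Fm L} (hF : F.IsHomogeneous (n + 4))
    (h0 : ∀ i, eval (g L i *ᵥ (i0 ∘ Pa 0)) F = 0) :
    ∃ F' : Fm L, F'.IsHomogeneous n ∧ F = m0 (Ga 0) * F' := by
  rw [m0_Ga]
  exact div hG dt_L (qL hG) Finset.univ n hF fun i _ => h0 i

lemma Ga_ne (hG : GStmt) : m0 (Ga 0) ≠ 0 := by
  rw [m0_Ga]
  refine Finset.prod_ne_zero_iff.2 fun i _ h => ?_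
  by_cases hi : i < 3
  · exact qL hG i 3 hi (by rw [h, map_zero])
  · obtain rfl : i = 3 := by omega
    have := congrArg (eval (g L 3 *ᵥ (i0 ∘ Pa' 0))) h
    rw [eval_ga, gg hG, dt_L, map_zero] at this
    exact one_ne_zero this

lemma Ga_at (hG : GStmt) (i : Fin 4) : eval (g L i *ᵥ (i0 ∘ Pa 0)) (m0 (Ga 0)) = 0 := by
  rw [m0_Ga, map_prod]
  exact Finset.prod_eq_zero (Finset.mem_univ i) (ga_self hG i)

lemma hCt (n : ℕ) {d : ℕ} {F : Fm L} (s : L) (hF : F.IsHomogeneous d) :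
    (C s ^ n * F).IsHomogeneous d := by
  rw [← map_pow]; exact hF.C_mul _

lemma exists_c' (hG : GStmt) {th : Fin 2 → Fm A} (h1 : ∀ a, (th a).IsHomogeneous 30)
    (h2 : ∀ a i, eval (g A i *ᵥ Pa a) (th a) = 1) {eps : Fm L} (he : eps.IsHomogeneous 26)
    (hE : m1 (th 1) - C t ^ 30 * m0 (th 0) = m0 (Ga 0) * eps) {f : Fm ℂ} (hf : f.IsHomogeneous 60)
    (hinv : ∀ i z, eval (gm i *ᵥ z) f = eval z f) :
    ∃ c1 c2 : Fin 2 → Fm A, (∀ a, (c1 a).IsHomogeneous 26) ∧ (∀ a, (c2 a).IsHomogeneous 52) ∧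
      (∀ a, cf f = C (eval (Pa a) (cf f)) * th a ^ 2 + c1 a * th a * Ga a + c2 a * Ga a ^ 2) ∧
      m0 (c1 0) = 2 * C t ^ 30 * eps * m1 (C (eval (Pa 1) (cf f))) + C t ^ 26 * m1 (c1 1) ∧
      m0 (c2 0) = eps ^ 2 * m1 (C (eval (Pa 1) (cf f))) + C t' ^ 4 * eps * m1 (c1 1) +
        C t' ^ 8 * m1 (c2 1) := by
  obtain ⟨c1, c2, h3, h4, h5⟩ := exists_c hG 0 (h1 0) (h2 0) hf hinv
  obtain ⟨c1', c2', h3', h4', h5'⟩ := exists_c hG 1 (h1 1) (h2 1) hf hinv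
  have ht : (C t : Fm L) * C t' = 1 := by rw [← map_mul, tt', map_one]
  have ht4 : (C t : Fm L) ^ 4 * C t' ^ 4 = 1 := by rw [← mul_pow, ht, one_pow]
  have ht8 : (C t : Fm L) ^ 8 * C t' ^ 8 = 1 := by rw [← mul_pow, ht, one_pow]
  have ht22 : (C t : Fm L) ^ 22 * C t' ^ 22 = 1 := by rw [← mul_pow, ht, one_pow]
  have hcf : m0 (cf f) = m1 (cf f) := by
    simp only [cf, map_map, AlgHom.comp_algebraMap]
  have hf01 : m0 (C (eval (Pa 0) (cf f))) = C t ^ 60 * m1 (C (eval (Pa 1) (cf f))) := by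
    rw [map_C, map_C, ← map_pow, ← map_mul, RingHom.coe_coe, RingHom.coe_coe, map_eval', map_eval',
      P0_eq, eval_smul' (IsHomogeneous.map (show (cf f).IsHomogeneous 60 from hf.map _) _)]
    exact congrArg (fun F => C (t ^ 60 * eval (i1 ∘ Pa 1) F)) hcf
  have e0 := congrArg m0 h5
  have e1 := congrArg m1 h5'
  simp only [map_add, map_mul, map_pow] at e0 e1
  rw [hf01, hcf] at e0
  rw [m1_Ga] at e1
  have hf1 : (m1 (C (eval (Pa 1) (cf f)))).IsHomogeneous 0 := (isHomogeneous_C _ _).map _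
  generalize hφ : m1 (C (eval (Pa 1) (cf f))) = φ at *
  have hth : m1 (th 1) = C t ^ 30 * m0 (th 0) + m0 (Ga 0) * eps := by linear_combination hE
  set d1 := m0 c1 - (2 * C t ^ 30 * eps * φ + C t ^ 26 * m1 c1') with hd1
  set d2 := m0 c2 - (eps ^ 2 * φ + C t' ^ 4 * eps * m1 c1' + C t' ^ 8 * m1 c2') with hd2
  have k1 : d1 * m0 (th 0) + d2 * m0 (Ga 0) = 0 := by
    refine mul_left_cancel₀ (Ga_ne hG) ?_
    rw [hth] at e1
    rw [hd1, hd2]
    linear_combination e1 - e0 + (C t ^ 26 * m1 c1' * m0 (th 0) * m0 (Ga 0)) * ht4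
  obtain ⟨e, he1, he2⟩ := divL hG 22 (F := d1)
    ((h3.map _).sub (IsHomogeneous.add (by
      have := (hCt 30 t (he.mul hf1)).C_mul 2
      rw [show (C 2 : Fm L) = 2 from map_ofNat _ 2] at this
      rwa [← mul_assoc, ← mul_assoc] at this) (hCt _ _ (h3'.map _))))
    fun i => by
      have := congrArg (eval (g L i *ᵥ (i0 ∘ Pa 0))) k1
      rwa [map_add, map_mul, map_mul, Ga_at hG, ev_m0, h2, map_one, mul_one, mul_zero, add_zero,
        map_zero] at this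
  have k2 : d2 = -(m0 (th 0) * e) := by
    refine mul_left_cancel₀ (Ga_ne hG) ?_
    rw [he2] at k1
    linear_combination k1
  obtain ⟨e0', e1', h6, h7, rfl⟩ := splitF he1
  have hX : m1 (C (Polynomial.X ^ 22) * e1') = C t' ^ 22 * m1 e1' := by simp [i1]
  have h8 : (C (Polynomial.X ^ 22) * e1').IsHomogeneous 22 := h7.C_mul _
  generalize C (Polynomial.X ^ 22) * e1' = e2 at hX h8
  refine ⟨![c1 - Ga 0 * e0', c1' + Ga 1 * e2], ![c2 + th 0 * e0', c2' - th 1 * e2],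
    Fin.forall_fin_two.2 ⟨h3.sub ((Ga_hom 0).mul h6), h3'.add ((Ga_hom 1).mul h8)⟩,
    Fin.forall_fin_two.2 ⟨h4.add ((h1 0).mul h6), h4'.sub ((h1 1).mul h8)⟩,
    Fin.forall_fin_two.2 ⟨?_, ?_⟩, ?_, ?_⟩
  all_goals simp only [Matrix.cons_val_zero, Matrix.cons_val_one]
  · linear_combination h5
  · linear_combination h5'
  · simp only [map_add, map_sub, map_mul, m1_Ga, hX]
    rw [hd1] at he2
    linear_combination he2 - (m0 (Ga 0) * m1 e1') * ht22 -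
      (C t ^ 22 * C t' ^ 22 * m0 (Ga 0) * m1 e1') * ht4
  · simp only [map_add, map_sub, map_mul, m1_Ga, hX, hth]
    rw [hd2] at k2
    linear_combination k2 + (m0 (th 0) * m1 e1') * ht22 +
      (C t ^ 22 * C t' ^ 22 * m0 (th 0) * m1 e1') * ht8

/-- evaluation on the overlap -/
def Φ (x : ℂ) (hx : x ≠ 0) (Y : V2) : Fm L →+* ℂ :=
  (eval Y).comp (map (LaurentPolynomial.eval₂ (RingHom.id ℂ) (Units.mk0 x hx)))

lemma ev_t (x : ℂ) (hx : x ≠ 0) :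
    LaurentPolynomial.eval₂ (RingHom.id ℂ) (Units.mk0 x hx) t = x := by simp [t]

lemma ev_t' (x : ℂ) (hx : x ≠ 0) :
    LaurentPolynomial.eval₂ (RingHom.id ℂ) (Units.mk0 x hx) t' = x⁻¹ := by simp [t']

lemma Φ_t (x : ℂ) (hx : x ≠ 0) (Y : V2) : Φ x hx Y (C t) = x := by simp [Φ, ev_t]
lemma Φ_t' (x : ℂ) (hx : x ≠ 0) (Y : V2) : Φ x hx Y (C t') = x⁻¹ := by simp [Φ, ev_t']

lemma Φ_m0 (x : ℂ) (hx : x ≠ 0) (Y : V2) (F : Fm A) : Φ x hx Y (m0 F) = fn F x Y := by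
  rw [Φ, RingHom.comp_apply, map_map, fn]
  congr 3
  exact Polynomial.ringHom_ext (fun a => by simp [i0, ev, ← LaurentPolynomial.C_eq_algebraMap])
    (by simp [i0, ev, ev_t])

lemma Φ_m1 (x : ℂ) (hx : x ≠ 0) (Y : V2) (F : Fm A) : Φ x hx Y (m1 F) = fn F x⁻¹ Y := by
  rw [Φ, RingHom.comp_apply, map_map, fn]
  congr 3
  exact Polynomial.ringHom_ext (fun a => by simp [i1, ev, ← LaurentPolynomial.C_eq_algebraMap])
    (by simp [i1, ev, ev_t'])

lemma fn_C (f : Fm ℂ) (a : Fin 2) (x : ℂ) (Y : V2) :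
    fn (C (eval (Pa a) (cf f))) x Y = eval (hv a x) f := by
  rw [fn, map_C, eval_C]; exact ev_cf f a x

lemma hv_inv {x : ℂ} (hx : x ≠ 0) : hv 0 x⁻¹ = x⁻¹ • hv 1 x := by
  ext j; fin_cases j <;> simp [hv, hx]

lemma gam_inv {x : ℂ} (hx : x ≠ 0) (Y : V2) : gam (hv 0 x⁻¹) Y = x⁻¹ ^ 4 * gam (hv 1 x) Y := by
  simp only [hv_inv hx, gam, det2, Pi.smul_apply, smul_eq_mul, Fin.prod_univ_four]; ring

end AA

open AA MvPolynomial in
theorem aStmt : AStmt := by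
  intro hG
  choose th h1 h2 using exists_th' hG
  obtain ⟨f, hf, hinv, hne⟩ := hG.inv
  obtain ⟨eps, he, hE⟩ := divL hG 26 (F := m1 (th 1) - C t ^ 30 * m0 (th 0))
    (((h1 1).map _).sub (hCt _ _ ((h1 0).map _))) fun i => by
      rw [map_sub, map_mul, map_pow, eval_C, ev_m0, ev_m1 (h1 1), h2, h2, map_one, map_one,
        sub_self]
  obtain ⟨D0, hD0⟩ := clearF tt' split he
  obtain ⟨D1, hD1⟩ := clearF (s := t') (s' := t) (by rw [mul_comm, tt'])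
    (fun a => by obtain ⟨p, q, h⟩ := split a; exact ⟨q, p, by rw [h, add_comm]; rfl⟩) he.neg
  obtain ⟨E0, hE0, e0⟩ := hD0 (D0 + D1) (by omega)
  obtain ⟨E1, hE1, e1⟩ := hD1 (D0 + D1 + 26) (by omega)
  generalize D0 + D1 = D at e0 e1
  choose c1 c2 hc1 hc2 hc hk1 hk2 using fun k => exists_c' hG h1 h2 he hE (hf k) (hinv k)
  have a0 : ∀ x (hx : x ≠ 0) Y, x⁻¹ ^ D * fn E0 x Y = Φ x hx Y eps := fun x hx Y => by
    have := congrArg (Φ x hx Y) e0
    rw [map_mul, map_pow, Φ_t] at this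
    rw [← Φ_m0 x hx, m0, i0, this, ← mul_assoc, ← mul_pow, inv_mul_cancel₀ hx, one_pow, one_mul]
  have a1 : ∀ x (hx : x ≠ 0) Y, x ^ D * fn E1 x⁻¹ Y = -(x⁻¹ ^ 26 * Φ x hx Y eps) := fun x hx Y => by
    have := congrArg (Φ x hx Y) e1
    rw [map_mul, map_pow, Φ_t', map_neg] at this
    rw [← Φ_m1 x hx, m1, i1, this, pow_add, mul_assoc, ← mul_assoc, ← mul_pow, mul_inv_cancel₀ hx]
    ring
  have a1' : ∀ x (hx : x ≠ 0) Y, x⁻¹ ^ D * fn E1 x Y =
      -(x ^ 26 * Φ x⁻¹ (inv_ne_zero hx) Y eps) := fun x hx Y => by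
    simpa only [inv_inv] using a1 x⁻¹ (inv_ne_zero hx) Y
  have b0 : ∀ x (hx : x ≠ 0) Y, fn (th 1) x⁻¹ Y =
      x ^ 30 * fn (th 0) x Y + gam (hv 0 x) Y * Φ x hx Y eps := fun x hx Y => by
    have := congrArg (Φ x hx Y) hE
    simp only [map_sub, map_mul, map_pow, Φ_t, Φ_m0, Φ_m1, fn_Ga] at this
    linear_combination this
  have b1 : ∀ k x (hx : x ≠ 0) Y, fn (c1 k 0) x Y = 2 * x ^ 30 * Φ x hx Y eps *
      eval (hv 1 x⁻¹) (f k) + x ^ 26 * fn (c1 k 1) x⁻¹ Y := fun k x hx Y => by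
    simpa only [map_add, map_mul, map_pow, Φ_t, Φ_m0, Φ_m1, fn_C, map_ofNat] using
      congrArg (Φ x hx Y) (hk1 k)
  have b2 : ∀ k x (hx : x ≠ 0) Y, fn (c2 k 0) x Y = Φ x hx Y eps ^ 2 * eval (hv 1 x⁻¹) (f k) +
      x⁻¹ ^ 4 * Φ x hx Y eps * fn (c1 k 1) x⁻¹ Y + x⁻¹ ^ 8 * fn (c2 k 1) x⁻¹ Y := fun k x hx Y => by
    simpa only [map_add, map_mul, map_pow, Φ_t', Φ_m0, Φ_m1, fn_C] using
      congrArg (Φ x hx Y) (hk2 k)
  have r0 : (0 : Fin 2).rev = 1 := rfl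
  have r1 : (1 : Fin 2).rev = 0 := rfl
  refine ⟨{
    th := fun a => fn (th a)
    th_pf := fun a => fn_pf (h1 a)
    th_one := fun a x i => by rw [fn_at, h2, map_one]
    D := D
    E := fun a => fn (![E0, E1] a)
    E_pf := Fin.forall_fin_two.2 ⟨fn_pf hE0, fn_pf hE1⟩
    E_eq := Fin.forall_fin_two.2 ⟨fun x Y hx => ?_, fun x Y hx => ?_⟩
    E_symm := Fin.forall_fin_two.2 ⟨fun x Y hx => ?_, fun x Y hx => ?_⟩
    f := f
    f_hom := hf
    f_ne := hne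
    c1 := fun k a => fn (c1 k a)
    c2 := fun k a => fn (c2 k a)
    c1_pf := fun k a => fn_pf (hc1 k a)
    c2_pf := fun k a => fn_pf (hc2 k a)
    c_eq := fun k a x Y => ?_
    c1_compat := fun k => Fin.forall_fin_two.2 ⟨fun x Y hx => ?_, fun x Y hx => ?_⟩
    c2_compat := fun k => Fin.forall_fin_two.2 ⟨fun x Y hx => ?_, fun x Y hx => ?_⟩ }⟩
  all_goals try simp only [r0, r1, Matrix.cons_val_zero, Matrix.cons_val_one]
  · rw [a0 x hx, b0 x hx]; ring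
  · have := b0 x⁻¹ (inv_ne_zero hx) Y
    rw [inv_inv, gam_inv hx] at this
    rw [a1' x hx, this]; field_simp; ring
  · rw [a0 x hx, a1 x hx]
  · have := a0 x⁻¹ (inv_ne_zero hx) Y
    rw [inv_inv] at this
    rw [a1' x hx, this]; field_simp
  · rw [← fn_C (f k) a x Y, ← fn_Ga, ← fn_cf (f k) x Y]
    conv_rhs => rw [hc k a]
    simp only [fn, map_add, map_mul, map_pow]
  · rw [a0 x hx, b1 k x hx]
  · have := b1 k x⁻¹ (inv_ne_zero hx) Y
    rw [inv_inv] at this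
    rw [a1' x hx, this, hv_inv hx, eval_smul' (hf k)]; field_simp; ring
  · rw [a0 x hx, b2 k x hx]
  · have h3 := b1 k x⁻¹ (inv_ne_zero hx) Y
    have h4 := b2 k x⁻¹ (inv_ne_zero hx) Y
    rw [inv_inv] at h3 h4
    rw [a1' x hx, h3, h4, hv_inv hx, eval_smul' (hf k)]; field_simp; ring

end Crest.Agent.R258

end
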