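import Crest.Agent.R258.Defs

/-! Row 258, sub-task A, part A: binary forms over a commutative `ℂ`-algebra. -/

set_option autoImplicit false

noncomputable section

namespace Crest.Agent.R258.AA

open Matrix MvPolynomial

abbrev Fm (R : Type) [CommRing R] : Type := MvPolynomial (Fin 2) R

section Gen
variable {R : Type} [CommRing R]

lemma hom_ind {n : ℕ} {Q : Fm R → Prop} (h0 : Q 0) (hadd : ∀ F G, Q F → Q G → Q (F + G))
    (hmon : ∀ (a : R) (i j : ℕ), i + j = n → Q (C a * (X 0 ^ i * X 1 ^ j))) {F : Fm R}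
    (hF : F.IsHomogeneous n) : Q F := by
  rw [F.as_sum]
  refine Finset.sum_induction _ Q hadd h0 fun s hs => ?_
  have h1 : s 0 + s 1 = n := by
    by_contra h
    exact mem_support_iff.1 hs (hF.coeff_eq_zero (by
      rwa [Finsupp.degree_eq_sum, Fin.sum_univ_two]))
  rw [monomial_eq, Finsupp.prod_fintype _ _ (by simp), Fin.prod_univ_two]
  exact hmon _ _ _ h1

lemma hom_mon (a : R) {i j n : ℕ} (h : i + j = n) :
    (C a * (X 0 ^ i * X 1 ^ j) : Fm R).IsHomogeneous n :=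
  h ▸ ((isHomogeneous_X_pow 0 i).mul (isHomogeneous_X_pow 1 j)).C_mul a

lemma hom_zero {F : Fm R} (hF : F.IsHomogeneous 0) : ∃ a, F = C a :=
  hom_ind (Q := fun F => ∃ a, F = C a) ⟨0, by simp⟩
    (by rintro _ _ ⟨a, rfl⟩ ⟨b, rfl⟩; exact ⟨a + b, by simp⟩)
    (fun a i j h => ⟨a, by obtain ⟨rfl, rfl⟩ : i = 0 ∧ j = 0 := by omega
                           simp⟩) hF

lemma hom_succ {n : ℕ} {F : Fm R} (hF : F.IsHomogeneous (n + 1)) :
    ∃ A B : Fm R, A.IsHomogeneous n ∧ B.IsHomogeneous n ∧ F = X 0 * A + X 1 * B := by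
  refine hom_ind (Q := fun F => ∃ A B : Fm R, A.IsHomogeneous n ∧ B.IsHomogeneous n ∧
    F = X 0 * A + X 1 * B) ⟨0, 0, isHomogeneous_zero _ _ _, isHomogeneous_zero _ _ _, by simp⟩
    ?_ ?_ hF
  · rintro _ _ ⟨A, B, hA, hB, rfl⟩ ⟨A', B', hA', hB', rfl⟩
    exact ⟨A + A', B + B', hA.add hA', hB.add hB', by ring⟩
  · intro a i j h
    cases i with
    | zero =>
      obtain rfl : j = n + 1 := by omega
      exact ⟨0, _, isHomogeneous_zero _ _ _, hom_mon a (zero_add n), by ring⟩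
    | succ i =>
      exact ⟨_, 0, hom_mon a (show i + j = n by omega), isHomogeneous_zero _ _ _, by ring⟩

lemma eval_smul' {n : ℕ} {F : Fm R} (hF : F.IsHomogeneous n) (c : R) (W : Fin 2 → R) :
    eval (c • W) F = c ^ n * eval W F :=
  hom_ind (Q := fun F => eval (c • W) F = c ^ n * eval W F) (by simp)
    (fun F G h1 h2 => by rw [map_add, map_add, h1, h2, mul_add])
    (fun a i j h => by subst h; simp; ring) hF

/-- division with remainder by a linear form -/
lemma red1 {Q Q' : Fin 2 → R} {μ γ : Fm R} (hμ : μ.IsHomogeneous 1)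
    (hX : ∀ j, X j = μ * C (Q j) + γ * C (Q' j)) (n : ℕ) {F : Fm R}
    (hF : F.IsHomogeneous (n + 1)) :
    ∃ F' : Fm R, F'.IsHomogeneous n ∧ F = C (eval Q F) * μ ^ (n + 1) + γ * F' := by
  induction n generalizing F with
  | zero =>
    obtain ⟨A, B, hA, hB, rfl⟩ := hom_succ hF
    obtain ⟨a, rfl⟩ := hom_zero hA
    obtain ⟨b, rfl⟩ := hom_zero hB
    refine ⟨C (Q' 0 * a + Q' 1 * b), isHomogeneous_C _ _, ?_⟩
    simp only [map_add, map_mul, eval_X, eval_C]
    linear_combination C a * hX 0 + C b * hX 1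
  | succ n ih =>
    obtain ⟨A, B, hA, hB, rfl⟩ := hom_succ hF
    obtain ⟨A', hA', eA⟩ := ih hA
    obtain ⟨B', hB', eB⟩ := ih hB
    refine ⟨C (Q 0) * (A' * μ) + C (Q' 0) * A + (C (Q 1) * (B' * μ) + C (Q' 1) * B),
      (((hA'.mul hμ).C_mul _).add (hA.C_mul _)).add (((hB'.mul hμ).C_mul _).add (hB.C_mul _)), ?_⟩
    simp only [map_add, map_mul, eval_X]
    linear_combination A * hX 0 + B * hX 1 + μ * C (Q 0) * eA + μ * C (Q 1) * eB

variable [Algebra ℂ R]

/-- the four matrices over `R` -/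
def g (R : Type) [CommRing R] [Algebra ℂ R] (i : Fin 4) : Matrix (Fin 2) (Fin 2) R :=
  (gm i).map (algebraMap ℂ R)

def dt (P W : Fin 2 → R) : R := P 0 * W 1 - P 1 * W 0

def lin (A : Fin 2 → R) : Fm R := C (A 0) * X 0 + C (A 1) * X 1

def ga (P : Fin 2 → R) (i : Fin 4) : Fm R := C (P 0) * lin (g R i 1) - C (P 1) * lin (g R i 0)

def mu (P' : Fin 2 → R) (i : Fin 4) : Fm R := C (P' 1) * lin (g R i 0) - C (P' 0) * lin (g R i 1)

omit [Algebra ℂ R] in
lemma lin_hom (A : Fin 2 → R) : (lin A).IsHomogeneous 1 :=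
  (isHomogeneous_C_mul_X _ _).add (isHomogeneous_C_mul_X _ _)

lemma ga_hom (P : Fin 2 → R) (i : Fin 4) : (ga P i).IsHomogeneous 1 :=
  ((lin_hom _).C_mul _).sub ((lin_hom _).C_mul _)

lemma mu_hom (P : Fin 2 → R) (i : Fin 4) : (mu P i).IsHomogeneous 1 :=
  ((lin_hom _).C_mul _).sub ((lin_hom _).C_mul _)

lemma prod_hom (P : Fin 2 → R) (S : Finset (Fin 4)) : (∏ i ∈ S, ga P i).IsHomogeneous S.card := by
  simpa using IsHomogeneous.prod S (ga P) (fun _ => 1) fun i _ => ga_hom P i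

lemma eval_ga (P W : Fin 2 → R) (i : Fin 4) : eval W (ga P i) = dt P (g R i *ᵥ W) := by
  simp [ga, lin, dt, mulVec, dotProduct]

lemma eval_mu (P' W : Fin 2 → R) (i : Fin 4) : eval W (mu P' i) = dt (g R i *ᵥ W) P' := by
  simp [mu, lin, dt, mulVec, dotProduct]; ring

lemma g_mul (i k : Fin 4) : g R i * g R k = (gm i * gm k).map (algebraMap ℂ R) := by
  rw [g, g, Matrix.map_mul]

lemma g_sq (hG : GStmt) (i : Fin 4) : g R i * g R i = 1 := by
  rw [g_mul, hG.sq, Matrix.map_one _ (map_zero _) (map_one _)]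

lemma g_pow (hG : GStmt) (i k : Fin 4) : (g R i * g R k) ^ 30 = 1 := by
  rw [g_mul, ← RingHom.mapMatrix_apply, ← map_pow, hG.pow, map_one]

lemma gg (hG : GStmt) (i : Fin 4) (W : Fin 2 → R) : g R i *ᵥ g R i *ᵥ W = W := by
  rw [mulVec_mulVec, g_sq hG, one_mulVec]

variable {P P' : Fin 2 → R}

lemma ga_self (hG : GStmt) (i : Fin 4) : eval (g R i *ᵥ P) (ga P i) = 0 := by
  rw [eval_ga, gg hG, dt]; ring

lemma mu_self (hG : GStmt) (hd : dt P P' = 1) (i : Fin 4) : eval (g R i *ᵥ P) (mu P' i) = 1 := by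
  rw [eval_mu, gg hG, hd]

lemma X_eq (hG : GStmt) (hd : dt P P' = 1) (i : Fin 4) (j : Fin 2) :
    (X j : Fm R) = mu P' i * C ((g R i *ᵥ P) j) + ga P i * C ((g R i *ᵥ P') j) := by
  have h := fun a b => congrArg (C : R → Fm R) (congrFun (congrFun (g_sq (R := R) hG i) a) b)
  have hd' := congrArg (C : R → Fm R) hd
  simp only [Matrix.mul_apply, Fin.sum_univ_two, map_add, map_mul] at h
  simp only [dt, map_sub, map_mul, map_one] at hd'
  simp only [mu, ga, lin, mulVec, dotProduct, Fin.sum_univ_two, map_add, map_mul]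
  have h00 := h 0 0
  have h01 := h 0 1
  have h10 := h 1 0
  have h11 := h 1 1
  rw [Matrix.one_apply_eq, map_one] at h00 h11
  rw [Matrix.one_apply_ne (by decide), map_zero] at h01 h10
  fin_cases j
  · simp only [Fin.zero_eta]
    linear_combination (-(C (g R i 0 0) * (C (g R i 0 0) * X 0 + C (g R i 0 1) * X 1) +
      C (g R i 0 1) * (C (g R i 1 0) * X 0 + C (g R i 1 1) * X 1))) * hd' - X 0 * h00 - X 1 * h01
  · simp only [Fin.mk_one]
    linear_combination (-(C (g R i 1 0) * (C (g R i 0 0) * X 0 + C (g R i 0 1) * X 1) +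
      C (g R i 1 1) * (C (g R i 1 0) * X 0 + C (g R i 1 1) * X 1))) * hd' - X 0 * h10 - X 1 * h11

lemma red1' (hG : GStmt) (hd : dt P P' = 1) (i : Fin 4) (n : ℕ) {F : Fm R}
    (hF : F.IsHomogeneous (n + 1)) : ∃ F' : Fm R, F'.IsHomogeneous n ∧
      F = C (eval (g R i *ᵥ P) F) * mu P' i ^ (n + 1) + ga P i * F' :=
  red1 (mu_hom _ _) (X_eq hG hd i) n hF

lemma div1 (hG : GStmt) (hd : dt P P' = 1) (i : Fin 4) (n : ℕ) {F : Fm R}
    (hF : F.IsHomogeneous (n + 1)) (h0 : eval (g R i *ᵥ P) F = 0) :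
    ∃ F' : Fm R, F'.IsHomogeneous n ∧ F = ga P i * F' := by
  obtain ⟨F', h1, h2⟩ := red1' hG hd i n hF
  exact ⟨F', h1, by rw [h2, h0]; simp⟩

lemma div [IsDomain R] (hG : GStmt) (hd : dt P P' = 1)
    (hq : ∀ i k, i < k → eval (g R k *ᵥ P) (ga P i) ≠ 0) (S : Finset (Fin 4)) (n : ℕ) {F : Fm R}
    (hF : F.IsHomogeneous (n + S.card)) (h0 : ∀ i ∈ S, eval (g R i *ᵥ P) F = 0) :
    ∃ F' : Fm R, F'.IsHomogeneous n ∧ F = (∏ i ∈ S, ga P i) * F' := by
  induction S using Finset.induction_on_min generalizing F with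
  | empty => exact ⟨F, hF, by simp⟩
  | insert a S ha ih =>
    have haS : a ∉ S := fun h => lt_irrefl _ (ha a h)
    rw [Finset.card_insert_of_notMem haS] at hF
    obtain ⟨F₁, h1, rfl⟩ := div1 hG hd a _ hF (h0 a (Finset.mem_insert_self _ _))
    obtain ⟨F', h2, rfl⟩ := ih h1 fun k hk => by
      have := h0 k (Finset.mem_insert_of_mem hk)
      rw [map_mul] at this
      exact (mul_eq_zero.1 this).resolve_left (hq a k (ha k hk))
    exact ⟨F', h2, by rw [Finset.prod_insert haS, mul_assoc]⟩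

lemma red (hG : GStmt) (hd : dt P P' = 1) {th : Fm R} (hth : th.IsHomogeneous 30)
    (h1 : ∀ i, eval (g R i *ᵥ P) th = 1) (S : Finset (Fin 4)) (e : ℕ) {F : Fm R}
    (hF : F.IsHomogeneous (e + S.card + 30)) :
    ∃ c F' : Fm R, c.IsHomogeneous (e + S.card) ∧ F'.IsHomogeneous (e + 30) ∧
      F = c * th + (∏ i ∈ S, ga P i) * F' := by
  induction S using Finset.induction_on generalizing F with
  | empty => exact ⟨0, F, isHomogeneous_zero _ _ _, hF, by simp⟩
  | insert a S haS ih =>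
    rw [Finset.card_insert_of_notMem haS] at hF ⊢
    have hm : (C (eval (g R a *ᵥ P) F) * mu P' a ^ (e + (S.card + 1)) : Fm R).IsHomogeneous
        (e + (S.card + 1)) := by
      simpa using ((mu_hom P' a).pow (e + (S.card + 1))).C_mul (eval (g R a *ᵥ P) F)
    obtain ⟨F₁, h2, h3⟩ := div1 hG hd a (e + S.card + 30)
      (F := F - C (eval (g R a *ᵥ P) F) * mu P' a ^ (e + (S.card + 1)) * th)
      (by
        have e1 : e + S.card + 30 + 1 = e + (S.card + 1) + 30 := by ring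
        rw [e1]; exact hF.sub (hm.mul hth))
      (by simp only [map_sub, map_mul, map_pow, eval_C, mu_self hG hd, h1]; ring)
    obtain ⟨c, F', h4, h5, rfl⟩ := ih h2
    refine ⟨_ + c * ga P a, F', hm.add (h4.mul (ga_hom _ _)), h5, ?_⟩
    rw [Finset.prod_insert haS]
    linear_combination h3

omit [Algebra ℂ R] in
lemma pow_dvd (hd : dt P P' = 1) (u : Matrix (Fin 2) (Fin 2) R) (m : ℕ) :
    ∃ W : Fin 2 → R, u ^ m *ᵥ P = dt (u *ᵥ P) P' ^ m • P + dt P (u *ᵥ P) • W := by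
  induction m with
  | zero => exact ⟨0, by simp⟩
  | succ m ih =>
    obtain ⟨W, hW⟩ := ih
    have e : u *ᵥ P = dt (u *ᵥ P) P' • P + dt P (u *ᵥ P) • P' := by
      generalize u *ᵥ P = Z
      ext j
      unfold dt at hd ⊢
      fin_cases j
      · simp; linear_combination (-Z 0) * hd
      · simp; linear_combination (-Z 1) * hd
    refine ⟨dt (u *ᵥ P) P' • W + u ^ m *ᵥ P', ?_⟩
    rw [pow_succ, ← mulVec_mulVec]
    conv_lhs => rw [e]
    rw [mulVec_add, mulVec_smul, mulVec_smul, hW]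
    module

lemma q_dvd (hG : GStmt) (hd : dt P P' = 1) {th : Fm R} (hth : th.IsHomogeneous 30) (i k : Fin 4)
    (h1 : eval (g R i *ᵥ P) th = 1) :
    eval (g R k *ᵥ P) (ga P i) ∣ 1 - eval (g R k *ᵥ P) th := by
  obtain ⟨F', -, h2⟩ := red1' hG hd i 29 hth
  obtain ⟨W, hW⟩ := pow_dvd hd (g R i * g R k) 30
  rw [g_pow hG, one_mulVec] at hW
  have h3 := congrArg (fun Z => dt Z P') hW
  have h4 := congrArg (eval (g R k *ᵥ P)) h2
  simp only [h1, map_add, map_mul, map_pow, map_one, one_mul, eval_mu, eval_ga,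
    mulVec_mulVec] at h4 ⊢
  refine ⟨dt W P' - eval (g R k *ᵥ P) F', ?_⟩
  rw [h4]
  generalize dt ((g R i * g R k) *ᵥ P) P' = jj at *
  generalize dt P ((g R i * g R k) *ᵥ P) = qq at *
  simp only [dt, Pi.add_apply, Pi.smul_apply, smul_eq_mul] at h3 hd ⊢
  linear_combination h3 + (jj ^ 30 - 1) * hd

lemma exists_th (hG : GStmt) (hd : dt P P' = 1)
    (hc : ∀ i j k, i < j → j < k →
      IsCoprime (eval (g R k *ᵥ P) (ga P i)) (eval (g R k *ᵥ P) (ga P j))) (S : Finset (Fin 4)) :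
    ∃ th : Fm R, th.IsHomogeneous 30 ∧ ∀ i ∈ S, eval (g R i *ᵥ P) th = 1 := by
  induction S using Finset.induction_on_max with
  | empty => exact ⟨0, isHomogeneous_zero _ _ _, by simp⟩
  | insert k S hk ih =>
    obtain ⟨th, h1, h2⟩ := ih
    obtain ⟨w, hw⟩ : ∏ i ∈ S, eval (g R k *ᵥ P) (ga P i) ∣ 1 - eval (g R k *ᵥ P) th := by
      refine Finset.prod_dvd_of_coprime (fun i hi j hj hij => ?_)
        fun i hi => q_dvd hG hd h1 i k (h2 i hi)
      rcases lt_or_gt_of_ne hij with h | h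
      · exact hc i j k h (hk j hj)
      · exact (hc j i k h (hk i hi)).symm
    have hS : S.card ≤ 30 := (Finset.card_le_univ S).trans (by simp)
    refine ⟨th + C w * ((∏ i ∈ S, ga P i) * mu P' k ^ (30 - S.card)), h1.add ?_, fun i hi => ?_⟩
    · have := ((prod_hom P S).mul ((mu_hom P' k).pow (30 - S.card))).C_mul w
      rwa [one_mul, Nat.add_sub_cancel' hS] at this
    · rcases Finset.mem_insert.1 hi with rfl | hi
      · simp only [map_add, map_mul, eval_C, map_prod, map_pow, mu_self hG hd]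
        linear_combination -hw
      · simp only [map_add, map_mul, map_prod, h2 i hi]
        rw [Finset.prod_eq_zero hi (ga_self hG i)]; simp

end Gen

section Nat
variable {R S : Type} [CommRing R] [Algebra ℂ R] [CommRing S] [Algebra ℂ S] (φ : R →ₐ[ℂ] S)

lemma map_g_mulVec (i : Fin 4) (P : Fin 2 → R) : φ ∘ (g R i *ᵥ P) = g S i *ᵥ (φ ∘ P) := by
  ext j; fin_cases j <;> simp [g, mulVec, dotProduct]

lemma map_ga (P : Fin 2 → R) (i : Fin 4) : map (φ : R →+* S) (ga P i) = ga (φ ∘ P) i := by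
  simp [ga, lin, g]

lemma map_eval' (W : Fin 2 → R) (F : Fm R) :
    φ (eval W F) = eval (φ ∘ W) (map (φ : R →+* S) F) := map_eval (φ : R →+* S) W F

end Nat

end Crest.Agent.R258.AA

end
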