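import Crest.Agent.R258.Amp2

set_option autoImplicit false

noncomputable section

namespace Crest.Agent.R258.Amp

open MvPolynomial
open Crest.AlgGeometry.QuadricBundle

lemma exists_comb (u w : V2) (hu : ∃ k, u k ≠ 0) (hw : ∃ k, w k ≠ 0) :
    ∃ s t : ℂ, s * u 0 + t * u 1 ≠ 0 ∧ s * w 0 + t * w 1 ≠ 0 := by
  obtain ⟨i, hi⟩ := hu
  obtain ⟨j, hj⟩ := hw
  by_cases a0 : u 0 = 0 <;> by_cases b0 : w 0 = 0
  · refine ⟨0, 1, ?_, ?_⟩
    · fin_cases i <;> simp_all
    · fin_cases j <;> simp_all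
  · have : u 1 ≠ 0 := by fin_cases i <;> simp_all
    by_cases b1 : w 1 = 0
    · exact ⟨1, 1, by simp [a0, this], by simp [b0, b1]⟩
    · exact ⟨0, 1, by simp [this], by simp [b1]⟩
  · have : w 1 ≠ 0 := by fin_cases j <;> simp_all
    by_cases a1 : u 1 = 0
    · exact ⟨1, 1, by simp [a0, a1], by simp [b0, this]⟩
    · exact ⟨0, 1, by simp [a1], by simp [this]⟩
  · exact ⟨1, 0, by simp [a0], by simp [b0]⟩

variable (d : Dat)

lemma genX0 (α : Chart) (p : Fin 2 → ℂ) : Gen (G0 d) 1 (d.D + 4) (d.D + 4) α p (X 0) := by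
  have h : Gen (G0 d) 1 d.D 0 α p (X 0) := ⟨_, secS0 d α.1, by simp⟩
  exact h.mono (by omega) (by omega)

lemma genX1 (α : Chart) (p : Fin 2 → ℂ) : Gen (G0 d) 1 (d.D + 4) (d.D + 4) α p (X 1) := by
  have h : Gen (G0 d) 1 4 (-26) α p (X 1) := ⟨_, secX1 d, rfl⟩
  exact h.mono (by omega) (by omega)

lemma gen_one (α : Chart) (p : Fin 2 → ℂ) (R : MP) (hR : R.IsHomogeneous 1) :
    Gen (G0 d) 1 (d.D + 4) (d.D + 4) α p R := by
  obtain ⟨A, B, hA, hB, rfl⟩ := hom_succ (n := 0) hR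
  obtain ⟨a, rfl⟩ := hom_zero hA
  obtain ⟨b, rfl⟩ := hom_zero hB
  exact (((genX0 d α p).Cmul a).add ((genX1 d α p).Cmul b)).cast rfl rfl rfl (by ring)

lemma gen_two (α : Chart) (p : Fin 2 → ℂ) (R : MP) (hR : R.IsHomogeneous 2) :
    Gen (G0 d) 2 (2 * (d.D + 4)) (2 * (d.D + 4)) α p R := by
  obtain ⟨A, B, hA, hB, rfl⟩ := hom_succ (n := 1) hR
  exact (((genX0 d α p).mul (gen_one d α p A hA)).add
    ((genX1 d α p).mul (gen_one d α p B hB))).cast rfl (by ring) (by ring) rfl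

lemma gen_all (α : Chart) (p : Fin 2 → ℂ) (n : ℕ) : ∀ R : MP, R.IsHomogeneous (n + 1) →
    Gen (G0 d) (n + 1) (2 * (d.D + 4)) (2 * (d.D + 4)) α p R := by
  induction n using Nat.strong_induction_on with
  | _ n ih =>
    intro R hR
    match n, ih, hR with
    | 0, _, hR => exact (gen_one d α p R hR).mono (by omega) (by omega)
    | 1, _, hR => exact gen_two d α p R hR
    | n + 2, ih, hR =>
      set U := hv α.1 (p 0) with hU
      set Y := hv α.2 (p 1) with hY
      obtain ⟨s, t, hs, ht⟩ := exists_comb (fun k => eval U (d.f k)) (fun k => eval Y (d.f k))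
        (d.f_ne U (hv_ne _ _)) (d.f_ne Y (hv_ne _ _))
      set Φ : Fin 2 → MP := fun k => C (eval U (d.f k)) * (X 0 * X 0)
        + C (d.c1 k α.1 (p 0) Y) * (X 0 * X 1) + C (d.c2 k α.1 (p 0) Y) * (X 1 * X 1) with hΦ
      have gΦ : ∀ k, Gen (G0 d) 2 0 0 α p (Φ k) := fun k => ⟨_, secPhi d k, rfl⟩
      have gΨ : Gen (G0 d) 2 0 0 α p (C s * Φ 0 + C t * Φ 1) :=
        ((gΦ 0).Cmul s).add ((gΦ 1).Cmul t)
      have hΨ : (C s * Φ 0 + C t * Φ 1).IsHomogeneous 2 := by
        obtain ⟨Q, hQ, e⟩ := gΨ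
        rw [← e]; exact hQ.hom α p
      have gL : Gen (G0 d) 1 (-26) 4 α p (C (gam U Y) * X 0 - C (d.th α.1 (p 0) Y) * X 1) :=
        ⟨_, secL d, rfl⟩
      have g1 : Gen (G0 d) 1 4 (-26) α p (X 1) := ⟨_, secX1 d, rfl⟩
      have gQ := (gL.mul g1).mono (e₁ := 0) (e₂ := 0) (by omega) (by omega)
      obtain ⟨R', R'', h', h'', e⟩ := decomp _ hΨ ![d.th α.1 (p 0) Y, gam U Y]
        (by simpa [hΦ] using hs)
        (by
          have e0 := d.c_eq 0 α.1 (p 0) Y
          have e1 := d.c_eq 1 α.1 (p 0) Y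
          rw [← hU] at e0 e1
          intro hc
          apply ht
          simp only [hΦ, map_add, map_mul, eval_C, eval_X, Matrix.cons_val_zero,
            Matrix.cons_val_one] at hc
          linear_combination hc - s * e0 - t * e1) n R hR
      have i' := ih n (by omega) R' h'
      have i'' := ih n (by omega) R'' h''
      refine ((gΨ.mul i').add (gQ.mul i'')).cast (by omega) (by ring) (by ring) ?_
      rw [e]
      simp only [Matrix.cons_val_zero, Matrix.cons_val_one]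

lemma pw_zero (m : ℕ) (p : Fin 2 → ℂ) : pw m p 0 = p 0 ^ m := rfl

lemma pw_one (m : ℕ) (p : Fin 2 → ℂ) : pw m p 1 = p 1 ^ m := rfl

lemma pw_mem {α β : Chart} {p : Fin 2 → ℂ} (hp : p ∈ overlap α β) (m : ℕ) :
    pw m p ∈ overlap α β :=
  ⟨fun h => pow_ne_zero m (hp.1 h), fun h => pow_ne_zero m (hp.2 h)⟩

lemma tau_pw (α β : Chart) (p : Fin 2 → ℂ) (m : ℕ) : tau α β (pw m p) = pw m (tau α β p) := by
  funext i
  fin_cases i
  · change tau α β (pw m p) 0 = pw m (tau α β p) 0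
    rw [pw_zero, tau_zero, tau_zero, pw_zero]; split_ifs <;> simp
  · change tau α β (pw m p) 1 = pw m (tau α β p) 1
    rw [pw_one, tau_one, tau_one, pw_one]; split_ifs <;> simp

lemma lam_pow (a a' : Fin 2) (x : ℂ) (m : ℕ) : lam a a' (x ^ m) = lam a a' x ^ m := by
  unfold lam; split_ifs <;> simp

lemma pw_diff (m : ℕ) : Differentiable ℂ (pw m) := by
  refine differentiable_pi.2 fun i => ?_
  fin_cases i
  · change Differentiable ℂ (fun p : Fin 2 → ℂ => p 0 ^ m); fun_prop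
  · change Differentiable ℂ (fun p : Fin 2 → ℂ => p 1 ^ m); fun_prop

lemma Sec.pull {n : ℕ} {c : ℤ} {Q : Chart → (Fin 2 → ℂ) → MP} (hQ : Sec (G0 d) n c c Q) (m : ℕ) :
    Sec (GE d m) n (m * c - n) (m * c - n) (fun α p => Q α (pw m p)) where
  hom α p := hQ.hom α _
  ent α k := (hQ.ent α k).comp (pw_diff m)
  compat α β p hp v := by
    have h1 := lam_ne _ _ _ hp.1
    have h2 := lam_ne _ _ _ hp.2
    have ha : act (GE d m α β p) v
        = (lam α.1 β.1 (p 0) * lam α.2 β.2 (p 1)) • act (G0 d α β (pw m p)) v := by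
      funext j
      simp only [act, GE, Matrix.smul_apply, smul_eq_mul, Pi.smul_apply, Finset.mul_sum, mul_assoc]
    rw [hQ.compat α β _ (pw_mem hp m) v, ha, eval_smul_hom (hQ.hom _ _), tau_pw, pw_zero, pw_one,
      lam_pow, lam_pow, zpow_sub₀ h1, zpow_sub₀ h2, zpow_mul, zpow_mul]
    simp only [zpow_natCast, mul_pow]
    field_simp

lemma lineTrans_eq (c₁ c₂ : ℤ) (α β : Chart) (p : Fin 2 → ℂ) :
    lineTrans c₁ c₂ α β p = lam α.1 β.1 (p 0) ^ c₁ * lam α.2 β.2 (p 1) ^ c₂ := by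
  unfold lineTrans lam
  split_ifs <;> simp

lemma Sec.global {g : Transition 2} {n k : ℕ} {Q : Chart → (Fin 2 → ℂ) → MP}
    (hQ : Sec g n (-(k : ℤ)) (-(k : ℤ)) Q) : IsGlobalSection g n k Q := by
  refine ⟨hQ.hom, hQ.ent, fun α β p hp => ?_⟩
  apply MvPolynomial.funext
  intro v
  rw [hQ.compat α β p hp v, smul_eval, eval_frameSubst, lineTrans_eq]
  rfl

theorem ample (m : ℕ) : IsAmple (GE d m) := by
  intro k
  refine ⟨k + m * (2 * (d.D + 4)) + 1, fun n hn α p R hR => ?_⟩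
  obtain ⟨n, rfl⟩ : ∃ n', n = n' + 1 := ⟨n - 1, by omega⟩
  obtain ⟨Q, hQ, e⟩ := gen_all d α (pw m p) n R hR
  have h : Gen (GE d m) (n + 1) _ _ α p R := ⟨_, Sec.pull d hQ m, e⟩
  have hle : (m : ℤ) * (2 * (d.D + 4)) - ((n + 1 : ℕ) : ℤ) ≤ -(k : ℤ) := by
    have : ((k + m * (2 * (d.D + 4)) + 1 : ℕ) : ℤ) ≤ ((n + 1 : ℕ) : ℤ) := Int.ofNat_le.2 hn
    push_cast at this ⊢
    linarith
  obtain ⟨Q', hQ', e'⟩ := h.mono hle hle
  exact ⟨Q', hQ'.global, e'⟩

lemma lam_coc (a a' a'' : Fin 2) (x : ℂ) (h : a ≠ a' → x ≠ 0) :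
    lam a a' x * lam a' a'' (if a = a' then x else x⁻¹) = lam a a'' x := by
  unfold lam
  fin_cases a <;> fin_cases a' <;> fin_cases a'' <;> simp_all

lemma G0_coc (α β γ : Chart) (p : Fin 2 → ℂ) (hp : p ∈ overlap α β) :
    G0 d α β p * G0 d β γ (tau α β p) = G0 d α γ p := by
  obtain ⟨a, b⟩ := α
  obtain ⟨a', b'⟩ := β
  obtain ⟨a'', b''⟩ := γ
  have c1 := lam_coc a a' a'' (p 0) hp.1
  have c2 := lam_coc b b' b'' (p 1) hp.2
  have hY := hv_lam b b' (p 1) hp.2
  have hE : ∀ c x, d.E c x (hv b (p 1)) = lam b b' (p 1) ^ 26 *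
      d.E c x (hv b' (if b = b' then p 1 else (p 1)⁻¹)) := by
    intro c x; rw [hY, pf_smul (d.E_pf c)]
  have hx := hp.1
  simp only at hx
  simp only [G0, Matrix.mul_fin_two, tau_zero, tau_one, ← c1, ← c2]
  congr 1
  congr 1
  · congr 1
    · ring
    · simp
  · congr 1
    congr 1
    · rcases fin2_cases a a' with rfl | ⟨hne, rfl⟩
      · have hl : lam a' a' (p 0) = 1 := by simp only [lam, if_true]
        simp only [if_true, hl]
        by_cases h : a' = a''
        · simp only [if_pos h]; ring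
        · simp only [if_neg h]; rw [hE]; ring
      · have hx0 := hx hne
        have hs := d.E_symm a (p 0) (hv b (p 1)) hx0
        rw [hE a.rev] at hs
        have hl : lam a a.rev (p 0) = p 0 := by simp only [lam, if_neg hne]
        rcases fin2_cases a a'' with rfl | ⟨hne', rfl⟩
        · have hl' : lam a''.rev a'' (p 0)⁻¹ = (p 0)⁻¹ := by simp only [lam, if_neg hne.symm]
          simp only [if_neg hne, if_neg hne.symm, if_true, hl, hl', inv_inv]
          linear_combination ((p 0)⁻¹ ^ 4) * hs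
        · have hl' : lam a.rev a.rev (p 0)⁻¹ = 1 := by simp only [lam, if_true]
          simp only [if_neg hne, if_true, hl']
          ring
    · congr 1
      ring

lemma lam_diff (a a' j : Fin 2) : Differentiable ℂ (fun p : Fin 2 → ℂ => lam a a' (p j)) := by
  unfold lam
  split_ifs <;> fun_prop

lemma G0_holo (α β : Chart) (i j : Fin 2) :
    DifferentiableOn ℂ (fun p => G0 d α β p i j) (overlap α β) := by
  have l1 := (lam_diff α.1 β.1 0).differentiableOn (s := overlap α β)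
  have l2 := (lam_diff α.2 β.2 1).differentiableOn (s := overlap α β)
  fin_cases i <;> fin_cases j
  · exact l1.pow 30
  · exact differentiableOn_const 0
  · change DifferentiableOn ℂ (fun p : Fin 2 → ℂ => if α.1 = β.1 then (0 : ℂ) else
      (p 0)⁻¹ ^ d.D * d.E α.1 (p 0) (hv α.2 (p 1))) _
    split_ifs with h
    · exact differentiableOn_const 0
    · refine DifferentiableOn.mul (DifferentiableOn.pow ?_ _)
        (pf_diff (d.E_pf α.1) α.2).differentiableOn
      exact DifferentiableOn.inv (by fun_prop) fun p hp => hp.1 h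
  · exact ((l1.inv fun p hp => lam_ne _ _ _ hp.1).pow 4).mul (l2.pow 26)

theorem cocycle (m : ℕ) : IsHoloCocycle (GE d m) where
  refl α p := by
    simp only [GE, G0, lam, if_true]
    rw [Matrix.one_fin_two]; simp
  holo α β i j := by
    simp only [GE, Matrix.smul_apply, smul_eq_mul]
    refine (((lam_diff α.1 β.1 0).mul (lam_diff α.2 β.2 1)).differentiableOn).mul ?_
    exact (G0_holo d α β i j).comp (pw_diff m).differentiableOn fun p hp => pw_mem hp m
  cocycle α β γ p hp := by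
    simp only [GE, Matrix.smul_mul, Matrix.mul_smul, smul_smul]
    rw [← tau_pw, G0_coc d α β γ _ (pw_mem hp.1 m), tau_zero, tau_one,
      ← lam_coc α.1 β.1 γ.1 (p 0) hp.1.1, ← lam_coc α.2 β.2 γ.2 (p 1) hp.1.2]
    congr 1
    ring

end Crest.Agent.R258.Amp

namespace Crest.Agent.R258

theorem bStmt : BStmt := fun d m _ => ⟨Amp.cocycle d m, Amp.ample d m⟩

end Crest.Agent.R258

end
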