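import Crest.Agent.R258.Defs

set_option autoImplicit false

noncomputable section

namespace Crest.Agent.R258.Amp

open MvPolynomial
open Crest.AlgGeometry.QuadricBundle

abbrev MP : Type := MvPolynomial (Fin 2) ℂ

lemma hom_zero {F : MP} (hF : F.IsHomogeneous 0) : ∃ c : ℂ, F = C c := by
  rw [← totalDegree_zero_iff_isHomogeneous, totalDegree_eq_zero_iff_eq_C] at hF
  exact ⟨_, hF⟩

lemma hom_succ {F : MP} {n : ℕ} (hF : F.IsHomogeneous (n + 1)) :
    ∃ A B : MP, A.IsHomogeneous n ∧ B.IsHomogeneous n ∧ F = X 0 * A + X 1 * B := by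
  have h := hF.sum_X_mul_pderiv
  have hn : ((n + 1 : ℕ) : ℂ) ≠ 0 := Nat.cast_ne_zero.2 (Nat.succ_ne_zero n)
  refine ⟨C ((n + 1 : ℕ) : ℂ)⁻¹ * pderiv 0 F, C ((n + 1 : ℕ) : ℂ)⁻¹ * pderiv 1 F,
    (hF.pderiv (i := 0)).C_mul _, (hF.pderiv (i := 1)).C_mul _, ?_⟩
  rw [Fin.sum_univ_two] at h
  have h2 : (C ((n + 1 : ℕ) : ℂ)⁻¹ : MP) * ((n + 1) • F) = F := by
    rw [nsmul_eq_mul, ← mul_assoc, ← map_natCast (C : ℂ →+* MP), ← C_mul, inv_mul_cancel₀ hn,
      C_1, one_mul]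
  rw [← h] at h2
  linear_combination (-1 : MP) * h2

lemma eval_smul_hom {n : ℕ} : ∀ {F : MP}, F.IsHomogeneous n → ∀ (c : ℂ) (v : V2),
    eval (c • v) F = c ^ n * eval v F := by
  induction n with
  | zero =>
    intro F hF c v
    obtain ⟨a, rfl⟩ := hom_zero hF
    simp
  | succ n ih =>
    intro F hF c v
    obtain ⟨A, B, hA, hB, rfl⟩ := hom_succ hF
    simp only [map_add, map_mul, eval_X, ih hA, ih hB, Pi.smul_apply, smul_eq_mul]
    ring

lemma eval_frameSubst (M : M2) (Q : MP) (v : V2) :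
    eval v (frameSubst M Q) = eval (fun j => ∑ i, M i j * v i) Q := by
  unfold frameSubst
  induction Q using MvPolynomial.induction_on with
  | C a => simp
  | add p q hp hq => simp only [map_add, hp, hq]
  | mul_X p i hp => simp only [map_mul, hp, bind₁_X_right, map_sum, eval_C, eval_X]

/-- reduction modulo a linear form -/
lemma red (ξ η : V2) (μ l : MP) (hμ : μ.IsHomogeneous 1)
    (h0 : X 0 = C (ξ 0) * μ + C (η 0) * l) (h1 : X 1 = C (ξ 1) * μ + C (η 1) * l) (n : ℕ) :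
    ∀ F : MP, F.IsHomogeneous n → ∃ F' : MP, F'.IsHomogeneous (n - 1) ∧ (n = 0 → F' = 0) ∧
      F = C (eval ξ F) * μ ^ n + l * F' := by
  induction n with
  | zero =>
    intro F hF
    obtain ⟨a, rfl⟩ := hom_zero hF
    exact ⟨0, isHomogeneous_zero _ _ _, fun _ => rfl, by simp⟩
  | succ n ih =>
    intro F hF
    obtain ⟨A, B, hA, hB, rfl⟩ := hom_succ hF
    obtain ⟨A', hA', hA0, eA⟩ := ih A hA
    obtain ⟨B', hB', hB0, eB⟩ := ih B hB
    have hX : ∀ (i : Fin 2) (G : MP), G.IsHomogeneous (n - 1) → (n = 0 → G = 0) →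
        (X i * G).IsHomogeneous n := by
      intro i G hG hG0
      rcases Nat.eq_zero_or_pos n with h | h
      · rw [hG0 h, mul_zero]; exact isHomogeneous_zero _ _ _
      · have := (isHomogeneous_X ℂ i).mul hG
        rwa [show 1 + (n - 1) = n by omega] at this
    refine ⟨C (η 0 * eval ξ A + η 1 * eval ξ B) * μ ^ n + X 0 * A' + X 1 * B', ?_,
      fun h => absurd h (Nat.succ_ne_zero n), ?_⟩
    · rw [Nat.add_sub_cancel]
      refine (IsHomogeneous.add ?_ (hX 0 A' hA' hA0)).add (hX 1 B' hB' hB0)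
      have := (hμ.pow n).C_mul (η 0 * eval ξ A + η 1 * eval ξ B)
      rwa [one_mul] at this
    · simp only [map_add, map_mul, eval_X]
      generalize eval ξ A = a at *
      generalize eval ξ B = b at *
      rw [eA, eB]
      have e0 : X 0 * (C a * μ ^ n) = (C (ξ 0) * μ + C (η 0) * l) * (C a * μ ^ n) := by rw [← h0]
      have e1 : X 1 * (C b * μ ^ n) = (C (ξ 1) * μ + C (η 1) * l) * (C b * μ ^ n) := by rw [← h1]
      linear_combination e0 + e1

/-- division by the linear form vanishing at `ξ` -/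
lemma div (ξ : V2) (hξ : ξ 0 ≠ 0 ∨ ξ 1 ≠ 0) : ∃ μ : MP, μ.IsHomogeneous 1 ∧ eval ξ μ = 1 ∧
    ∀ (n : ℕ) (F : MP), F.IsHomogeneous (n + 1) → eval ξ F = 0 →
      ∃ F' : MP, F'.IsHomogeneous n ∧ F = (C (ξ 1) * X 0 - C (ξ 0) * X 1) * F' := by
  have key : ∃ (μ : MP) (η : V2), μ.IsHomogeneous 1 ∧ eval ξ μ = 1 ∧
      X 0 = C (ξ 0) * μ + C (η 0) * (C (ξ 1) * X 0 - C (ξ 0) * X 1) ∧
      X 1 = C (ξ 1) * μ + C (η 1) * (C (ξ 1) * X 0 - C (ξ 0) * X 1) := by
    rcases hξ with h | h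
    · refine ⟨C (ξ 0)⁻¹ * X 0, ![0, -(ξ 0)⁻¹], isHomogeneous_C_mul_X _ _, by simp [h], ?_, ?_⟩
      · apply MvPolynomial.funext; intro v; simp; field_simp
      · apply MvPolynomial.funext; intro v; simp; field_simp; ring
    · refine ⟨C (ξ 1)⁻¹ * X 1, ![(ξ 1)⁻¹, 0], isHomogeneous_C_mul_X _ _, by simp [h], ?_, ?_⟩
      · apply MvPolynomial.funext; intro v; simp; field_simp; ring
      · apply MvPolynomial.funext; intro v; simp; field_simp
  obtain ⟨μ, η, hμ, hμ1, h0, h1⟩ := key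
  refine ⟨μ, hμ, hμ1, fun n F hF hF0 => ?_⟩
  obtain ⟨F', hF', -, e⟩ := red ξ η μ _ hμ h0 h1 (n + 1) F hF
  refine ⟨F', by simpa using hF', ?_⟩
  rw [hF0] at e
  simpa using e

/-- decomposition of forms of degree at least three along two coprime quadratic forms -/
lemma decomp (Φ : MP) (hΦ : Φ.IsHomogeneous 2) (ξ : V2) (h1 : eval ![1, 0] Φ ≠ 0)
    (h2 : eval ξ Φ ≠ 0) (n : ℕ) (R : MP) (hR : R.IsHomogeneous (n + 3)) :
    ∃ R' R'' : MP, R'.IsHomogeneous (n + 1) ∧ R''.IsHomogeneous (n + 1) ∧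
      R = Φ * R' + ((C (ξ 1) * X 0 - C (ξ 0) * X 1) * X 1) * R'' := by
  have hξ : ξ 0 ≠ 0 ∨ ξ 1 ≠ 0 := by
    by_contra hc
    push Not at hc
    apply h2
    have : ξ = (0 : ℂ) • ξ := by
      funext i; fin_cases i <;> simp [hc.1, hc.2]
    rw [this, eval_smul_hom hΦ]; simp
  obtain ⟨-, -, -, d1⟩ := div ![1, 0] (Or.inl (by simp))
  obtain ⟨μ, hμ, hμ1, d2⟩ := div ξ hξ
  set c := eval ![1, 0] R / eval ![1, 0] Φ with hc
  have hR0 : (R - C c * X 0 ^ (n + 1) * Φ).IsHomogeneous (n + 2 + 1) := by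
    refine hR.sub ?_
    exact (isHomogeneous_C_mul_X_pow c 0 (n + 1)).mul hΦ
  obtain ⟨R1, hR1, e1⟩ := d1 (n + 2) _ hR0 (by simp [hc]; field_simp; ring)
  set c' := eval ξ R1 / eval ξ Φ with hc'
  have hR2 : (R1 - C c' * μ ^ n * Φ).IsHomogeneous (n + 1 + 1) := by
    refine hR1.sub ?_
    have := ((hμ.pow n).C_mul c').mul hΦ
    rwa [one_mul] at this
  obtain ⟨R2, hR2', e2⟩ := d2 (n + 1) _ hR2 (by simp [hc', hμ1]; field_simp; ring)
  refine ⟨C c * X 0 ^ (n + 1) - X 1 * (C c' * μ ^ n), -R2, ?_, hR2'.neg, ?_⟩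
  · refine (isHomogeneous_C_mul_X_pow c 0 (n + 1)).sub ?_
    have := (isHomogeneous_X ℂ 1).mul ((hμ.pow n).C_mul c')
    rwa [one_mul, add_comm] at this
  · simp only [Matrix.cons_val_one, Matrix.cons_val_zero, C_0, C_1] at e1
    linear_combination e1 - X 1 * e2

lemma diff_eval {E : Type} [NormedAddCommGroup E] [NormedSpace ℂ E] (g : E → V2)
    (hg : ∀ i, Differentiable ℂ (fun p => g p i)) (F : MP) :
    Differentiable ℂ (fun p => eval (g p) F) := by
  induction F using MvPolynomial.induction_on with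
  | C a => simp
  | add p q hp hq => simp only [map_add]; exact hp.add hq
  | mul_X p i hp => simp only [map_mul, eval_X]; exact hp.mul (hg i)

lemma pf_smul {d : ℕ} {φ : ℂ → V2 → ℂ} (h : PF d φ) (x c : ℂ) (Y : V2) :
    φ x (c • Y) = c ^ d * φ x Y := by
  obtain ⟨a, ha⟩ := h
  rw [ha, ha, Finset.mul_sum]
  refine Finset.sum_congr rfl fun l hl => ?_
  have hl' : l ≤ d := Nat.lt_succ_iff.1 (Finset.mem_range.1 hl)
  obtain ⟨k, rfl⟩ := Nat.exists_eq_add_of_le hl'
  simp only [Pi.smul_apply, smul_eq_mul, Nat.add_sub_cancel_left]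
  ring

lemma diff_hv (a : Fin 2) (j i : Fin 2) :
    Differentiable ℂ (fun p : Fin 2 → ℂ => hv a (p j) i) := by
  unfold hv
  split_ifs <;> fin_cases i <;> simp <;> fun_prop

lemma pf_diff {d : ℕ} {φ : ℂ → V2 → ℂ} (h : PF d φ) (b : Fin 2) :
    Differentiable ℂ (fun p : Fin 2 → ℂ => φ (p 0) (hv b (p 1))) := by
  obtain ⟨a, ha⟩ := h
  simp only [ha]
  refine Differentiable.fun_sum fun l _ => ?_
  refine Differentiable.mul ?_ (((diff_hv b 1 0).pow _).mul ((diff_hv b 1 1).pow _))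
  exact (Polynomial.differentiable (a l)).comp (by fun_prop)

lemma gam_smul (s t : ℂ) (U Y : V2) : gam (s • U) (t • Y) = s ^ 4 * t ^ 4 * gam U Y := by
  unfold gam
  have : ∀ i, det2 (s • U) (Matrix.mulVec (gm i) (t • Y))
      = (s * t) * det2 U (Matrix.mulVec (gm i) Y) := by
    intro i
    rw [Matrix.mulVec_smul]
    simp only [det2, Pi.smul_apply, smul_eq_mul]
    ring
  simp only [this, Finset.prod_mul_distrib, Finset.prod_const, Finset.card_univ, Fintype.card_fin]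

lemma gam_diff (a b : Fin 2) :
    Differentiable ℂ (fun p : Fin 2 → ℂ => gam (hv a (p 0)) (hv b (p 1))) := by
  unfold gam
  simp only [Fin.prod_univ_four, det2, Matrix.mulVec, dotProduct, Fin.sum_univ_two]
  have h00 := diff_hv a 0 0
  have h01 := diff_hv a 0 1
  have h10 := diff_hv b 1 0
  have h11 := diff_hv b 1 1
  fun_prop

lemma fin2_cases (a a' : Fin 2) : a' = a ∨ (a ≠ a' ∧ a' = a.rev) := by
  revert a a'; decide

lemma hv_lam (a a' : Fin 2) (x : ℂ) (h : a ≠ a' → x ≠ 0) :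
    hv a x = lam a a' x • hv a' (if a = a' then x else x⁻¹) := by
  by_cases e : a = a'
  · subst e; simp [lam]
  · have hx := h e
    simp only [lam, if_neg e]
    funext i
    fin_cases a <;> fin_cases a' <;> fin_cases i <;> simp_all [hv]

lemma hv_self (a : Fin 2) (x : ℂ) : hv a x a = 1 := by
  fin_cases a <;> simp [hv]

lemma hv_ne (a : Fin 2) (x : ℂ) : hv a x ≠ 0 := by
  intro h
  have := congrFun h a
  rw [hv_self] at this
  simp at this

lemma lam_ne (a a' : Fin 2) (x : ℂ) (h : a ≠ a' → x ≠ 0) : lam a a' x ≠ 0 := by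
  unfold lam
  split_ifs with e
  · exact one_ne_zero
  · exact h e

end Crest.Agent.R258.Amp

end
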