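import Crest.Agent.R258.Amp1

set_option autoImplicit false

noncomputable section

namespace Crest.Agent.R258.Amp

open MvPolynomial
open Crest.AlgGeometry.QuadricBundle

/-- polynomial-valued maps with entire coefficients -/
def Ent (Q : (Fin 2 → ℂ) → MP) : Prop :=
  ∀ m : Fin 2 →₀ ℕ, Differentiable ℂ (fun p => coeff m (Q p))

lemma Ent.const (R : MP) : Ent (fun _ => R) := fun _ => differentiable_const _

lemma Ent.add {P Q : (Fin 2 → ℂ) → MP} (hP : Ent P) (hQ : Ent Q) : Ent (fun p => P p + Q p) := by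
  intro m
  simp only [coeff_add]
  exact (hP m).add (hQ m)

lemma Ent.sub {P Q : (Fin 2 → ℂ) → MP} (hP : Ent P) (hQ : Ent Q) : Ent (fun p => P p - Q p) := by
  intro m
  simp only [coeff_sub]
  exact (hP m).sub (hQ m)

lemma Ent.mul {P Q : (Fin 2 → ℂ) → MP} (hP : Ent P) (hQ : Ent Q) : Ent (fun p => P p * Q p) := by
  intro m
  simp only [coeff_mul]
  exact Differentiable.fun_sum fun x _ => (hP x.1).mul (hQ x.2)

lemma Ent.C {f : (Fin 2 → ℂ) → ℂ} (hf : Differentiable ℂ f) : Ent (fun p => C (f p)) := by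
  intro m
  simp only [coeff_C]
  split_ifs
  · exact hf
  · exact differentiable_const _

lemma Ent.Cmul {f : (Fin 2 → ℂ) → ℂ} (hf : Differentiable ℂ f) (R : MP) :
    Ent (fun p => MvPolynomial.C (f p) * R) := (Ent.C hf).mul (Ent.const R)

/-- action on vectors dual to the frame substitution -/
def act (M : M2) (v : V2) : V2 := fun j => ∑ i, M i j * v i

/-- sections of `Sym^n ⊗ O(c₁, c₂)` -/
structure Sec (g : Transition 2) (n : ℕ) (c₁ c₂ : ℤ) (Q : Chart → (Fin 2 → ℂ) → MP) : Prop where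
  hom : ∀ α p, (Q α p).IsHomogeneous n
  ent : ∀ α, Ent (Q α)
  compat : ∀ α β, ∀ p ∈ overlap α β, ∀ v : V2, eval v (Q α p) =
    lam α.1 β.1 (p 0) ^ c₁ * lam α.2 β.2 (p 1) ^ c₂ * eval (act (g α β p) v) (Q β (tau α β p))

lemma Sec.add {g : Transition 2} {n : ℕ} {c₁ c₂ : ℤ} {P Q : Chart → (Fin 2 → ℂ) → MP}
    (hP : Sec g n c₁ c₂ P) (hQ : Sec g n c₁ c₂ Q) : Sec g n c₁ c₂ (fun α p => P α p + Q α p) where
  hom α p := (hP.hom α p).add (hQ.hom α p)
  ent α := (hP.ent α).add (hQ.ent α)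
  compat α β p hp v := by
    simp only [map_add]
    rw [hP.compat α β p hp v, hQ.compat α β p hp v]; ring

lemma Sec.mul {g : Transition 2} {n n' : ℕ} {c₁ c₂ e₁ e₂ : ℤ} {P Q : Chart → (Fin 2 → ℂ) → MP}
    (hP : Sec g n c₁ c₂ P) (hQ : Sec g n' e₁ e₂ Q) :
    Sec g (n + n') (c₁ + e₁) (c₂ + e₂) (fun α p => P α p * Q α p) where
  hom α p := (hP.hom α p).mul (hQ.hom α p)
  ent α := (hP.ent α).mul (hQ.ent α)
  compat α β p hp v := by
    simp only [map_mul]
    rw [hP.compat α β p hp v, hQ.compat α β p hp v, zpow_add₀ (lam_ne _ _ _ hp.1),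
      zpow_add₀ (lam_ne _ _ _ hp.2)]
    ring

lemma Sec.const (g : Transition 2) (c : ℂ) : Sec g 0 0 0 (fun _ _ => C c) where
  hom _ _ := isHomogeneous_C _ _
  ent _ := Ent.const _
  compat α β p hp v := by simp

lemma tau_zero (α β : Chart) (p : Fin 2 → ℂ) :
    tau α β p 0 = if α.1 = β.1 then p 0 else (p 0)⁻¹ := rfl

lemma tau_one (α β : Chart) (p : Fin 2 → ℂ) :
    tau α β p 1 = if α.2 = β.2 then p 1 else (p 1)⁻¹ := rfl

lemma Sec.n1 (g : Transition 2) (a : Fin 2) :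
    Sec g 0 1 0 (fun α p => C (hv α.1 (p 0) a)) where
  hom _ _ := isHomogeneous_C _ _
  ent α := Ent.C (diff_hv α.1 0 a)
  compat α β p hp v := by
    rw [hv_lam α.1 β.1 (p 0) hp.1, tau_zero]
    simp

lemma Sec.n2 (g : Transition 2) (a : Fin 2) :
    Sec g 0 0 1 (fun α p => C (hv α.2 (p 1) a)) where
  hom _ _ := isHomogeneous_C _ _
  ent α := Ent.C (diff_hv α.2 1 a)
  compat α β p hp v := by
    rw [hv_lam α.2 β.2 (p 1) hp.2, tau_one]
    simp

/-- `R` is the value at the point `p` of the chart `α` of a section -/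
def Gen (g : Transition 2) (n : ℕ) (c₁ c₂ : ℤ) (α : Chart) (p : Fin 2 → ℂ) (R : MP) : Prop :=
  ∃ Q, Sec g n c₁ c₂ Q ∧ Q α p = R

lemma Gen.add {g : Transition 2} {n : ℕ} {c₁ c₂ : ℤ} {α : Chart} {p : Fin 2 → ℂ} {R S : MP}
    (hR : Gen g n c₁ c₂ α p R) (hS : Gen g n c₁ c₂ α p S) : Gen g n c₁ c₂ α p (R + S) := by
  obtain ⟨P, hP, rfl⟩ := hR
  obtain ⟨Q, hQ, rfl⟩ := hS
  exact ⟨_, hP.add hQ, rfl⟩

lemma Gen.mul {g : Transition 2} {n n' : ℕ} {c₁ c₂ e₁ e₂ : ℤ} {α : Chart} {p : Fin 2 → ℂ}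
    {R S : MP} (hR : Gen g n c₁ c₂ α p R) (hS : Gen g n' e₁ e₂ α p S) :
    Gen g (n + n') (c₁ + e₁) (c₂ + e₂) α p (R * S) := by
  obtain ⟨P, hP, rfl⟩ := hR
  obtain ⟨Q, hQ, rfl⟩ := hS
  exact ⟨_, hP.mul hQ, rfl⟩

lemma Gen.cast {g : Transition 2} {n n' : ℕ} {c₁ c₂ e₁ e₂ : ℤ} {α : Chart} {p : Fin 2 → ℂ}
    {R S : MP} (hR : Gen g n c₁ c₂ α p R) (hn : n = n') (h₁ : c₁ = e₁) (h₂ : c₂ = e₂)
    (h : R = S) : Gen g n' e₁ e₂ α p S := by
  subst hn h₁ h₂ h; exact hR

lemma Gen.Cmul {g : Transition 2} {n : ℕ} {c₁ c₂ : ℤ} {α : Chart} {p : Fin 2 → ℂ} {R : MP}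
    (hR : Gen g n c₁ c₂ α p R) (c : ℂ) : Gen g n c₁ c₂ α p (C c * R) := by
  have h : Gen g 0 0 0 α p (C c) := ⟨_, Sec.const g c, rfl⟩
  exact (h.mul hR).cast (by simp) (by simp) (by simp) rfl

lemma Gen.mono {g : Transition 2} {n : ℕ} {c₁ c₂ e₁ e₂ : ℤ} {α : Chart} {p : Fin 2 → ℂ} {R : MP}
    (hR : Gen g n c₁ c₂ α p R) (h₁ : c₁ ≤ e₁) (h₂ : c₂ ≤ e₂) : Gen g n e₁ e₂ α p R := by
  have a1 : Gen g 0 1 0 α p 1 := ⟨_, Sec.n1 g α.1, by simp [hv_self]⟩
  have a2 : Gen g 0 0 1 α p 1 := ⟨_, Sec.n2 g α.2, by simp [hv_self]⟩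
  have s1 : ∀ e, c₁ ≤ e → Gen g n e c₂ α p R := by
    intro e he
    induction e, he using Int.leInduction with
    | base => exact hR
    | succ e _ ih => exact (ih.mul a1).cast (by simp) rfl (by simp) (by simp)
  induction e₂, h₂ using Int.leInduction with
  | base => exact s1 e₁ h₁
  | succ e _ ih => exact (ih.mul a2).cast (by simp) (by simp) rfl (by simp)

section basic

variable (d : Dat)

/-- off-diagonal entry -/
def off (α β : Chart) (p : Fin 2 → ℂ) : ℂ :=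
  if α.1 = β.1 then 0 else (p 0)⁻¹ ^ d.D * d.E α.1 (p 0) (hv α.2 (p 1))

lemma act_zero (α β : Chart) (p : Fin 2 → ℂ) (v : V2) :
    act (G0 d α β p) v 0 = lam α.1 β.1 (p 0) ^ 30 * v 0 + off d α β p * v 1 := by
  simp [act, G0, off, Fin.sum_univ_two]

lemma act_one (α β : Chart) (p : Fin 2 → ℂ) (v : V2) :
    act (G0 d α β p) v 1 = (lam α.1 β.1 (p 0))⁻¹ ^ 4 * lam α.2 β.2 (p 1) ^ 26 * v 1 := by
  simp [act, G0, Fin.sum_univ_two]

lemma secX1 : Sec (G0 d) 1 4 (-26) (fun _ _ => X 1) where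
  hom _ _ := isHomogeneous_X _ _
  ent _ := Ent.const _
  compat α β p hp v := by
    have h1 := lam_ne _ _ _ hp.1
    have h2 := lam_ne _ _ _ hp.2
    simp only [eval_X, act_one, zpow_neg, zpow_ofNat]
    field_simp

lemma secS0 (a₀ : Fin 2) : Sec (G0 d) 1 d.D 0 (fun α p => if α.1 = a₀ then X 0 else
    C (p 0 ^ (d.D + 30)) * X 0 + C (d.E α.1 (p 0) (hv α.2 (p 1))) * X 1) where
  hom α p := by
    split_ifs
    · exact isHomogeneous_X _ _
    · exact (isHomogeneous_C_mul_X _ _).add (isHomogeneous_C_mul_X _ _)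
  ent α := by
    split_ifs
    · exact Ent.const _
    · exact (Ent.Cmul (by fun_prop) _).add (Ent.Cmul (pf_diff (d.E_pf α.1) α.2) _)
  compat α β p hp v := by
    obtain ⟨a, b⟩ := α
    obtain ⟨a', b'⟩ := β
    have hY := hv_lam b b' (p 1) hp.2
    have hE : ∀ c x, d.E c x (hv b (p 1)) = lam b b' (p 1) ^ 26 *
        d.E c x (hv b' (if b = b' then p 1 else (p 1)⁻¹)) := by
      intro c x; rw [hY, pf_smul (d.E_pf c)]
    have hx := hp.1
    simp only [tau_zero, tau_one, zpow_zero, zpow_natCast, mul_one] at hx ⊢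
    rcases fin2_cases a a' with rfl | ⟨hne, rfl⟩
    · have hl : lam a' a' (p 0) = 1 := by simp only [lam, if_true]
      by_cases h : a' = a₀
      · simp only [if_pos h, if_true, eval_X, act_zero, off, hl]; ring
      · simp only [if_neg h, if_true, map_add, map_mul, eval_C, eval_X, act_zero, act_one, off, hl]
        rw [hE a']; ring
    · have hx0 := hx hne
      have hs := d.E_symm a (p 0) (hv b (p 1)) hx0
      by_cases h : a = a₀
      · have h' : ¬ a.rev = a₀ := by rw [← h]; exact fun e => hne e.symm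
        simp only [if_pos h, if_neg h', if_neg hne, map_add, map_mul, eval_C, eval_X, act_zero,
          act_one, off, lam]
        rw [hE a.rev] at hs
        simp only [lam] at hs
        generalize d.E a.rev (p 0)⁻¹ _ = e' at hs ⊢
        generalize d.E a (p 0) _ = e at hs ⊢
        generalize (if b = b' then 1 else p 1) = μ at hs ⊢
        generalize p 0 = x at hs hx0 ⊢
        have hxx : x ^ d.D * x⁻¹ ^ d.D = 1 := by rw [← mul_pow, mul_inv_cancel₀ hx0, one_pow]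
        have hx1 : x * x⁻¹ = 1 := mul_inv_cancel₀ hx0
        have hx30 : x ^ 30 * x⁻¹ ^ 30 = 1 := by rw [← mul_pow, hx1, one_pow]
        rw [pow_add]
        linear_combination (-(x⁻¹ ^ 4) * v 1) * hs - (v 0 * x ^ 30 * x⁻¹ ^ 30
          + x⁻¹ ^ 30 * x⁻¹ ^ d.D * e * v 1) * hxx - v 0 * hx30
      · have h' : a.rev = a₀ := by
          rcases fin2_cases a a₀ with e | e
          · exact absurd e.symm h
          · exact e.2.symm
        simp only [if_neg h, if_pos h', if_neg hne, map_add, map_mul, eval_C, eval_X, act_zero,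
          off, lam]
        generalize p 0 = x at hx0 ⊢
        have hxx : x ^ d.D * x⁻¹ ^ d.D = 1 := by rw [← mul_pow, mul_inv_cancel₀ hx0, one_pow]
        rw [pow_add]
        linear_combination (-(d.E a x (hv b (p 1))) * v 1) * hxx

lemma secL : Sec (G0 d) 1 (-26) 4 (fun α p =>
    C (gam (hv α.1 (p 0)) (hv α.2 (p 1))) * X 0 - C (d.th α.1 (p 0) (hv α.2 (p 1))) * X 1) where
  hom α p := (isHomogeneous_C_mul_X _ _).sub (isHomogeneous_C_mul_X _ _)
  ent α := (Ent.Cmul (gam_diff _ _) _).sub (Ent.Cmul (pf_diff (d.th_pf α.1) α.2) _)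
  compat α β p hp v := by
    obtain ⟨a, b⟩ := α
    obtain ⟨a', b'⟩ := β
    have hX := hv_lam a a' (p 0) hp.1
    have hY := hv_lam b b' (p 1) hp.2
    have h2 := lam_ne _ _ _ hp.2
    have hx := hp.1
    have hT : ∀ c x, d.th c x (hv b (p 1)) = lam b b' (p 1) ^ 30 *
        d.th c x (hv b' (if b = b' then p 1 else (p 1)⁻¹)) := by
      intro c x; rw [hY, pf_smul (d.th_pf c)]
    have hG : gam (hv a (p 0)) (hv b (p 1)) = lam a a' (p 0) ^ 4 * lam b b' (p 1) ^ 4 *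
        gam (hv a' (if a = a' then p 0 else (p 0)⁻¹)) (hv b' (if b = b' then p 1 else (p 1)⁻¹)) := by
      rw [← gam_smul, ← hX, ← hY]
    simp only [tau_zero, tau_one, zpow_neg, zpow_ofNat, map_sub, map_mul, eval_C, eval_X,
      act_zero, act_one, off] at hx h2 ⊢
    rcases fin2_cases a a' with rfl | ⟨hne, rfl⟩
    · rw [hG, hT]
      simp only [lam, if_true]
      ring
    · have hx0 := hx hne
      have hs := d.E_eq a (p 0) (hv b (p 1)) hx0
      rw [hT a.rev] at hs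
      rw [hG] at hs ⊢
      simp only [if_neg hne] at hs ⊢
      have hl : lam a a.rev (p 0) = p 0 := by simp only [lam, if_neg hne]
      rw [hl] at hs ⊢
      generalize d.th a.rev (p 0)⁻¹ _ = t' at hs ⊢
      generalize d.th a (p 0) _ = t at hs ⊢
      generalize gam _ _ = γ at hs ⊢
      generalize (p 0)⁻¹ ^ d.D * d.E a (p 0) _ = e at hs ⊢
      generalize lam b b' (p 1) = μ at hs ⊢
      generalize p 0 = x at hs hx0 ⊢
      have ht : t = x⁻¹ ^ 30 * (μ ^ 30 * t' - x ^ 4 * μ ^ 4 * γ * e) := by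
        field_simp; linear_combination -hs
      rw [ht]
      field_simp
      ring

lemma secPhi (k : Fin 2) : Sec (G0 d) 2 0 0 (fun α p =>
    C (eval (hv α.1 (p 0)) (d.f k)) * (X 0 * X 0) + C (d.c1 k α.1 (p 0) (hv α.2 (p 1))) * (X 0 * X 1)
      + C (d.c2 k α.1 (p 0) (hv α.2 (p 1))) * (X 1 * X 1)) where
  hom α p := by
    have h := fun i j => (isHomogeneous_X ℂ (σ := Fin 2) i).mul (isHomogeneous_X ℂ j)
    exact (((h 0 0).C_mul _).add ((h 0 1).C_mul _)).add ((h 1 1).C_mul _)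
  ent α := ((Ent.Cmul (diff_eval _ (diff_hv α.1 0) _) _).add
    (Ent.Cmul (pf_diff (d.c1_pf k α.1) α.2) _)).add (Ent.Cmul (pf_diff (d.c2_pf k α.1) α.2) _)
  compat α β p hp v := by
    obtain ⟨a, b⟩ := α
    obtain ⟨a', b'⟩ := β
    have hX := hv_lam a a' (p 0) hp.1
    have hY := hv_lam b b' (p 1) hp.2
    have hx := hp.1
    have h1 : ∀ c x, d.c1 k c x (hv b (p 1)) = lam b b' (p 1) ^ 26 *
        d.c1 k c x (hv b' (if b = b' then p 1 else (p 1)⁻¹)) := by
      intro c x; rw [hY, pf_smul (d.c1_pf k c)]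
    have h2 : ∀ c x, d.c2 k c x (hv b (p 1)) = lam b b' (p 1) ^ 52 *
        d.c2 k c x (hv b' (if b = b' then p 1 else (p 1)⁻¹)) := by
      intro c x; rw [hY, pf_smul (d.c2_pf k c)]
    have hf : eval (hv a (p 0)) (d.f k) = lam a a' (p 0) ^ 60 *
        eval (hv a' (if a = a' then p 0 else (p 0)⁻¹)) (d.f k) := by
      rw [← eval_smul_hom (d.f_hom k), ← hX]
    simp only [tau_zero, tau_one, zpow_zero, map_add, map_mul, eval_C, eval_X,
      act_zero, act_one, off] at hx ⊢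
    rcases fin2_cases a a' with rfl | ⟨hne, rfl⟩
    · rw [h1, h2]
      simp only [lam, if_true]
      ring
    · have hx0 := hx hne
      have s1 := d.c1_compat k a (p 0) (hv b (p 1)) hx0
      have s2 := d.c2_compat k a (p 0) (hv b (p 1)) hx0
      rw [h1 a.rev] at s1 s2
      rw [h2 a.rev] at s2
      rw [hf, s1, s2]
      simp only [if_neg hne]
      have hl : lam a a.rev (p 0) = p 0 := by simp only [lam, if_neg hne]
      rw [hl]
      generalize (p 0)⁻¹ ^ d.D * d.E a (p 0) _ = e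
      generalize p 0 = x at hx0 ⊢
      field_simp
      ring

end basic

end Crest.Agent.R258.Amp

end
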