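import Crest.Agent.R258.Defs

set_option autoImplicit false

noncomputable section

namespace Crest.Agent.R258

open Matrix Complex
open scoped ComplexConjugate ComplexOrder Topology

namespace C2

abbrev Sm (F : ℂ → ℂ) : Prop := ContDiff ℝ (⊤ : ℕ∞) F

def Per (F : ℂ → ℂ) : Prop := ∀ ζ, F (ζ + 2 * Real.pi * I) = F ζ

def In (F : ℂ → ℂ) (ρ : ℝ) : ℂ := ∫ θ in (-Real.pi)..Real.pi, F (ρ + θ * I)

lemma Sm.diff {F : ℂ → ℂ} (h : Sm F) : Differentiable ℝ F := h.differentiable (by simp)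

lemma Sm.dd {F : ℂ → ℂ} (h : Sm F) (ω : ℂ) : Sm (Dd ω F) := by
  have h1 : ContDiff ℝ (⊤ : ℕ∞) (fderiv ℝ F) := h.fderiv_right (by simp)
  exact h1.clm_apply contDiff_const

lemma Per.dd {F : ℂ → ℂ} (h : Per F) (ω : ℂ) : Per (Dd ω F) := by
  intro ζ
  unfold Dd
  rw [← fderiv_comp_add_right]
  have : (fun x => F (x + 2 * Real.pi * I)) = F := funext h
  rw [this]

lemma line_deriv {F : ℂ → ℂ} (h : Sm F) (ζ ω : ℂ) (t : ℝ) :
    HasDerivAt (fun t : ℝ => F (ζ + t * ω)) (Dd ω F (ζ + t * ω)) t := by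
  have h1 : HasDerivAt (fun t : ℝ => ζ + (t : ℂ) * ω) ω t := by
    simpa using ((Complex.ofRealCLM.hasDerivAt (x := t)).mul_const ω).const_add ζ
  exact (h.diff _).hasFDerivAt.comp_hasDerivAt t h1

lemma cont_in {F : ℂ → ℂ} (h : Continuous F) (ρ : ℝ) :
    Continuous fun θ : ℝ => F (ρ + θ * I) := by fun_prop

lemma int_in {F : ℂ → ℂ} (h : Continuous F) (ρ a b : ℝ) :
    IntervalIntegrable (fun θ : ℝ => F (ρ + θ * I)) MeasureTheory.volume a b :=
  (cont_in h ρ).intervalIntegrable a b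

lemma In_deriv {F : ℂ → ℂ} (h : Sm F) (ρ : ℝ) : HasDerivAt (In F) (In (Dd 1 F) ρ) ρ := by
  have hc : Continuous F := h.continuous
  have hc' : Continuous (Dd 1 F) := (h.dd 1).continuous
  have hK : IsCompact (Set.Icc (ρ - 1) (ρ + 1) ×ˢ Set.uIcc (-Real.pi) Real.pi) :=
    isCompact_Icc.prod isCompact_uIcc
  have hcc : Continuous fun q : ℝ × ℝ => Dd 1 F (q.1 + q.2 * I) := by fun_prop
  obtain ⟨C, hC⟩ := hK.exists_bound_of_continuousOn hcc.continuousOn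
  refine (intervalIntegral.hasDerivAt_integral_of_dominated_loc_of_deriv_le
    (F := fun (x : ℝ) (θ : ℝ) => F (x + θ * I)) (F' := fun (x : ℝ) (θ : ℝ) => Dd 1 F (x + θ * I))
    (s := Set.Icc (ρ - 1) (ρ + 1)) (bound := fun _ => C)
    (Icc_mem_nhds (by linarith) (by linarith)) ?_ (int_in hc ρ _ _) ?_ ?_ ?_ ?_).2
  · exact Filter.Eventually.of_forall fun x => (cont_in hc x).aestronglyMeasurable
  · exact (cont_in hc' ρ).aestronglyMeasurable
  · refine Filter.Eventually.of_forall fun θ hθ x hx => hC (x, θ) ⟨hx, Set.uIoc_subset_uIcc hθ⟩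
  · exact intervalIntegrable_const
  · refine Filter.Eventually.of_forall fun θ _ x _ => ?_
    have := line_deriv h (θ * I) 1 x
    simpa [add_comm] using this

lemma In_ddI {F : ℂ → ℂ} (h : Sm F) (hp : Per F) (ρ : ℝ) : In (Dd I F) ρ = 0 := by
  unfold In
  rw [intervalIntegral.integral_eq_sub_of_hasDerivAt (f := fun θ : ℝ => F (ρ + θ * I))
    (fun θ _ => line_deriv h ρ I θ) (int_in (h.dd I).continuous ρ _ _)]
  have := hp (ρ + ((-Real.pi : ℝ) : ℂ) * I)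
  rw [← this]
  rw [sub_eq_zero]
  congr 1
  push_cast
  ring

lemma In_add {F G : ℂ → ℂ} (hF : Continuous F) (hG : Continuous G) (ρ : ℝ) :
    In (fun ζ => F ζ + G ζ) ρ = In F ρ + In G ρ :=
  intervalIntegral.integral_add (int_in hF ρ _ _) (int_in hG ρ _ _)

lemma In_mul (c : ℂ) (F : ℂ → ℂ) (ρ : ℝ) : In (fun ζ => c * F ζ) ρ = c * In F ρ :=
  intervalIntegral.integral_const_mul _ _

lemma In_re {F : ℂ → ℂ} (hF : Continuous F) (ρ : ℝ) :
    (In F ρ).re = ∫ θ in (-Real.pi)..Real.pi, (F (ρ + θ * I)).re :=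
  (intervalIntegral.intervalIntegral_re (int_in hF ρ _ _)).symm

lemma In_re_nonneg {F : ℂ → ℂ} (hF : Continuous F) (ρ : ℝ)
    (h : ∀ θ : ℝ, 0 ≤ (F (ρ + θ * I)).re) : 0 ≤ (In F ρ).re := by
  rw [In_re hF]
  exact intervalIntegral.integral_nonneg (by linarith [Real.pi_pos]) fun θ _ => h θ

lemma dd_mul {F G : ℂ → ℂ} (hF : Sm F) (hG : Sm G) (ω : ℂ) :
    Dd ω (fun ζ => F ζ * G ζ) = fun ζ => Dd ω F ζ * G ζ + F ζ * Dd ω G ζ := by
  funext ζ
  unfold Dd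
  rw [fderiv_fun_mul (hF.diff ζ) (hG.diff ζ)]
  simp [mul_comm, add_comm]

lemma dd_add {F G : ℂ → ℂ} (hF : Sm F) (hG : Sm G) (ω : ℂ) :
    Dd ω (fun ζ => F ζ + G ζ) = fun ζ => Dd ω F ζ + Dd ω G ζ := by
  funext ζ
  unfold Dd
  rw [fderiv_fun_add (hF.diff ζ) (hG.diff ζ)]
  simp

lemma dd_conj {F : ℂ → ℂ} (hF : Sm F) (ω : ℂ) :
    Dd ω (fun ζ => conj (F ζ)) = fun ζ => conj (Dd ω F ζ) := by
  funext ζ
  unfold Dd
  have := (Complex.conjCLE.toContinuousLinearMap.hasFDerivAt (x := F ζ)).comp ζ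
    (hF.diff ζ).hasFDerivAt
  have h2 : (fun ζ => conj (F ζ)) = (Complex.conjCLE.toContinuousLinearMap ∘ F) := by
    funext z; simp
  rw [h2, this.fderiv]
  simp

lemma dd_const (c ω : ℂ) : Dd ω (fun _ => c) = fun _ => 0 := by
  funext ζ; simp [Dd]

lemma dd_aff (τ ζ₀ ω : ℂ) : Dd ω (fun ζ => τ * (ζ - ζ₀)) = fun _ => τ * ω := by
  funext ζ
  unfold Dd
  have : HasFDerivAt (fun ζ : ℂ => τ * (ζ - ζ₀)) (τ • ContinuousLinearMap.id ℝ ℂ) ζ := by
    simpa using ((hasFDerivAt_id (𝕜 := ℝ) ζ).sub_const ζ₀).const_mul τ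
  rw [this.fderiv]
  simp

lemma sm_conj {F : ℂ → ℂ} (hF : Sm F) : Sm fun ζ => conj (F ζ) :=
  Complex.conjCLE.contDiff.comp hF

lemma sm_aff (τ ζ₀ : ℂ) : Sm fun ζ => τ * (ζ - ζ₀) := by
  unfold Sm; fun_prop

lemma sm_of_entire {f : ℂ → ℂ} (hf : Differentiable ℂ f) : Sm f :=
  (hf.contDiff (n := (⊤ : ℕ∞))).restrict_scalars ℝ

lemma hf_eq (P : M2) (s t : V2) : hf P s t = ∑ i, ∑ j, conj (t i) * (P i j * s j) := by
  simp [hf, dotProduct, mulVec, mul_add]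

lemma hf_conj {P : M2} (hP : P.PosDef) (s t : V2) : hf P t s = conj (hf P s t) := by
  have h : ∀ i j, conj (P i j) = P j i := fun i j => hP.1.apply j i
  simp only [hf_eq, Fin.sum_univ_two, map_add, map_mul, conj_conj, h]
  ring

lemma hf_nonneg {P : M2} (hP : P.PosDef) (s : V2) : 0 ≤ (hf P s s).re := by
  have := hP.posSemidef.dotProduct_mulVec_nonneg s
  exact (Complex.nonneg_iff.mp this).1

lemma hf_add_smul (P : M2) (s t : V2) (c : ℂ) :
    hf P (s + c • t) (s + c • t)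
      = hf P s s + conj c * hf P s t + c * hf P t s + c * conj c * hf P t t := by
  simp only [hf_eq, Fin.sum_univ_two, Pi.add_apply, Pi.smul_apply, smul_eq_mul, map_add, map_mul]
  ring

lemma hf_smul_right (P : M2) (s t : V2) (c : ℂ) : hf P s (c • t) = conj c * hf P s t := by
  simp only [hf_eq, Fin.sum_univ_two, Pi.smul_apply, smul_eq_mul, map_mul]
  ring

lemma hf_smul_left (P : M2) (s t : V2) (c : ℂ) : hf P (c • s) t = c * hf P s t := by
  simp only [hf_eq, Fin.sum_univ_two, Pi.smul_apply, smul_eq_mul]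
  ring

lemma hf_add_right (P : M2) (s t u : V2) : hf P s (t + u) = hf P s t + hf P s u := by
  simp only [hf_eq, Fin.sum_univ_two, Pi.add_apply, map_add]
  ring

/-- Cauchy–Schwarz in arithmetic-geometric form -/
lemma hf_norm_le {P : M2} (hP : P.PosDef) (s t : V2) {τ : ℝ} (hτ : 0 < τ) :
    ‖hf P s t‖ ≤ (hf P s s).re / (2 * τ) + τ * (hf P t t).re / 2 := by
  set k := hf P s t with hk
  by_cases h0 : k = 0
  · rw [h0, norm_zero]
    have := hf_nonneg hP s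
    have := hf_nonneg hP t
    positivity
  have hn : 0 < ‖k‖ := norm_pos_iff.mpr h0
  have h1 := hf_nonneg hP (s + (-(τ : ℂ) * k / (‖k‖ : ℂ)) • t)
  rw [hf_add_smul, hf_conj hP s t, ← hk] at h1
  have hkk : k * conj k = ((‖k‖ : ℝ) : ℂ) ^ 2 := by
    rw [Complex.mul_conj, Complex.normSq_eq_norm_sq]; push_cast; ring
  have hnc : ((‖k‖ : ℝ) : ℂ) ≠ 0 := by exact_mod_cast hn.ne'
  have e1 : conj (-(τ : ℂ) * k / (‖k‖ : ℂ)) * k = ((-(τ * ‖k‖) : ℝ) : ℂ) := by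
    simp only [map_div₀, map_mul, map_neg, conj_ofReal]
    push_cast
    field_simp
    linear_combination -hkk
  have e2 : (-(τ : ℂ) * k / (‖k‖ : ℂ)) * conj k = ((-(τ * ‖k‖) : ℝ) : ℂ) := by
    push_cast
    field_simp
    linear_combination -hkk
  have e3 : (-(τ : ℂ) * k / (‖k‖ : ℂ)) * conj (-(τ : ℂ) * k / (‖k‖ : ℂ)) = ((τ ^ 2 : ℝ) : ℂ) := by
    simp only [map_div₀, map_mul, map_neg, conj_ofReal]
    push_cast
    field_simp
    linear_combination hkk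
  rw [e1, e2, e3] at h1
  simp only [add_re, ofReal_re, re_ofReal_mul] at h1
  rw [div_add_div _ _ (by positivity) (by norm_num), le_div_iff₀ (by positivity)]
  nlinarith

lemma sm_hf {P : ℂ → M2} (hP : NegLine P) {s t : ℂ → V2} (hs : Differentiable ℂ s)
    (ht : Differentiable ℂ t) : Sm fun ζ => hf (P (exp ζ)) (s ζ) (t ζ) := by
  simp only [hf_eq]
  refine ContDiff.sum fun i _ => ContDiff.sum fun j _ => ?_
  refine (sm_conj (sm_of_entire ((differentiable_pi.mp ht) i))).mul (ContDiff.mul ?_ ?_)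
  · exact (hP.smooth i j).comp (sm_of_entire Complex.differentiable_exp)
  · exact sm_of_entire ((differentiable_pi.mp hs) j)

/-- the pointwise quadratic inequality -/
lemma quad {P : ℂ → M2} (hP : NegLine P) {s t : ℂ → V2} (hs : Differentiable ℂ s)
    (ht : Differentiable ℂ t) (τ ζ₀ : ℂ) :
    0 ≤ (lap (fun ζ => hf (P (exp ζ)) (s ζ) (s ζ)) ζ₀
      + 4 * conj τ * (Dd 1 (fun ζ => hf (P (exp ζ)) (s ζ) (t ζ)) ζ₀
          - I * Dd I (fun ζ => hf (P (exp ζ)) (s ζ) (t ζ)) ζ₀)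
      + 4 * (τ * conj τ) * hf (P (exp ζ₀)) (t ζ₀) (t ζ₀)).re := by
  have hd : Differentiable ℂ fun ζ => s ζ + (τ * (ζ - ζ₀)) • t ζ := by fun_prop
  have h0 := hP.sh _ hd ζ₀
  set a : ℂ → ℂ := fun ζ => hf (P (exp ζ)) (s ζ) (s ζ) with ha
  set k : ℂ → ℂ := fun ζ => hf (P (exp ζ)) (s ζ) (t ζ) with hk
  set b : ℂ → ℂ := fun ζ => hf (P (exp ζ)) (t ζ) (t ζ) with hb
  set L : ℂ → ℂ := fun ζ => τ * (ζ - ζ₀) with hL
  have sa : Sm a := sm_hf hP hs hs
  have sk : Sm k := sm_hf hP hs ht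
  have sb : Sm b := sm_hf hP ht ht
  have sL : Sm L := sm_aff τ ζ₀
  have sL' : Sm fun ζ => conj (L ζ) := sm_conj sL
  have sk' : Sm fun ζ => conj (k ζ) := sm_conj sk
  have hfun : (fun ζ => hf (P (exp ζ)) (s ζ + (τ * (ζ - ζ₀)) • t ζ) (s ζ + (τ * (ζ - ζ₀)) • t ζ))
      = fun ζ => ((a ζ + conj (L ζ) * k ζ) + L ζ * conj (k ζ)) + (L ζ * conj (L ζ)) * b ζ := by
    funext ζ
    rw [hf_add_smul, hf_conj (hP.pos _) (s ζ) (t ζ)]
  rw [hfun] at h0
  have key : ∀ ω : ℂ, Dd ω (Dd ω fun ζ => ((a ζ + conj (L ζ) * k ζ) + L ζ * conj (k ζ))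
      + (L ζ * conj (L ζ)) * b ζ) ζ₀ = Dd ω (Dd ω a) ζ₀ + 2 * conj (τ * ω) * Dd ω k ζ₀
        + 2 * (τ * ω) * conj (Dd ω k ζ₀) + 2 * (τ * ω) * conj (τ * ω) * b ζ₀ := by
    intro ω
    have dL : Dd ω L = fun _ => τ * ω := dd_aff τ ζ₀ ω
    have dL' : Dd ω (fun ζ => conj (L ζ)) = fun _ => conj (τ * ω) := by rw [dd_conj sL, dL]
    have dk' : Dd ω (fun ζ => conj (k ζ)) = fun ζ => conj (Dd ω k ζ) := dd_conj sk ω
    have sc : ∀ c : ℂ, Sm fun _ => c := fun c => contDiff_const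
    have sdk := sk.dd ω
    have sdk' := sm_conj sdk
    have sdb := sb.dd ω
    rw [dd_add ((sa.add (sL'.mul sk)).add (sL.mul sk')) ((sL.mul sL').mul sb),
      dd_add (sa.add (sL'.mul sk)) (sL.mul sk'), dd_add sa (sL'.mul sk), dd_mul sL' sk,
      dd_mul sL sk', dd_mul (sL.mul sL') sb, dd_mul sL sL', dL, dL', dk']
    rw [dd_add (((sa.dd ω).add (((sc _).mul sk).add (sL'.mul sdk))).add
        (((sc _).mul sk').add (sL.mul sdk')))
        (((((sc _).mul sL').add (sL.mul (sc _))).mul sb).add ((sL.mul sL').mul sdb)),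
      dd_add ((sa.dd ω).add (((sc _).mul sk).add (sL'.mul sdk)))
        (((sc _).mul sk').add (sL.mul sdk')),
      dd_add (sa.dd ω) (((sc _).mul sk).add (sL'.mul sdk)),
      dd_add ((sc _).mul sk) (sL'.mul sdk), dd_add ((sc _).mul sk') (sL.mul sdk'),
      dd_add ((((sc _).mul sL').add (sL.mul (sc _))).mul sb) ((sL.mul sL').mul sdb),
      dd_mul (sc _) sk, dd_mul sL' sdk, dd_mul (sc _) sk', dd_mul sL sdk',
      dd_mul (((sc _).mul sL').add (sL.mul (sc _))) sb, dd_mul (sL.mul sL') sdb,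
      dd_add ((sc _).mul sL') (sL.mul (sc _)), dd_mul (sc _) sL', dd_mul sL (sc _),
      dd_mul sL sL', dL, dL', dk']
    have hL0 : L ζ₀ = 0 := by simp [hL]
    simp only [dd_const, hL0, map_zero]
    ring
  unfold lap at h0 ⊢
  rw [key 1, key I] at h0
  refine le_of_le_of_eq h0 ?_
  simp only [add_re, mul_re, sub_re, map_mul, conj_re, conj_im, mul_im, sub_im, I_re, I_im,
    one_re, one_im, re_ofNat, im_ofNat, conj_I, neg_re, neg_im, map_one]
  ring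

end C2

end Crest.Agent.R258

end
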