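import Crest.Agent.R258.Circ1

set_option autoImplicit false

noncomputable section

namespace Crest.Agent.R258

open Matrix Complex
open scoped ComplexConjugate ComplexOrder Topology

namespace C2

/-- the integrand in the logarithmic coordinate -/
def lg (P : ℂ → M2) (s t : ℂ → V2) : ℂ → ℂ := fun ζ => hf (P (exp ζ)) (s (exp ζ)) (t (exp ζ))

lemma Mn_eq (P : ℂ → M2) (s t : ℂ → V2) : Mn P s t = In (lg P s t) := rfl

lemma per_lg (P : ℂ → M2) (s t : ℂ → V2) : Per (lg P s t) := by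
  intro ζ
  unfold lg
  rw [Complex.exp_add, Complex.exp_two_pi_mul_I, mul_one]

abbrev Hs (t : ℂ → V2) : Prop := DifferentiableOn ℂ t {z | z ≠ 0}

lemma Hs.comp {t : ℂ → V2} (ht : Hs t) : Differentiable ℂ fun ζ => t (exp ζ) := by
  intro ζ
  have ho : IsOpen {z : ℂ | z ≠ 0} := isOpen_ne
  exact (ht.differentiableAt (ho.mem_nhds (Complex.exp_ne_zero ζ))).comp ζ
    Complex.differentiableAt_exp

lemma hs_of {t : ℂ → V2} (ht : Differentiable ℂ t) : Hs t := ht.differentiableOn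

lemma sm_lg {P : ℂ → M2} (hP : NegLine P) {s t : ℂ → V2} (hs : Hs s) (ht : Hs t) :
    Sm (lg P s t) := sm_hf hP hs.comp ht.comp

lemma re_deriv {f : ℝ → ℂ} {f' : ℂ} {x : ℝ} (h : HasDerivAt f f' x) :
    HasDerivAt (fun y => (f y).re) f'.re x :=
  Complex.reCLM.hasFDerivAt.comp_hasDerivAt x h

/-- integrated quadratic inequality -/
lemma quad_in {P : ℂ → M2} (hP : NegLine P) {s t : ℂ → V2} (hs : Hs s) (ht : Hs t) (τ : ℂ)
    (ρ : ℝ) : 0 ≤ (In (Dd 1 (Dd 1 (lg P s s))) ρ).re + (4 * conj τ * In (Dd 1 (lg P s t)) ρ).re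
      + 4 * ‖τ‖ ^ 2 * (In (lg P t t) ρ).re := by
  have sa := sm_lg hP hs hs
  have sk := sm_lg hP hs ht
  have sb := sm_lg hP ht ht
  have c11 := ((sa.dd 1).dd 1).continuous
  have cII := ((sa.dd I).dd I).continuous
  have c1 := (sk.dd 1).continuous
  have cI := (sk.dd I).continuous
  have cb := sb.continuous
  have h := In_re_nonneg (F := fun ζ => ((Dd 1 (Dd 1 (lg P s s)) ζ + Dd I (Dd I (lg P s s)) ζ)
      + (4 * conj τ) * (Dd 1 (lg P s t) ζ + (-I) * Dd I (lg P s t) ζ))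
      + (4 * (τ * conj τ)) * lg P t t ζ) (by fun_prop) ρ (fun θ => by
        have := quad hP hs.comp ht.comp τ (ρ + θ * I)
        refine le_of_le_of_eq this ?_
        congr 1
        unfold lap lg
        ring)
  rw [In_add (by fun_prop) (by fun_prop), In_add (by fun_prop) (by fun_prop),
    In_add c11 cII, In_mul, In_mul, In_add c1 (by fun_prop), In_mul,
    In_ddI (sa.dd I) ((per_lg P s s).dd I), In_ddI sk (per_lg P s t)] at h
  have e : τ * conj τ = ((‖τ‖ ^ 2 : ℝ) : ℂ) := by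
    rw [Complex.mul_conj, Complex.normSq_eq_norm_sq]
  rw [e] at h
  have e2 : (4 * ((‖τ‖ ^ 2 : ℝ) : ℂ) * In (lg P t t) ρ).re = 4 * ‖τ‖ ^ 2 * (In (lg P t t) ρ).re := by
    have : (4 * ((‖τ‖ ^ 2 : ℝ) : ℂ)) = ((4 * ‖τ‖ ^ 2 : ℝ) : ℂ) := by push_cast; ring
    rw [this, re_ofReal_mul]
  simpa only [add_zero, mul_zero, add_re, e2] using h

lemma A_nonneg {P : ℂ → M2} (hP : NegLine P) {s : ℂ → V2} (hs : Hs s) (ρ : ℝ) :
    0 ≤ (Mn P s s ρ).re :=
  In_re_nonneg (sm_lg hP hs hs).continuous ρ fun _ => hf_nonneg (hP.pos _) _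

lemma A1_mono {P : ℂ → M2} (hP : NegLine P) {s : ℂ → V2} (hs : Hs s) :
    Monotone fun ρ => (In (Dd 1 (lg P s s)) ρ).re := by
  have sa := sm_lg hP hs hs
  refine monotone_of_deriv_nonneg (fun ρ => (re_deriv (In_deriv (sa.dd 1) ρ)).differentiableAt)
    fun ρ => ?_
  rw [(re_deriv (In_deriv (sa.dd 1) ρ)).deriv]
  simpa using quad_in hP hs hs 0 ρ

lemma cont_hf {P : ℂ → M2} (hP : NegLine P) {s t : ℂ → V2} (hs : Continuous s)
    (ht : Continuous t) : Continuous fun z => hf (P z) (s z) (t z) := by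
  simp only [hf_eq]
  have := fun i j => (hP.smooth i j).continuous
  fun_prop

lemma A1_nonneg {P : ℂ → M2} (hP : NegLine P) {s : ℂ → V2} (hs : Differentiable ℂ s) (ρ₀ : ℝ) :
    0 ≤ (In (Dd 1 (lg P s s)) ρ₀).re := by
  have sa := sm_lg hP (hs_of hs) (hs_of hs)
  by_contra hneg
  push Not at hneg
  set c := -(In (Dd 1 (lg P s s)) ρ₀).re with hc
  have hc0 : 0 < c := by linarith
  obtain ⟨C, hC⟩ := (isCompact_closedBall (0 : ℂ) (Real.exp ρ₀)).exists_bound_of_continuousOn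
    (cont_hf hP hs.continuous hs.continuous).continuousOn
  have hbd : ∀ ρ ≤ ρ₀, (In (lg P s s) ρ).re ≤ C * (2 * Real.pi) := by
    intro ρ hρ
    refine (Complex.re_le_norm _).trans ?_
    have := intervalIntegral.norm_integral_le_of_norm_le_const (a := -Real.pi) (b := Real.pi)
      (C := C) (f := fun θ : ℝ => lg P s s (ρ + θ * I)) (fun θ _ => hC _ (by
        simp only [Metric.mem_closedBall, dist_zero_right, Complex.norm_exp]
        simpa using hρ))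
    refine this.trans (le_of_eq ?_)
    rw [abs_of_pos (by linarith [Real.pi_pos])]
    ring
  have hanti : AntitoneOn (fun ρ => (In (lg P s s) ρ).re + c * ρ) (Set.Iic ρ₀) := by
    have hd : ∀ ρ, HasDerivAt (fun ρ => (In (lg P s s) ρ).re + c * ρ)
        ((In (Dd 1 (lg P s s)) ρ).re + c) ρ := fun ρ => by
      have := (re_deriv (In_deriv sa ρ)).fun_add ((hasDerivAt_id' ρ).const_mul c)
      rwa [mul_one] at this
    refine antitoneOn_of_deriv_nonpos (convex_Iic _)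
      (fun ρ _ => (hd ρ).continuousAt.continuousWithinAt)
      (fun ρ _ => (hd ρ).differentiableAt.differentiableWithinAt) fun ρ hρ => ?_
    rw [(hd ρ).deriv]
    have := A1_mono hP (hs_of hs) (Set.mem_Iic.mp (interior_subset hρ))
    simp only at this
    linarith
  have hC0 : 0 ≤ C * (2 * Real.pi) :=
    (A_nonneg hP (hs_of hs) ρ₀).trans (hbd ρ₀ le_rfl)
  have hle : ρ₀ - (C * (2 * Real.pi) + 1) / c ≤ ρ₀ := by
    have : 0 ≤ (C * (2 * Real.pi) + 1) / c := by positivity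
    linarith
  have h1 := hanti (Set.mem_Iic.mpr hle) (Set.mem_Iic.mpr le_rfl) hle
  have h2 := hbd _ hle
  have h3 : 0 ≤ (In (lg P s s) ρ₀).re := A_nonneg hP (hs_of hs) ρ₀
  have h4 : c * (ρ₀ - (C * (2 * Real.pi) + 1) / c) = c * ρ₀ - (C * (2 * Real.pi) + 1) := by
    field_simp
  simp only at h1
  linarith

lemma mono {P : ℂ → M2} {s : ℂ → V2} (hP : NegLine P) (hs : Differentiable ℂ s) :
    Monotone fun ρ => (Mn P s s ρ).re := by
  have sa := sm_lg hP (hs_of hs) (hs_of hs)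
  refine monotone_of_deriv_nonneg (fun ρ => (re_deriv (In_deriv sa ρ)).differentiableAt)
    fun ρ => ?_
  rw [Mn_eq, (re_deriv (In_deriv sa ρ)).deriv]
  exact A1_nonneg hP hs ρ

/-- passing to the chart at infinity -/
lemma Mn_flip {P P' : ℂ → M2} {s t s' t' : ℂ → V2} (c : ℂ) (ρ : ℝ)
    (h : ∀ z : ℂ, ‖z‖ = Real.exp ρ →
      hf (P z) (s z) (t z) = c * hf (P' z⁻¹) (s' z⁻¹) (t' z⁻¹)) :
    Mn P s t ρ = c * Mn P' s' t' (-ρ) := by
  unfold Mn
  rw [← intervalIntegral.integral_const_mul]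
  have := intervalIntegral.integral_comp_neg (a := -Real.pi) (b := Real.pi)
    (fun θ : ℝ => c * hf (P' (exp ((-ρ : ℝ) + θ * I))) (s' (exp ((-ρ : ℝ) + θ * I)))
      (t' (exp ((-ρ : ℝ) + θ * I))))
  rw [neg_neg] at this
  rw [← this]
  refine intervalIntegral.integral_congr fun θ _ => ?_
  have e : exp (((-ρ : ℝ) : ℂ) + ((-θ : ℝ) : ℂ) * I) = (exp (ρ + θ * I))⁻¹ := by
    rw [← Complex.exp_neg]; congr 1; push_cast; ring
  simp only [e]
  exact h _ (by rw [Complex.norm_exp]; simp)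

lemma Mn_rel {d : ℕ} {P P' : ℂ → M2} {s s' : ℂ → V2} (h : Rel d P P' s s') (ρ : ℝ) :
    (Mn P s s ρ).re = Real.exp (2 * d * ρ) * (Mn P' s' s' (-ρ)).re := by
  rw [Mn_flip (P' := P') (s' := s') (t' := s') ((Real.exp (2 * d * ρ) : ℝ) : ℂ) ρ, re_ofReal_mul]
  intro z hz
  have hz0 : z ≠ 0 := by
    rintro rfl
    have := Real.exp_pos ρ
    simp at hz; linarith
  rw [h z hz0, hz, ← Real.exp_nat_mul]
  push_cast
  ring_nf

lemma grow {d : ℕ} {P P' : ℂ → M2} {s s' : ℂ → V2} (hP : NegLine P') (hs : Differentiable ℂ s')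
    (h : Rel d P P' s s') {ρ₁ ρ₂ : ℝ} (hρ : ρ₁ ≤ ρ₂) :
    (Mn P s s ρ₂).re ≤ Real.exp (2 * d * (ρ₂ - ρ₁)) * (Mn P s s ρ₁).re := by
  rw [Mn_rel h, Mn_rel h, ← mul_assoc, ← Real.exp_add]
  have : 2 * d * (ρ₂ - ρ₁) + 2 * d * ρ₁ = 2 * d * ρ₂ := by ring
  rw [this]
  exact mul_le_mul_of_nonneg_left (mono hP hs (by linarith : -ρ₂ ≤ -ρ₁)) (Real.exp_pos _).le

lemma A1_le {P P' : ℂ → M2} {s s' : ℂ → V2} (hP : NegLine P) (hP' : NegLine P') (hs : Hs s)
    (hs' : Differentiable ℂ s') (h : Rel 1 P P' s s') (ρ : ℝ) :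
    (In (Dd 1 (lg P s s)) ρ).re ≤ 2 * (Mn P s s ρ).re := by
  have sa := sm_lg hP hs hs
  have hanti : Antitone fun ρ => Real.exp (-2 * ρ) * (In (lg P s s) ρ).re := by
    intro ρ₁ ρ₂ hρ
    have h1 := grow hP' hs' h hρ
    rw [Mn_eq] at h1
    have h2 := mul_le_mul_of_nonneg_left h1 (Real.exp_pos (-2 * ρ₂)).le
    rw [← mul_assoc, ← Real.exp_add] at h2
    have : -2 * ρ₂ + 2 * (1 : ℕ) * (ρ₂ - ρ₁) = -2 * ρ₁ := by push_cast; ring
    rwa [this] at h2
  have hd : HasDerivAt (fun ρ => Real.exp (-2 * ρ) * (In (lg P s s) ρ).re)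
      (Real.exp (-2 * ρ) * (-2) * (In (lg P s s) ρ).re
        + Real.exp (-2 * ρ) * (In (Dd 1 (lg P s s)) ρ).re) ρ := by
    have h1 : HasDerivAt (fun ρ : ℝ => Real.exp (-2 * ρ)) (Real.exp (-2 * ρ) * (-2)) ρ := by
      simpa using ((hasDerivAt_id ρ).const_mul (-2)).exp
    exact h1.mul (re_deriv (In_deriv sa ρ))
  have h3 := hd.nonpos_of_antitone hanti
  have h4 := Real.exp_pos (-2 * ρ)
  rw [Mn_eq]
  nlinarith

lemma gen {P P' : ℂ → M2} {s s' t : ℂ → V2} (hP : NegLine P) (hP' : NegLine P')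
    (hs : Differentiable ℂ s) (hs' : Differentiable ℂ s') (h : Rel 1 P P' s s') (ht : Hs t)
    {ρ₁ ρ₂ τ : ℝ} (hρ : ρ₁ ≤ ρ₂) (hτ : 0 < τ) (B β : ℝ → ℝ) (hB : ∀ ρ, HasDerivAt B (β ρ) ρ)
    (hβ : ∀ ρ ∈ Set.Icc ρ₁ ρ₂, (Mn P t t ρ).re ≤ β ρ) (hBB : B ρ₁ ≤ B ρ₂) :
    ‖Mn P s t ρ₂ - Mn P s t ρ₁‖ ≤ (Mn P s s ρ₂).re / (2 * τ) + τ * (B ρ₂ - B ρ₁) := by
  have sa := sm_lg hP (hs_of hs) (hs_of hs)
  have sk := sm_lg hP (hs_of hs) ht
  have hA := A_nonneg hP (hs_of hs) ρ₂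
  set K := Mn P s t ρ₂ - Mn P s t ρ₁ with hK
  by_cases h0 : K = 0
  · rw [h0, norm_zero]
    have : 0 ≤ B ρ₂ - B ρ₁ := by linarith
    positivity
  have hn : 0 < ‖K‖ := norm_pos_iff.mpr h0
  set c : ℂ := -(τ : ℂ) * K / (‖K‖ : ℂ) with hc
  have hnc : ((‖K‖ : ℝ) : ℂ) ≠ 0 := by exact_mod_cast hn.ne'
  have hcn : ‖c‖ = τ := by
    rw [hc, norm_div, norm_mul, norm_neg, Complex.norm_real, Complex.norm_real, norm_norm,
      Real.norm_of_nonneg hτ.le]
    field_simp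
  have hd : ∀ ρ, HasDerivAt (fun ρ => (In (Dd 1 (lg P s s)) ρ).re
      + (4 * conj c * In (lg P s t) ρ).re + 4 * τ ^ 2 * B ρ)
      ((In (Dd 1 (Dd 1 (lg P s s))) ρ).re + (4 * conj c * In (Dd 1 (lg P s t)) ρ).re
        + 4 * τ ^ 2 * β ρ) ρ := fun ρ =>
    ((re_deriv (In_deriv (sa.dd 1) ρ)).add
      (re_deriv ((In_deriv sk ρ).const_mul (4 * conj c)))).add ((hB ρ).const_mul _)
  have hm := monotoneOn_of_deriv_nonneg (convex_Icc ρ₁ ρ₂)
      (fun ρ _ => (hd ρ).continuousAt.continuousWithinAt)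
      (fun ρ _ => (hd ρ).differentiableAt.differentiableWithinAt) (fun ρ hρ' => by
        rw [(hd ρ).deriv]
        have h1 := quad_in hP (hs_of hs) ht c ρ
        have h2 := hβ ρ (interior_subset hρ')
        rw [hcn] at h1
        rw [Mn_eq] at h2
        nlinarith [sq_nonneg τ])
  have h1 := hm (Set.left_mem_Icc.mpr hρ) (Set.right_mem_Icc.mpr hρ) hρ
  simp only at h1
  have h2 := A1_nonneg hP hs ρ₁
  have h3 := A1_le hP hP' (hs_of hs) hs' h ρ₂
  have h4 : (4 * conj c * In (lg P s t) ρ₂).re - (4 * conj c * In (lg P s t) ρ₁).re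
      = -(4 * τ * ‖K‖) := by
    rw [← sub_re, ← mul_sub, ← Mn_eq, ← hK]
    have hkk : K * conj K = ((‖K‖ : ℝ) : ℂ) ^ 2 := by
      rw [Complex.mul_conj, Complex.normSq_eq_norm_sq]; push_cast; ring
    have : 4 * conj c * K = ((-(4 * τ * ‖K‖) : ℝ) : ℂ) := by
      simp only [hc, map_div₀, map_mul, map_neg, conj_ofReal]
      push_cast
      field_simp
      linear_combination -hkk
    rw [this, ofReal_re]
  rw [div_add' _ _ _ (by positivity), le_div_iff₀ (by positivity)]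
  nlinarith

lemma Mn_norm_le {P : ℂ → M2} (hP : NegLine P) {s t : ℂ → V2} (hs : Hs s) (ht : Hs t) (ρ : ℝ)
    {τ : ℝ} (hτ : 0 < τ) :
    ‖Mn P s t ρ‖ ≤ (Mn P s s ρ).re / (2 * τ) + τ * (Mn P t t ρ).re / 2 := by
  have ca := (sm_lg hP hs hs).continuous
  have cb := (sm_lg hP ht ht).continuous
  have ck := (sm_lg hP hs ht).continuous
  rw [Mn_eq, Mn_eq, Mn_eq, In_re ca, In_re cb, ← intervalIntegral.integral_div,
    ← intervalIntegral.integral_const_mul, ← intervalIntegral.integral_div,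
    ← intervalIntegral.integral_add (by apply Continuous.intervalIntegrable; fun_prop)
      (by apply Continuous.intervalIntegrable; fun_prop)]
  refine intervalIntegral.norm_integral_le_of_norm_le (by linarith [Real.pi_pos])
    (Filter.Eventually.of_forall fun θ _ => hf_norm_le (hP.pos _) _ _ hτ)
    (by apply Continuous.intervalIntegrable; fun_prop)

lemma Mn_pow (P : ℂ → M2) (σ : ℂ → V2) (n : ℕ) (ρ : ℝ) :
    (Mn P (fun z => z ^ n • σ z) (fun z => z ^ n • σ z) ρ).re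
      = Real.exp (2 * n * ρ) * (Mn P σ σ ρ).re := by
  rw [← re_ofReal_mul]
  congr 1
  unfold Mn
  rw [← intervalIntegral.integral_const_mul]
  refine intervalIntegral.integral_congr fun θ _ => ?_
  simp only
  rw [hf_smul_left, hf_smul_right, ← mul_assoc, Complex.mul_conj, Complex.normSq_eq_norm_sq,
    norm_pow, Complex.norm_exp, ← pow_mul, ← Real.exp_nat_mul]
  have : ((ρ : ℂ) + θ * I).re = ρ := by simp
  rw [this]
  push_cast
  ring_nf

theorem zero {P P' : ℂ → M2} {s s' σ : ℂ → V2} (hP : NegLine P) (hP' : NegLine P')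
    (hs : Differentiable ℂ s) (hs' : Differentiable ℂ s') (h : Rel 1 P P' s s')
    (hσ : Differentiable ℂ σ) (n : ℕ) (ρ τ : ℝ) (hn : 1 ≤ n) (hτ : 0 < τ) :
    ‖Mn P s (fun z => z ^ n • σ z) ρ‖ ≤ (Mn P s s ρ).re / (2 * τ)
      + τ * (Mn P (fun z => z ^ n • σ z) (fun z => z ^ n • σ z) ρ).re / (2 * n) := by
  have ht : Differentiable ℂ fun z => z ^ n • σ z := by fun_prop
  have hn0 : (0 : ℝ) < n := by exact_mod_cast hn
  set b := (Mn P σ σ ρ).re with hb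
  set a := (Mn P s s ρ).re with ha
  have hb0 : 0 ≤ b := A_nonneg hP (hs_of hσ) ρ
  have ha0 : 0 ≤ a := A_nonneg hP (hs_of hs) ρ
  have key : ∀ ρ₁ ≤ ρ, ‖Mn P s (fun z => z ^ n • σ z) ρ‖ ≤ a / (2 * τ)
      + τ * (Real.exp (2 * n * ρ) * b) / (2 * n) + Real.exp (n * ρ₁) * ((a + b) / 2) := by
    intro ρ₁ h1
    have hB : ∀ r, HasDerivAt (fun r : ℝ => Real.exp (2 * n * r) * b / (2 * n))
        (Real.exp (2 * n * r) * b) r := fun r => by
      have := ((((hasDerivAt_id' r).const_mul (2 * (n : ℝ))).exp).mul_const b).div_const (2 * n)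
      refine this.congr_deriv ?_
      field_simp
    have g := gen hP hP' hs hs' h (hs_of ht) h1 hτ _ _ hB (fun r hr => by
      rw [Mn_pow]
      exact mul_le_mul_of_nonneg_left (mono hP hσ hr.2) (Real.exp_pos _).le) (by
        have : Real.exp (2 * n * ρ₁) ≤ Real.exp (2 * n * ρ) :=
          Real.exp_le_exp.mpr (by nlinarith)
        gcongr)
    have g2 := Mn_norm_le hP (hs_of hs) (hs_of ht) ρ₁ (Real.exp_pos (-(n * ρ₁)))
    rw [Mn_pow] at g2
    have m1 : (Mn P s s ρ₁).re ≤ a := mono hP hs h1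
    have m2 : (Mn P σ σ ρ₁).re ≤ b := mono hP hσ h1
    have e1 : (Mn P s s ρ₁).re / (2 * Real.exp (-(n * ρ₁)))
        + Real.exp (-(n * ρ₁)) * (Real.exp (2 * n * ρ₁) * (Mn P σ σ ρ₁).re) / 2
        = Real.exp (n * ρ₁) * (((Mn P s s ρ₁).re + (Mn P σ σ ρ₁).re) / 2) := by
      have : Real.exp (2 * n * ρ₁) = Real.exp (n * ρ₁) ^ 2 := by
        rw [← Real.exp_nat_mul]; congr 1; push_cast; ring
      rw [this, Real.exp_neg]
      field_simp
    rw [e1] at g2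
    have g3 : ‖Mn P s (fun z => z ^ n • σ z) ρ₁‖ ≤ Real.exp (n * ρ₁) * ((a + b) / 2) :=
      g2.trans (by gcongr)
    have g4 := norm_add_le (Mn P s (fun z => z ^ n • σ z) ρ - Mn P s (fun z => z ^ n • σ z) ρ₁)
      (Mn P s (fun z => z ^ n • σ z) ρ₁)
    rw [sub_add_cancel] at g4
    have g5 : 0 ≤ τ * (Real.exp (2 * n * ρ₁) * b / (2 * n)) := by positivity
    have g6 : τ * (Real.exp (2 * n * ρ) * b / (2 * n) - Real.exp (2 * n * ρ₁) * b / (2 * n))
        = τ * (Real.exp (2 * n * ρ) * b) / (2 * n)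
          - τ * (Real.exp (2 * n * ρ₁) * b / (2 * n)) := by ring
    linarith
  rw [Mn_pow]
  have hlim : Filter.Tendsto (fun ρ₁ : ℝ => a / (2 * τ)
      + τ * (Real.exp (2 * n * ρ) * b) / (2 * n) + Real.exp (n * ρ₁) * ((a + b) / 2))
      Filter.atBot (𝓝 (a / (2 * τ) + τ * (Real.exp (2 * n * ρ) * b) / (2 * n)
        + 0 * ((a + b) / 2))) := by
    refine tendsto_const_nhds.add (Filter.Tendsto.mul_const _ ?_)
    exact Real.tendsto_exp_atBot.comp (Filter.tendsto_id.const_mul_atBot hn0)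
  have := ge_of_tendsto hlim (Filter.eventually_atBot.mpr ⟨ρ, key⟩)
  simpa using this

theorem var {P P' : ℂ → M2} {s s' t : ℂ → V2} (hP : NegLine P) (hP' : NegLine P')
    (hs : Differentiable ℂ s) (hs' : Differentiable ℂ s') (h : Rel 1 P P' s s') (ht : Hs t)
    (ρ₁ ρ₂ β τ : ℝ) (hρ : ρ₁ ≤ ρ₂) (hτ : 0 < τ)
    (hβ : ∀ ρ ∈ Set.Icc ρ₁ ρ₂, (Mn P t t ρ).re ≤ β) :
    ‖Mn P s t ρ₂ - Mn P s t ρ₁‖ ≤ (Mn P s s ρ₂).re / (2 * τ) + τ * ((ρ₂ - ρ₁) * β) := by
  have hβ0 : 0 ≤ β := (A_nonneg hP ht ρ₁).trans (hβ ρ₁ (Set.left_mem_Icc.mpr hρ))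
  have := gen hP hP' hs hs' h ht hρ hτ (fun r => r * β) (fun _ => β)
    (fun r => by simpa using (hasDerivAt_id r).mul_const β) hβ (by nlinarith)
  refine this.trans (le_of_eq ?_)
  ring

end C2

theorem c2Stmt : C2Stmt where
  mono := fun _ _ hP hs => C2.mono hP hs
  grow := fun _ _ _ _ _ hP hs h _ _ hρ => C2.grow hP hs h hρ
  var := fun _ _ _ _ _ hP hP' hs hs' h ht ρ₁ ρ₂ β τ hρ hτ hβ =>
    C2.var hP hP' hs hs' h ht ρ₁ ρ₂ β τ hρ hτ hβ
  zero := fun _ _ _ _ _ hP hP' hs hs' h hσ n ρ τ hn hτ => C2.zero hP hP' hs hs' h hσ n ρ τ hn hτ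

end Crest.Agent.R258

end
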