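import Crest.Agent.R258.Circ2

set_option autoImplicit false

noncomputable section

namespace Crest.Agent.R258

open Matrix Complex
open Crest.AlgGeometry.QuadricBundle
open scoped ComplexConjugate ComplexOrder Topology

namespace DD

open C2

/-- analytic data extracted from a Griffiths positive metric -/
structure AD (d : Dat) (m : ℕ) where
  P : ℂ → ℂ → M2
  Py : ℂ → ℂ → M2
  Px : ℂ → ℂ → M2
  cont : ∀ i j, Continuous fun q : ℂ × ℂ => P q.1 q.2 i j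
  ny : ∀ u, NegLine (P u)
  nx : ∀ v, NegLine fun u => P u v
  ny' : ∀ u, NegLine (Py u)
  nx' : ∀ v, NegLine fun u => Px u v
  ty : ∀ u v, v ≠ 0 → ∀ s t : V2, hf (P u v) s t =
    hf (Py u v⁻¹) (v • ![s 0, (v ^ m) ^ 26 * s 1]) (v • ![t 0, (v ^ m) ^ 26 * t 1])
  tx : ∀ u v, u ≠ 0 → ∀ s t : V2, hf (P u v) s t =
    hf (Px u⁻¹ v)
      (u • ![(u ^ m) ^ 30 * s 0 + (u ^ m)⁻¹ ^ d.D * d.E 0 (u ^ m) (hv 0 (v ^ m)) * s 1,
        (u ^ m)⁻¹ ^ 4 * s 1])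
      (u • ![(u ^ m) ^ 30 * t 0 + (u ^ m)⁻¹ ^ d.D * d.E 0 (u ^ m) (hv 0 (v ^ m)) * t 1,
        (u ^ m)⁻¹ ^ 4 * t 1])

lemma hf_trans {H H' g : M2} (hH' : H'.PosDef) (h : H' = gᵀ * H * g.map conj) (s t : V2) :
    hf H⁻¹ s t = hf H'⁻¹ (gᵀ *ᵥ s) (gᵀ *ᵥ t) := by
  have hd : H'.det ≠ 0 := hH'.det_pos.ne'
  rw [h, det_mul, det_mul] at hd
  have h1 : IsUnit gᵀ.det := (left_ne_zero_of_mul (left_ne_zero_of_mul hd)).isUnit
  have h2 : IsUnit (g.map conj).det := (right_ne_zero_of_mul hd).isUnit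
  have h3 : gᵀᴴ = g.map conj := by
    ext i j; simp [conjTranspose_apply]
  unfold hf
  rw [h, Matrix.mul_inv_rev, Matrix.mul_inv_rev, star_mulVec, h3, mulVec_mulVec, mul_assoc,
    mul_assoc, nonsing_inv_mul _ h1, mul_one, ← mulVec_mulVec, dotProduct_mulVec,
    dotProduct_mulVec, vecMul_vecMul, mul_nonsing_inv _ h2, vecMul_one, dotProduct_mulVec]

lemma cont_inv {H : (Fin 2 → ℂ) → M2} (hc : ∀ i j, Continuous fun p => H p i j)
    (hp : ∀ p, (H p).PosDef) (i j : Fin 2) : Continuous fun p => (H p)⁻¹ i j := by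
  have h1 : Continuous H := continuous_pi fun i => continuous_pi fun j => hc i j
  have h2 : ∀ p, (H p)⁻¹ i j = (H p).det⁻¹ * (H p).adjugate i j := by
    intro p
    rw [Matrix.inv_def, Ring.inverse_eq_inv']
    simp
  simp only [h2]
  refine (h1.matrix_det.inv₀ fun p => (hp p).det_pos.ne').mul ?_
  exact (continuous_apply j).comp ((continuous_apply i).comp h1.matrix_adjugate)

theorem exists_AD (h1 : C1Stmt) (d : Dat) (m : ℕ) (H : MetricData 2)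
    (hH : IsHermitianMetric (GE d m) H) (hG : IsGriffithsPositive H) : Nonempty (AD d m) := by
  refine ⟨{ P := fun u v => (H (0, 0) ![u, v])⁻¹
            Py := fun u v => (H (0, 1) ![u, v])⁻¹
            Px := fun u v => (H (1, 0) ![u, v])⁻¹
            cont := fun i j => ?_
            ny := fun u => (h1 _ H hH hG (0, 0) u).2
            nx := fun v => (h1 _ H hH hG (0, 0) v).1
            ny' := fun u => (h1 _ H hH hG (0, 1) u).2
            nx' := fun v => (h1 _ H hH hG (1, 0) v).1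
            ty := fun u v hv0 s t => ?_
            tx := fun u v hu s t => ?_ }⟩
  · have := cont_inv (fun i j => (hH.smooth (0, 0) i j).continuous) (hH.posDef (0, 0)) i j
    exact this.comp (f := fun q : ℂ × ℂ => ![q.1, q.2]) (by fun_prop)
  · have hc := hH.compat (0, 0) (0, 1) ![u, v] (by simp [overlap, hv0])
    have ht : tau (0, 0) (0, 1) ![u, v] = ![u, v⁻¹] := by simp [tau]
    rw [ht] at hc
    rw [hf_trans (hH.posDef _ _) hc]
    congr 1 <;>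
    · funext i
      fin_cases i <;> simp [GE, G0, lam, pw, mulVec, dotProduct, Fin.sum_univ_two, mul_assoc]
  · have hc := hH.compat (0, 0) (1, 0) ![u, v] (by simp [overlap, hu])
    have ht : tau (0, 0) (1, 0) ![u, v] = ![u⁻¹, v] := by simp [tau]
    rw [ht] at hc
    rw [hf_trans (hH.posDef _ _) hc]
    congr 1 <;>
    · funext i
      fin_cases i <;>
        simp [GE, G0, lam, pw, mulVec, dotProduct, Fin.sum_univ_two, mul_assoc, mul_add]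

/-- point of the circle of radius `exp ρ` -/
def ci (ρ θ : ℝ) : ℂ := exp (ρ + θ * I)

lemma cont_ci (ρ : ℝ) : Continuous (ci ρ) := by unfold ci; fun_prop

lemma norm_ci (ρ θ : ℝ) : ‖ci ρ θ‖ = Real.exp ρ := by
  unfold ci; rw [Complex.norm_exp]; simp

lemma ci_ne (ρ θ : ℝ) : ci ρ θ ≠ 0 := Complex.exp_ne_zero _

/-- circle integral -/
def CI {E : Type} [NormedAddCommGroup E] [NormedSpace ℝ E] (g : ℂ → E) (ρ : ℝ) : E :=
  ∫ θ in (-Real.pi)..Real.pi, g (ci ρ θ)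

abbrev Cn {E : Type} [TopologicalSpace E] (g : ℂ → E) : Prop := ContinuousOn g {z | z ≠ 0}

lemma Cn.circ {E : Type} [TopologicalSpace E] {g : ℂ → E} (h : Cn g) (ρ : ℝ) :
    Continuous fun θ => g (ci ρ θ) :=
  h.comp_continuous (cont_ci ρ) fun θ => ci_ne ρ θ

lemma Cn.int {E : Type} [NormedAddCommGroup E] {g : ℂ → E} (h : Cn g) (ρ : ℝ) :
    IntervalIntegrable (fun θ => g (ci ρ θ)) MeasureTheory.volume (-Real.pi) Real.pi :=
  (h.circ ρ).intervalIntegrable _ _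

lemma Mn_CI (P : ℂ → M2) (s t : ℂ → V2) (ρ : ℝ) :
    Mn P s t ρ = CI (fun z => hf (P z) (s z) (t z)) ρ := rfl

lemma CI_re {g : ℂ → ℂ} (h : Cn g) (ρ : ℝ) : (CI g ρ).re = CI (fun z => (g z).re) ρ :=
  (intervalIntegral.intervalIntegral_re (h.int ρ)).symm

lemma CI_congr {E : Type} [NormedAddCommGroup E] [NormedSpace ℝ E] {g g' : ℂ → E} {ρ : ℝ}
    (h : ∀ z, ‖z‖ = Real.exp ρ → g z = g' z) : CI g ρ = CI g' ρ :=
  intervalIntegral.integral_congr fun θ _ => h _ (norm_ci ρ θ)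

lemma CI_mono {g g' : ℂ → ℝ} (hg : Cn g) (hg' : Cn g') {ρ : ℝ}
    (h : ∀ z, ‖z‖ = Real.exp ρ → g z ≤ g' z) : CI g ρ ≤ CI g' ρ :=
  intervalIntegral.integral_mono_on (by linarith [Real.pi_pos]) (hg.int ρ) (hg'.int ρ)
    fun θ _ => h _ (norm_ci ρ θ)

lemma CI_add {E : Type} [NormedAddCommGroup E] [NormedSpace ℝ E] {g g' : ℂ → E} (hg : Cn g)
    (hg' : Cn g') (ρ : ℝ) : CI (fun z => g z + g' z) ρ = CI g ρ + CI g' ρ :=
  intervalIntegral.integral_add (hg.int ρ) (hg'.int ρ)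

lemma CI_sub {E : Type} [NormedAddCommGroup E] [NormedSpace ℝ E] {g g' : ℂ → E} (hg : Cn g)
    (hg' : Cn g') (ρ : ℝ) : CI (fun z => g z - g' z) ρ = CI g ρ - CI g' ρ :=
  intervalIntegral.integral_sub (hg.int ρ) (hg'.int ρ)

lemma CI_mul (c : ℂ) (g : ℂ → ℂ) (ρ : ℝ) : CI (fun z => c * g z) ρ = c * CI g ρ :=
  intervalIntegral.integral_const_mul _ _

lemma CI_mulR (c : ℝ) (g : ℂ → ℝ) (ρ : ℝ) : CI (fun z => c * g z) ρ = c * CI g ρ :=
  intervalIntegral.integral_const_mul _ _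

lemma CI_sum {ι : Type} (S : Finset ι) {g : ι → ℂ → ℂ} (hg : ∀ i ∈ S, Cn (g i)) (ρ : ℝ) :
    CI (fun z => ∑ i ∈ S, g i z) ρ = ∑ i ∈ S, CI (g i) ρ :=
  intervalIntegral.integral_finsetSum fun i hi => (hg i hi).int ρ

lemma CI_norm_le {g : ℂ → ℂ} {g' : ℂ → ℝ} (hg' : Cn g') {ρ : ℝ}
    (h : ∀ z, ‖z‖ = Real.exp ρ → ‖g z‖ ≤ g' z) : ‖CI g ρ‖ ≤ CI g' ρ :=
  intervalIntegral.norm_integral_le_of_norm_le (by linarith [Real.pi_pos])
    (Filter.Eventually.of_forall fun θ _ => h _ (norm_ci ρ θ)) (hg'.int ρ)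

lemma CI_conj (g : ℂ → ℂ) (ρ : ℝ) : CI (fun z => conj (g z)) ρ = conj (CI g ρ) :=
  intervalIntegral.intervalIntegral_conj

lemma CI_nonneg {g : ℂ → ℝ} {ρ : ℝ} (h : ∀ z, 0 ≤ g z) : 0 ≤ CI g ρ :=
  intervalIntegral.integral_nonneg (by linarith [Real.pi_pos]) fun _ _ => h _

lemma CI_pos {g : ℂ → ℝ} (hg : Cn g) {ρ : ℝ} (h : ∀ z, z ≠ 0 → 0 < g z) : 0 < CI g ρ :=
  intervalIntegral.intervalIntegral_pos_of_pos (hg.int ρ) (fun θ => h _ (ci_ne ρ θ))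
    (by linarith [Real.pi_pos])

/-- joint continuity off the axes -/
abbrev Cn2 {E : Type} [TopologicalSpace E] (f : ℂ → ℂ → E) : Prop :=
  ContinuousOn (fun q : ℂ × ℂ => f q.1 q.2) {q | q.1 ≠ 0 ∧ q.2 ≠ 0}

lemma Cn2.right {E : Type} [TopologicalSpace E] {f : ℂ → ℂ → E} (h : Cn2 f) {u : ℂ} (hu : u ≠ 0) :
    Cn (f u) :=
  h.comp (f := fun v => (u, v)) (by fun_prop) fun _ hv => ⟨hu, hv⟩

lemma Cn2.left {E : Type} [TopologicalSpace E] {f : ℂ → ℂ → E} (h : Cn2 f) {v : ℂ} (hv : v ≠ 0) :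
    Cn fun u => f u v :=
  h.comp (f := fun u => (u, v)) (by fun_prop) fun _ hu => ⟨hu, hv⟩

lemma Cn2.swap {E : Type} [TopologicalSpace E] {f : ℂ → ℂ → E} (h : Cn2 f) :
    Cn2 fun v u => f u v :=
  h.comp (f := fun q : ℂ × ℂ => (q.2, q.1)) (by fun_prop) fun _ hq => ⟨hq.2, hq.1⟩

lemma Cn2.ci {E : Type} [NormedAddCommGroup E] [NormedSpace ℝ E] {f : ℂ → ℂ → E} (h : Cn2 f)
    (ρ : ℝ) : Cn fun u => CI (f u) ρ := by
  rw [Cn, continuousOn_iff_continuous_domRestrict]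
  have : Continuous (Function.uncurry fun (u : {z : ℂ | z ≠ 0}) (θ : ℝ) => f u.1 (DD.ci ρ θ)) :=
    h.comp_continuous (f := fun q : {z : ℂ | z ≠ 0} × ℝ => (q.1.1, DD.ci ρ q.2))
      (by have := cont_ci ρ; fun_prop) fun q => ⟨q.1.2, ci_ne _ _⟩
  exact intervalIntegral.continuous_parametric_intervalIntegral_of_continuous' this _ _

lemma CI_swap {E : Type} [NormedAddCommGroup E] [NormedSpace ℝ E] {f : ℂ → ℂ → E} (h : Cn2 f)
    (ρ ρ' : ℝ) : CI (fun u => CI (f u) ρ') ρ = CI (fun v => CI (fun u => f u v) ρ) ρ' := by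
  unfold CI
  refine MeasureTheory.intervalIntegral_intervalIntegral_swap
    (F := fun θ θ' => f (ci ρ θ) (ci ρ' θ')) ?_
  have hc : Continuous (Function.uncurry fun θ θ' : ℝ => f (ci ρ θ) (ci ρ' θ')) :=
    h.comp_continuous (f := fun q : ℝ × ℝ => (ci ρ q.1, ci ρ' q.2))
      (by have := cont_ci ρ; have := cont_ci ρ'; fun_prop) fun q => ⟨ci_ne _ _, ci_ne _ _⟩
  exact (hc.continuousOn.integrableOn_compact (isCompact_uIcc.prod isCompact_uIcc)).mono_set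
    (Set.prod_mono Set.uIoc_subset_uIcc Set.uIoc_subset_uIcc)

/-- torus integral of a real function -/
def TR (f : ℂ → ℂ → ℝ) (ρ ρ' : ℝ) : ℝ := CI (fun u => CI (f u) ρ') ρ

lemma ne_of_norm {z : ℂ} {ρ : ℝ} (h : ‖z‖ = Real.exp ρ) : z ≠ 0 := by
  rintro rfl
  have := Real.exp_pos ρ
  simp at h; linarith

lemma TR_le_y {f : ℂ → ℂ → ℝ} (hf : Cn2 f) {ρ ρ₁ ρ₂ c : ℝ}
    (h : ∀ u, u ≠ 0 → CI (f u) ρ₁ ≤ c * CI (f u) ρ₂) : TR f ρ ρ₁ ≤ c * TR f ρ ρ₂ := by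
  unfold TR
  rw [← CI_mulR]
  exact CI_mono (hf.ci _) (continuousOn_const.mul (hf.ci _)) fun u hu => h u (ne_of_norm hu)

lemma TR_swap {f : ℂ → ℂ → ℝ} (hf : Cn2 f) (ρ ρ' : ℝ) :
    TR f ρ ρ' = TR (fun v u => f u v) ρ' ρ := CI_swap hf ρ ρ'

lemma TR_le_x {f : ℂ → ℂ → ℝ} (hf : Cn2 f) {ρ ρ₁ ρ₂ c : ℝ}
    (h : ∀ v, v ≠ 0 → CI (fun u => f u v) ρ₁ ≤ c * CI (fun u => f u v) ρ₂) :
    TR f ρ₁ ρ ≤ c * TR f ρ₂ ρ := by
  rw [TR_swap hf, TR_swap hf]
  exact TR_le_y hf.swap h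

lemma cn_hf {P : ℂ → M2} (hP : NegLine P) {s t : ℂ → V2} (hs : Cn s) (ht : Cn t) :
    Cn fun z => hf (P z) (s z) (t z) := by
  simp only [hf_eq]
  refine continuousOn_finsetSum _ fun i _ => continuousOn_finsetSum _ fun j _ => ?_
  refine (Complex.continuous_conj.comp_continuousOn
    ((continuous_apply i).comp_continuousOn ht)).mul ?_
  exact (hP.smooth i j).continuous.continuousOn.mul ((continuous_apply j).comp_continuousOn hs)

lemma hf_smul_smul (P : M2) (s : V2) (c : ℂ) :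
    (hf P (c • s) (c • s)).re = ‖c‖ ^ 2 * (hf P s s).re := by
  rw [hf_smul_left, hf_smul_right, ← mul_assoc, Complex.mul_conj, Complex.normSq_eq_norm_sq,
    re_ofReal_mul]

lemma Mn_smul_le {P : ℂ → M2} (hP : NegLine P) {s : ℂ → V2} (hs : Cn s) {φ : ℂ → ℂ} (hφ : Cn φ)
    {C ρ : ℝ} (h : ∀ z, ‖z‖ = Real.exp ρ → ‖φ z‖ ≤ C) :
    (Mn P (fun z => φ z • s z) (fun z => φ z • s z) ρ).re ≤ C ^ 2 * (Mn P s s ρ).re := by
  have h1 : Cn fun z => φ z • s z := hφ.smul hs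
  rw [Mn_CI, Mn_CI, CI_re (cn_hf hP h1 h1), CI_re (cn_hf hP hs hs), ← CI_mulR]
  refine CI_mono (Complex.continuous_re.comp_continuousOn (cn_hf hP h1 h1))
    (continuousOn_const.mul (Complex.continuous_re.comp_continuousOn (cn_hf hP hs hs)))
    fun z hz => ?_
  show (hf (P z) (φ z • s z) (φ z • s z)).re ≤ C ^ 2 * (hf (P z) (s z) (s z)).re
  rw [hf_smul_smul]
  exact mul_le_mul_of_nonneg_right (pow_le_pow_left₀ (norm_nonneg _) (h z hz) 2)
    (hf_nonneg (hP.pos z) _)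

end DD

end Crest.Agent.R258

end
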