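import Crest.Agent.R258.D1

set_option autoImplicit false

noncomputable section

namespace Crest.Agent.R258

open Matrix Complex
open scoped ComplexConjugate ComplexOrder Topology

namespace DD

open C2

def e1 : V2 := ![1, 0]
def e2 : V2 := ![0, 1]

def x2 (d : Dat) (a c : Fin 2) (x y : ℂ) : V2 := ![d.th a x (hv c y), gam (hv a x) (hv c y)]

def gr (i : Fin 4) (X Y : V2) : ℂ := ∏ j ∈ Finset.univ.erase i, det2 X (gm j *ᵥ Y)

lemma gam_eq (i : Fin 4) (X Y : V2) : gam X Y = det2 X (gm i *ᵥ Y) * gr i X Y :=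
  (Finset.mul_prod_erase Finset.univ (fun j => det2 X (gm j *ᵥ Y)) (Finset.mem_univ i)).symm

lemma det2_smul_left (c : ℂ) (X Y : V2) : det2 (c • X) Y = c * det2 X Y := by
  simp [det2]; ring

lemma det2_smul_right (c : ℂ) (X Y : V2) : det2 X (c • Y) = c * det2 X Y := by
  simp [det2]; ring

lemma gr_smul (i : Fin 4) (c : ℂ) (X Y : V2) : gr i X (c • Y) = c ^ 3 * gr i X Y := by
  unfold gr
  simp only [mulVec_smul, det2_smul_right]
  rw [Finset.prod_mul_distrib, Finset.prod_const, Finset.card_erase_of_mem (Finset.mem_univ i)]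
  simp

lemma gam_smul_right (c : ℂ) (X Y : V2) : gam X (c • Y) = c ^ 4 * gam X Y := by
  unfold gam
  simp only [mulVec_smul, det2_smul_right]
  rw [Finset.prod_mul_distrib, Finset.prod_const]
  simp

lemma gam_smul_left (c : ℂ) (X Y : V2) : gam (c • X) Y = c ^ 4 * gam X Y := by
  unfold gam
  simp only [det2_smul_left]
  rw [Finset.prod_mul_distrib, Finset.prod_const]
  simp

lemma hv_zero (x : ℂ) : hv 0 x = ![1, x] := by simp [hv]
lemma hv_one (x : ℂ) : hv 1 x = ![x, 1] := by simp [hv]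

lemma hv_inv {x : ℂ} (hx : x ≠ 0) : hv 0 x = x • hv 1 x⁻¹ := by
  rw [hv_zero, hv_one]
  funext i
  fin_cases i <;> simp [hx]

lemma PF.smul {n : ℕ} {φ : ℂ → V2 → ℂ} (h : PF n φ) (x c : ℂ) (Y : V2) :
    φ x (c • Y) = c ^ n * φ x Y := by
  obtain ⟨k, hk⟩ := h
  rw [hk, hk, Finset.mul_sum]
  refine Finset.sum_congr rfl fun l hl => ?_
  have : l ≤ n := Nat.lt_succ_iff.mp (Finset.mem_range.mp hl)
  simp only [Pi.smul_apply, smul_eq_mul, mul_pow]
  have e : c ^ n = c ^ (n - l) * c ^ l := by rw [← pow_add, Nat.sub_add_cancel this]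
  rw [e]; ring

lemma diff_hv (a i : Fin 2) : Differentiable ℂ fun x => hv a x i := by
  fin_cases a <;> fin_cases i <;> simp [hv]

lemma PF.diff {n : ℕ} {φ : ℂ → V2 → ℂ} (h : PF n φ) (c : Fin 2) :
    Differentiable ℂ fun q : ℂ × ℂ => φ q.1 (hv c q.2) := by
  obtain ⟨k, hk⟩ := h
  simp only [hk]
  refine Differentiable.fun_sum fun l _ => ?_
  have h0 : Differentiable ℂ fun q : ℂ × ℂ => hv c q.2 0 := (diff_hv c 0).comp differentiable_snd
  have h1 : Differentiable ℂ fun q : ℂ × ℂ => hv c q.2 1 := (diff_hv c 1).comp differentiable_snd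
  have h2 : Differentiable ℂ fun q : ℂ × ℂ => (k l).eval q.1 :=
    (k l).differentiable.comp differentiable_fst
  fun_prop

lemma diff_det (j : Fin 4) (a c : Fin 2) :
    Differentiable ℂ fun q : ℂ × ℂ => det2 (hv a q.1) (gm j *ᵥ hv c q.2) := by
  have h0 : Differentiable ℂ fun q : ℂ × ℂ => hv c q.2 0 := (diff_hv c 0).comp differentiable_snd
  have h1 : Differentiable ℂ fun q : ℂ × ℂ => hv c q.2 1 := (diff_hv c 1).comp differentiable_snd
  have h2 : Differentiable ℂ fun q : ℂ × ℂ => hv a q.1 0 := (diff_hv a 0).comp differentiable_fst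
  have h3 : Differentiable ℂ fun q : ℂ × ℂ => hv a q.1 1 := (diff_hv a 1).comp differentiable_fst
  simp only [det2, mulVec, dotProduct, Fin.sum_univ_two]
  fun_prop

lemma diff_prod {ι : Type} (S : Finset ι) {f : ι → ℂ × ℂ → ℂ}
    (h : ∀ i, Differentiable ℂ (f i)) : Differentiable ℂ fun q => ∏ i ∈ S, f i q := by
  classical
  induction S using Finset.induction_on with
  | empty => simp
  | insert i S hi ih =>
    simp only [Finset.prod_insert hi]
    exact (h i).mul ih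

lemma diff_gr (i : Fin 4) (a c : Fin 2) :
    Differentiable ℂ fun q : ℂ × ℂ => gr i (hv a q.1) (hv c q.2) :=
  diff_prod _ fun j => diff_det j a c

lemma diff_gam (a c : Fin 2) :
    Differentiable ℂ fun q : ℂ × ℂ => gam (hv a q.1) (hv c q.2) :=
  diff_prod _ fun j => diff_det j a c

lemma diff_x2 (d : Dat) (a c : Fin 2) :
    Differentiable ℂ fun q : ℂ × ℂ => x2 d a c q.1 q.2 := by
  refine differentiable_pi.mpr fun i => ?_
  fin_cases i
  · exact PF.diff (d.th_pf a) c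
  · exact diff_gam a c

lemma diff_y {E : Type} [NormedAddCommGroup E] [NormedSpace ℂ E] {f : ℂ → ℂ → E}
    (h : Differentiable ℂ fun q : ℂ × ℂ => f q.1 q.2) (x : ℂ) (m : ℕ) :
    Differentiable ℂ fun v => f x (v ^ m) :=
  h.comp (f := fun v : ℂ => (x, v ^ m)) (by fun_prop)

lemma diff_x {E : Type} [NormedAddCommGroup E] [NormedSpace ℂ E] {f : ℂ → ℂ → E}
    (h : Differentiable ℂ fun q : ℂ × ℂ => f q.1 q.2) (y : ℂ) (m : ℕ) :
    Differentiable ℂ fun u => f (u ^ m) y :=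
  h.comp (f := fun u : ℂ => (u ^ m, y)) (by fun_prop)

lemma hf_smul_both (P : M2) (s t : V2) (c : ℂ) :
    hf P (c • s) (c • t) = ((‖c‖ ^ 2 : ℝ) : ℂ) * hf P s t := by
  rw [hf_smul_left, hf_smul_right, ← mul_assoc, Complex.mul_conj, Complex.normSq_eq_norm_sq]

variable {d : Dat} {m : ℕ} (A : AD d m)

lemma relY1 (u : ℂ) : Rel 1 (A.P u) (A.Py u) (fun _ => e1) (fun _ => e1) := by
  intro v hv0
  rw [A.ty u v hv0, hf_smul_both]
  simp [e1]

lemma relY1' (u : ℂ) : Rel 1 (A.Py u) (A.P u) (fun _ => e1) (fun _ => e1) := by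
  intro w hw
  have := relY1 A u w⁻¹ (inv_ne_zero hw)
  simp only [inv_inv] at this ⊢
  rw [this, ← mul_assoc, norm_inv]
  have : ‖w‖ ≠ 0 := norm_ne_zero_iff.mpr hw
  have h2 : ((‖w‖ : ℝ) : ℂ) ≠ 0 := by exact_mod_cast this
  push_cast
  field_simp

lemma relY2 (u : ℂ) : Rel (30 * m + 1) (A.P u) (A.Py u) (fun v => x2 d 0 0 (u ^ m) (v ^ m))
    (fun w => x2 d 0 1 (u ^ m) (w ^ m)) := by
  intro v hv0
  have e : v • ![x2 d 0 0 (u ^ m) (v ^ m) 0, (v ^ m) ^ 26 * x2 d 0 0 (u ^ m) (v ^ m) 1]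
      = v ^ (30 * m + 1) • x2 d 0 1 (u ^ m) (v⁻¹ ^ m) := by
    have hy : v ^ m ≠ 0 := pow_ne_zero _ hv0
    funext i
    fin_cases i
    · simp only [x2, hv_inv hy, PF.smul (d.th_pf 0), inv_pow]
      simp; ring
    · simp only [x2, hv_inv hy, gam_smul_right, inv_pow]
      simp; ring
  simp only
  rw [A.ty u v hv0, e, hf_smul_both, norm_pow, ← pow_mul, mul_comm _ 2]

lemma relX1 (v : ℂ) : Rel (30 * m + 1) (fun u => A.P u v) (fun u => A.Px u v) (fun _ => e1)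
    (fun _ => e1) := by
  intro u hu
  have e : u • ![(u ^ m) ^ 30 * e1 0 + (u ^ m)⁻¹ ^ d.D * d.E 0 (u ^ m) (hv 0 (v ^ m)) * e1 1,
        (u ^ m)⁻¹ ^ 4 * e1 1] = u ^ (30 * m + 1) • e1 := by
    funext i
    fin_cases i
    · simp [e1]; ring
    · simp [e1]
  simp only
  rw [A.tx u v hu, e, hf_smul_both, norm_pow, ← pow_mul, mul_comm _ 2]

lemma relX2 (v : ℂ) : Rel 1 (fun u => A.P u v) (fun u => A.Px u v)
    (fun u => x2 d 0 0 (u ^ m) (v ^ m)) (fun u => x2 d 1 0 (u ^ m) (v ^ m)) := by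
  intro u hu
  have hx : u ^ m ≠ 0 := pow_ne_zero _ hu
  have e : ![(u ^ m) ^ 30 * x2 d 0 0 (u ^ m) (v ^ m) 0
        + (u ^ m)⁻¹ ^ d.D * d.E 0 (u ^ m) (hv 0 (v ^ m)) * x2 d 0 0 (u ^ m) (v ^ m) 1,
        (u ^ m)⁻¹ ^ 4 * x2 d 0 0 (u ^ m) (v ^ m) 1] = x2 d 1 0 (u⁻¹ ^ m) (v ^ m) := by
    funext i
    fin_cases i
    · have := d.E_eq 0 (u ^ m) (hv 0 (v ^ m)) hx
      simp only [x2, inv_pow] at this ⊢
      simp only [Fin.zero_eta, cons_val_zero, cons_val_one]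
      have h1 : (0 : Fin 2).rev = 1 := rfl
      rw [h1] at this
      linear_combination -this
    · simp only [x2, inv_pow]
      simp only [Fin.mk_one, cons_val_one, cons_val_zero]
      rw [hv_inv hx, gam_smul_left]
      field_simp
  simp only
  rw [A.tx u v hu, e, hf_smul_both]

/-- mirror form of the zero-mode estimate -/
lemma zero' {P P' : ℂ → M2} {s s' t σ : ℂ → V2} (hP : NegLine P) (hP' : NegLine P')
    (hs : Differentiable ℂ s) (hs' : Differentiable ℂ s') (h : Rel 1 P P' s s')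
    (h' : Rel 1 P' P s' s) (hσ : Differentiable ℂ σ) (n : ℕ) (τ : ℝ) (hn : 1 ≤ n) (hτ : 0 < τ)
    (h1 : ∀ z : ℂ, ‖z‖ = 1 → hf (P z) (s z) (t z) = hf (P' z⁻¹) (s' z⁻¹) (z⁻¹ ^ n • σ z⁻¹))
    (h2 : ∀ z : ℂ, ‖z‖ = 1 →
      hf (P z) (t z) (t z) = hf (P' z⁻¹) (z⁻¹ ^ n • σ z⁻¹) (z⁻¹ ^ n • σ z⁻¹)) :
    ‖Mn P s t 0‖ ≤ (Mn P s s 0).re / (2 * τ) + τ * (Mn P t t 0).re / (2 * n) := by
  have := C2.zero hP' hP hs' hs h' hσ n 0 τ hn hτ
  rw [Mn_flip (P' := P') (s' := s') (t' := fun z => z ^ n • σ z) 1 0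
      (fun z hz => by rw [one_mul]; exact h1 z (by simpa using hz)),
    Mn_flip (P := P) (s := t) (t := t) (P' := P') (s' := fun z => z ^ n • σ z)
      (t' := fun z => z ^ n • σ z) 1 0
      (fun z hz => by rw [one_mul]; exact h2 z (by simpa using hz)),
    Mn_rel h 0]
  simpa using this

lemma modeA_pos {M : ℕ} (hM : 1 ≤ M) (A : AD d (M ^ 2)) (u : ℂ) (n : ℕ) (hn : 1 ≤ n) :
    ‖Mn (A.P u) (fun _ => e1) (fun v => (v ^ (M ^ 2)) ^ n • e1) 0‖
      ≤ (Mn (A.P u) (fun _ => e1) (fun _ => e1) 0).re / M := by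
  have hM0 : (0 : ℝ) < M := by exact_mod_cast hM
  have h := C2.zero (A.ny u) (A.ny' u) (differentiable_const e1) (differentiable_const e1)
    (relY1 A u) (differentiable_const e1) (M ^ 2 * n) 0 M (Nat.mul_pos (pow_pos hM 2) hn) hM0
  rw [Mn_pow] at h
  simp only [pow_mul] at h ⊢
  refine h.trans ?_
  have h0 := A_nonneg (A.ny u) (hs_of (differentiable_const e1)) 0
  set a := (Mn (A.P u) (fun _ => e1) (fun _ => e1) 0).re
  have hn' : (1 : ℝ) ≤ n := by exact_mod_cast hn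
  simp only [mul_zero, Real.exp_zero, one_mul]
  push_cast
  have : M * a / (2 * (M ^ 2 * n)) ≤ a / (2 * M) := by
    rw [div_le_div_iff₀ (by positivity) (by positivity)]
    have : 0 ≤ a * M ^ 2 * (n - 1) := by
      have : 0 ≤ (n : ℝ) - 1 := by linarith
      positivity
    nlinarith
  have e : a / M = a / (2 * M) + a / (2 * M) := by field_simp; ring
  linarith

lemma modeA {M : ℕ} (hM : 1 ≤ M) (A : AD d (M ^ 2)) (u : ℂ) (j l : ℕ) :
    ‖Mn (A.P u) (fun _ => e1) (fun v => ((v ^ (M ^ 2))⁻¹ ^ j * (v ^ (M ^ 2)) ^ l) • e1) 0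
      - (if j = l then Mn (A.P u) (fun _ => e1) (fun _ => e1) 0 else 0)‖
      ≤ (Mn (A.P u) (fun _ => e1) (fun _ => e1) 0).re / M := by
  have h0 := A_nonneg (A.ny u) (hs_of (differentiable_const e1)) 0
  rcases lt_trichotomy j l with h | h | h
  · rw [if_neg h.ne, sub_zero]
    refine le_of_eq_of_le ?_ (modeA_pos hM A u (l - j) (by omega))
    congr 1
    rw [Mn_CI, Mn_CI]
    refine CI_congr fun z hz => ?_
    have hz0 : z ^ (M ^ 2) ≠ 0 := pow_ne_zero _ (ne_of_norm hz)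
    congr 2
    rw [pow_sub₀ _ hz0 h.le, inv_pow, mul_comm]
  · subst h
    rw [if_pos rfl]
    have : Mn (A.P u) (fun _ => e1) (fun v => ((v ^ (M ^ 2))⁻¹ ^ j * (v ^ (M ^ 2)) ^ j) • e1) 0
        = Mn (A.P u) (fun _ => e1) (fun _ => e1) 0 := by
      rw [Mn_CI, Mn_CI]
      refine CI_congr fun z hz => ?_
      have hz0 : z ^ (M ^ 2) ≠ 0 := pow_ne_zero _ (ne_of_norm hz)
      rw [← mul_pow, inv_mul_cancel₀ hz0, one_pow, one_smul]
    rw [this, sub_self, norm_zero]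
    positivity
  · rw [if_neg h.ne', sub_zero]
    refine le_of_eq_of_le ?_ (modeA_pos hM A u (j - l) (by omega))
    rw [← Complex.norm_conj (Mn (A.P u) (fun _ => e1) (fun v => (v ^ (M ^ 2)) ^ (j - l) • e1) 0),
      Mn_CI, Mn_CI, ← CI_conj]
    congr 1
    refine CI_congr fun z hz => ?_
    have hz0 : z ^ (M ^ 2) ≠ 0 := pow_ne_zero _ (ne_of_norm hz)
    have hz1 : ‖z ^ (M ^ 2)‖ = 1 := by rw [norm_pow, hz]; simp
    rw [← hf_conj ((A.ny u).pos z), hf_smul_left, hf_smul_right]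
    congr 1
    have e : conj (z ^ (M ^ 2)) = (z ^ (M ^ 2))⁻¹ := (Complex.inv_eq_conj hz1).symm
    rw [map_mul, map_pow, map_pow, map_inv₀, e, inv_inv, pow_sub₀ _ hz0 h.le, inv_pow]

end DD

end Crest.Agent.R258

end
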