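import Crest.Agent.R258.D2

set_option autoImplicit false

noncomputable section

namespace Crest.Agent.R258

open Matrix Complex
open scoped ComplexConjugate ComplexOrder Topology

namespace DD

open C2

lemma bdd {ι : Type} [Fintype ι] (f : ι → ℂ × ℂ → ℂ) (hf : ∀ i, Continuous (f i)) :
    ∃ C : ℝ, 1 ≤ C ∧ ∀ i x y, ‖x‖ ≤ 4 → ‖y‖ ≤ 6 → ‖f i (x, y)‖ ≤ C := by
  have hK : IsCompact (Metric.closedBall (0 : ℂ) 4 ×ˢ Metric.closedBall (0 : ℂ) 6) :=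
    (isCompact_closedBall _ _).prod (isCompact_closedBall _ _)
  have hc : Continuous fun q : ℂ × ℂ => fun i => f i q := continuous_pi hf
  obtain ⟨C, hC⟩ := hK.exists_bound_of_continuousOn hc.continuousOn
  refine ⟨max C 1, le_max_right _ _, fun i x y hx hy => ?_⟩
  have := hC (x, y) ⟨by simpa using hx, by simpa using hy⟩
  exact ((norm_le_pi_norm (fun i => f i (x, y)) i).trans this).trans (le_max_left _ _)

def mon (Y : V2) (j : ℕ) : ℂ := Y 0 ^ (30 - j) * Y 1 ^ j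

lemma det2_mulVec (g : M2) (X Y : V2) : det2 (g *ᵥ X) (g *ᵥ Y) = g.det * det2 X Y := by
  simp [det2, mulVec, dotProduct, det_fin_two]; ring

lemma det_norm (hG : GStmt) (i : Fin 4) : ‖(gm i).det‖ = 1 := by
  have h := congrArg det (hG.sq i)
  rw [det_mul, det_one] at h
  have h2 := congrArg norm h
  rw [norm_mul, norm_one] at h2
  nlinarith [norm_nonneg (gm i).det]

lemma tele (hG : GStmt) (i : Fin 4) (X : V2) {y : ℂ} (hy : y ≠ 0) :
    (∑ j ∈ Finset.range 31, mon (gm i *ᵥ X) j * y⁻¹ ^ j) * det2 X (gm i *ᵥ hv 0 y)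
      = (gm i).det * ((gm i *ᵥ X) 0 ^ 31 * y - (gm i *ᵥ X) 1 ^ 31 * y⁻¹ ^ 30) := by
  have e : X = gm i *ᵥ (gm i *ᵥ X) := by rw [mulVec_mulVec, hG.sq, one_mulVec]
  set Y := gm i *ᵥ X
  rw [e, det2_mulVec]
  have g := geom_sum₂_mul (Y 1 * y⁻¹) (Y 0) 31
  have e2 : ∑ j ∈ Finset.range 31, mon Y j * y⁻¹ ^ j
      = ∑ j ∈ Finset.range 31, (Y 1 * y⁻¹) ^ j * Y 0 ^ (31 - 1 - j) :=
    Finset.sum_congr rfl fun j _ => by simp only [mon, mul_pow]; ring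
  rw [e2]
  set G := ∑ j ∈ Finset.range 31, (Y 1 * y⁻¹) ^ j * Y 0 ^ (31 - 1 - j)
  have e3 : det2 Y (hv 0 y) = -y * (Y 1 * y⁻¹ - Y 0) := by
    simp [det2, hv_zero]; field_simp; ring
  have e4 : y * y⁻¹ = 1 := mul_inv_cancel₀ hy
  rw [e3]
  linear_combination (-(gm i).det * y) * g - (gm i).det * Y 1 ^ 31 * y⁻¹ ^ 30 * e4

lemma x2_eq (d : Dat) (a c : Fin 2) (x y : ℂ) :
    x2 d a c x y = d.th a x (hv c y) • e1 + gam (hv a x) (hv c y) • e2 := by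
  funext i
  fin_cases i <;> simp [x2, e1, e2]

variable {d : Dat} {m : ℕ}

def K (A : AD d m) (j : ℕ) (u : ℂ) : ℂ :=
  Mn (A.P u) (fun _ => e1) (fun v => (v ^ m)⁻¹ ^ j • x2 d 0 0 (u ^ m) (v ^ m)) 0

def S (A : AD d m) (i : Fin 4) (u : ℂ) : ℂ :=
  ∑ j ∈ Finset.range 31, conj (mon (gm i *ᵥ hv 0 (u ^ m)) j) * K A j u

def Ay (A : AD d m) (u : ℂ) : ℂ := Mn (A.P u) (fun _ => e1) (fun _ => e1) 0
def Ny (A : AD d m) (u : ℂ) : ℂ := Mn (A.P u) (fun _ => e2) (fun _ => e2) 0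

lemma cn_inv (m : ℕ) : Cn fun v : ℂ => (v ^ m)⁻¹ :=
  (continuous_pow m).continuousOn.inv₀ fun _ hv => pow_ne_zero _ hv

lemma half_add {a b C M : ℝ} (hM : 0 < M) (ha : 0 ≤ a) (hb : 0 ≤ b) (hC : 1 ≤ C) {t : ℝ}
    (ht : t ≤ C ^ 2 * b) : a / (2 * M) + M * t / (2 * (M ^ 2)) ≤ C ^ 2 / M * (a + b) := by
  have h1 : M * t / (2 * (M ^ 2)) = t / (2 * M) := by field_simp
  have h2 : C ^ 2 / M * (a + b) = (2 * C ^ 2 * (a + b)) / (2 * M) := by field_simp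
  rw [h1, h2, ← add_div]
  refine div_le_div_of_nonneg_right ?_ (by positivity)
  have : 1 ≤ C ^ 2 := by nlinarith
  nlinarith

lemma modeN1 {M : ℕ} (hM : 1 ≤ M) (A : AD d (M ^ 2)) (u : ℂ) (i : Fin 4) {C : ℝ} (hC : 1 ≤ C)
    (hb : ∀ y, ‖y‖ ≤ 6 → ‖gr i (hv 0 (u ^ (M ^ 2))) (hv 0 y)‖ ≤ C) :
    ‖Mn (A.P u) (fun _ => e1)
      (fun v => v ^ (M ^ 2) • gr i (hv 0 (u ^ (M ^ 2))) (hv 0 (v ^ (M ^ 2))) • e2) 0‖
      ≤ C ^ 2 / M * ((Ay A u).re + (Ny A u).re) := by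
  have hM0 : (0 : ℝ) < M := by exact_mod_cast hM
  have hg := diff_y (f := fun x y => gr i (hv 0 x) (hv 0 y)) (diff_gr i 0 0) (u ^ (M ^ 2)) (M ^ 2)
  have h := C2.zero (A.ny u) (A.ny' u) (differentiable_const e1) (differentiable_const e1)
    (relY1 A u) (σ := fun v => gr i (hv 0 (u ^ (M ^ 2))) (hv 0 (v ^ (M ^ 2))) • e2)
    (hg.smul_const e2) (M ^ 2) 0 M (Nat.one_le_pow _ _ hM) hM0
  rw [Mn_pow] at h
  refine h.trans ?_
  have h2 := Mn_smul_le (A.ny u) (s := fun _ => e2) continuousOn_const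
    hg.continuous.continuousOn (C := C) (ρ := 0) fun z hz => hb _ (by
      rw [norm_pow, hz]; simp)
  simp only [mul_zero, Real.exp_zero, one_mul]
  push_cast
  exact half_add hM0 (A_nonneg (A.ny u) (hs_of (differentiable_const e1)) 0)
    (A_nonneg (A.ny u) (hs_of (differentiable_const e2)) 0) hC h2

lemma modeN2 {M : ℕ} (hM : 1 ≤ M) (A : AD d (M ^ 2)) (u : ℂ) (i : Fin 4) {C : ℝ} (hC : 1 ≤ C)
    (hb : ∀ y, ‖y‖ ≤ 6 → ‖gr i (hv 0 (u ^ (M ^ 2))) (hv 0 y)‖ ≤ C) :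
    ‖Mn (A.P u) (fun _ => e1) (fun v => ((v ^ (M ^ 2))⁻¹ ^ 30
        * gr i (hv 0 (u ^ (M ^ 2))) (hv 0 (v ^ (M ^ 2)))) • e2) 0‖
      ≤ C ^ 2 / M * ((Ay A u).re + (Ny A u).re) := by
  have hM0 : (0 : ℝ) < M := by exact_mod_cast hM
  have hg := diff_y (f := fun x y => gr i (hv 0 x) (hv 0 y)) (diff_gr i 0 0) (u ^ (M ^ 2)) (M ^ 2)
  have hg' := diff_y (f := fun x y => gr i (hv 0 x) (hv 1 y)) (diff_gr i 0 1) (u ^ (M ^ 2)) (M ^ 2)
  have e : ∀ z : ℂ, z ≠ 0 → ![(((z ^ (M ^ 2))⁻¹ ^ 30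
        * gr i (hv 0 (u ^ (M ^ 2))) (hv 0 (z ^ (M ^ 2)))) • e2) 0,
        (z ^ (M ^ 2)) ^ 26 * (((z ^ (M ^ 2))⁻¹ ^ 30
        * gr i (hv 0 (u ^ (M ^ 2))) (hv 0 (z ^ (M ^ 2)))) • e2) 1]
      = z⁻¹ ^ (M ^ 2) • gr i (hv 0 (u ^ (M ^ 2))) (hv 1 (z⁻¹ ^ (M ^ 2))) • e2 := by
    intro z hz
    have hy : z ^ (M ^ 2) ≠ 0 := pow_ne_zero _ hz
    rw [hv_inv hy, gr_smul, inv_pow z]
    funext k
    fin_cases k
    · simp [e2]
    · simp only [e2, Fin.mk_one, cons_val_one, cons_val_zero, Pi.smul_apply, smul_eq_mul]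
      field_simp
  have e' : ∀ z : ℂ, ![e1 0, (z ^ (M ^ 2)) ^ 26 * e1 1] = e1 := by
    intro z; simp [e1]
  have h := zero' (A.ny u) (A.ny' u) (differentiable_const e1) (differentiable_const e1)
    (relY1 A u) (relY1' A u)
    (t := fun v => ((v ^ (M ^ 2))⁻¹ ^ 30
        * gr i (hv 0 (u ^ (M ^ 2))) (hv 0 (v ^ (M ^ 2)))) • e2)
    (σ := fun w => gr i (hv 0 (u ^ (M ^ 2))) (hv 1 (w ^ (M ^ 2))) • e2)
    (hg'.smul_const e2) (M ^ 2) M (Nat.one_le_pow _ _ hM) hM0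
    (fun z hz => by
      have hz0 : z ≠ 0 := by rintro rfl; simp at hz
      rw [A.ty u z hz0, e z hz0, e', hf_smul_both, hz]; simp)
    (fun z hz => by
      have hz0 : z ≠ 0 := by rintro rfl; simp at hz
      rw [A.ty u z hz0, e z hz0, hf_smul_both, hz]; simp)
  refine h.trans ?_
  have h2 := Mn_smul_le (A.ny u) (s := fun _ => e2) continuousOn_const
    (φ := fun v => (v ^ (M ^ 2))⁻¹ ^ 30 * gr i (hv 0 (u ^ (M ^ 2))) (hv 0 (v ^ (M ^ 2))))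
    (((cn_inv _).pow 30).mul hg.continuous.continuousOn) (C := C) (ρ := 0) fun z hz => by
      have h1 : ‖z ^ (M ^ 2)‖ = 1 := by rw [norm_pow, hz]; simp
      rw [norm_mul, norm_pow, norm_inv, h1]
      simpa using hb _ (by rw [h1]; norm_num)
  push_cast
  exact half_add hM0 (A_nonneg (A.ny u) (hs_of (differentiable_const e1)) 0)
    (A_nonneg (A.ny u) (hs_of (differentiable_const e2)) 0) hC h2

lemma Cn.cmul (c : ℂ) {g : ℂ → ℂ} (h : Cn g) : Cn fun z => c * g z := continuousOn_const.mul h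

lemma Cn.sum {ι : Type} (T : Finset ι) {g : ι → ℂ → ℂ} (h : ∀ i, Cn (g i)) :
    Cn fun z => ∑ i ∈ T, g i z := continuousOn_finsetSum _ fun i _ => h i

lemma Cn.sub' {g g' : ℂ → ℂ} (h : Cn g) (h' : Cn g') : Cn fun z => g z - g' z := h.sub h'

lemma CI_lin {ι : Type} (T : Finset ι) (c : ι → ℂ) {g : ι → ℂ → ℂ} (h : ∀ i, Cn (g i)) (ρ : ℝ) :
    ∑ i ∈ T, c i * CI (g i) ρ = CI (fun z => ∑ i ∈ T, c i * g i z) ρ := by
  rw [CI_sum _ (fun i _ => (h i).cmul _)]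
  exact Finset.sum_congr rfl fun i _ => (CI_mul _ _ _).symm

lemma CI_lin2 {ι : Type} (T : Finset ι) (c : ι → ι → ℂ) {g : ι → ι → ℂ → ℂ} (h : ∀ i j, Cn (g i j))
    (ρ : ℝ) : ∑ i ∈ T, ∑ j ∈ T, c i j * CI (g i j) ρ
      = CI (fun z => ∑ i ∈ T, ∑ j ∈ T, c i j * g i j z) ρ := by
  rw [CI_sum _ (fun i _ => Cn.sum _ fun j => (h i j).cmul _)]
  exact Finset.sum_congr rfl fun i _ => CI_lin T _ (h i) ρ

lemma S_pt (hG : GStmt) (P : M2) (i : Fin 4) (tc : ℕ → Polynomial ℂ)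
    (htc : ∀ x Y, d.th 0 x Y = ∑ l ∈ Finset.range (30 + 1),
      (tc l).eval x * (Y 0 ^ (30 - l) * Y 1 ^ l)) (x y : ℂ) (hy : y ≠ 0) (Y : V2)
    (hY : Y = gm i *ᵥ hv 0 x) :
    ∑ j ∈ Finset.range 31, conj (mon Y j) * hf P e1 (y⁻¹ ^ j • x2 d 0 0 x y)
      = (∑ j ∈ Finset.range 31, ∑ l ∈ Finset.range 31,
        conj (mon Y j * (tc l).eval x) * hf P e1 ((y⁻¹ ^ j * y ^ l) • e1))
      + (conj ((gm i).det * Y 0 ^ 31) * hf P e1 (y • gr i (hv 0 x) (hv 0 y) • e2)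
        - conj ((gm i).det * Y 1 ^ 31) * hf P e1 ((y⁻¹ ^ 30 * gr i (hv 0 x) (hv 0 y)) • e2)) := by
  have t1 := tele hG i (hv 0 x) hy
  rw [← hY] at t1
  have t2 : d.th 0 x (hv 0 y) = ∑ l ∈ Finset.range 31, (tc l).eval x * y ^ l := by
    rw [htc]; simp [hv_zero]
  have t3 : ∀ j, conj (mon Y j) * hf P e1 (y⁻¹ ^ j • x2 d 0 0 x y)
      = (∑ l ∈ Finset.range 31,
        conj (mon Y j * (tc l).eval x) * hf P e1 ((y⁻¹ ^ j * y ^ l) • e1))
        + conj (mon Y j * y⁻¹ ^ j) * (conj (det2 (hv 0 x) (gm i *ᵥ hv 0 y)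
          * gr i (hv 0 x) (hv 0 y)) * hf P e1 e2) := by
    intro j
    rw [x2_eq, hf_smul_right, hf_add_right, hf_smul_right, hf_smul_right, gam_eq i, t2, map_sum,
      Finset.sum_mul, mul_add, mul_add, Finset.mul_sum, Finset.mul_sum]
    congr 1
    · refine Finset.sum_congr rfl fun l _ => ?_
      rw [hf_smul_right]
      simp only [map_mul]
      ring
    · simp only [map_mul]
      ring
  rw [Finset.sum_congr rfl fun j _ => t3 j, Finset.sum_add_distrib, ← Finset.sum_mul, ← map_sum]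
  congr 1
  have t4 := congrArg conj t1
  rw [hf_smul_right, hf_smul_right, hf_smul_right]
  generalize (∑ j ∈ Finset.range 31, mon Y j * y⁻¹ ^ j) = G at t4 ⊢
  simp only [map_mul, map_sub] at t4 ⊢
  linear_combination (conj (gr i (hv 0 x) (hv 0 y)) * hf P e1 e2) * t4

lemma S_eq (hG : GStmt) (A : AD d m) (u : ℂ) (i : Fin 4) (tc : ℕ → Polynomial ℂ)
    (htc : ∀ x Y, d.th 0 x Y = ∑ l ∈ Finset.range (30 + 1),
      (tc l).eval x * (Y 0 ^ (30 - l) * Y 1 ^ l)) (x : ℂ) (hx : x = u ^ m) (Y : V2)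
    (hY : Y = gm i *ᵥ hv 0 x) :
    S A i u = (∑ j ∈ Finset.range 31, ∑ l ∈ Finset.range 31,
      conj (mon Y j * (tc l).eval x) *
        Mn (A.P u) (fun _ => e1) (fun v => ((v ^ m)⁻¹ ^ j * (v ^ m) ^ l) • e1) 0)
      + (conj ((gm i).det * Y 0 ^ 31) * Mn (A.P u) (fun _ => e1)
          (fun v => v ^ m • gr i (hv 0 x) (hv 0 (v ^ m)) • e2) 0
        - conj ((gm i).det * Y 1 ^ 31) * Mn (A.P u) (fun _ => e1)
          (fun v => ((v ^ m)⁻¹ ^ 30 * gr i (hv 0 x) (hv 0 (v ^ m))) • e2) 0) := by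
  have hg := diff_y (f := fun x y => gr i (hv 0 x) (hv 0 y)) (diff_gr i 0 0) x m
  have hx2 := diff_y (f := fun x y => x2 d 0 0 x y) (diff_x2 d 0 0) x m
  have ce : ∀ e : V2, Cn fun _ : ℂ => e := fun e => continuousOn_const
  have cp : Cn fun v : ℂ => v ^ m := (continuous_pow m).continuousOn
  have c0 : ∀ j : ℕ, Cn fun z => hf (A.P u z) e1 ((z ^ m)⁻¹ ^ j • x2 d 0 0 x (z ^ m)) :=
    fun j => cn_hf (A.ny u) (ce e1) (((cn_inv m).pow j).smul hx2.continuous.continuousOn)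
  have c1 : ∀ j l : ℕ, Cn fun z => hf (A.P u z) e1 (((z ^ m)⁻¹ ^ j * (z ^ m) ^ l) • e1) :=
    fun j l => cn_hf (A.ny u) (ce e1) ((((cn_inv m).pow j).mul (cp.pow l)).smul (ce e1))
  have c2 : Cn fun z => hf (A.P u z) e1 (z ^ m • gr i (hv 0 x) (hv 0 (z ^ m)) • e2) :=
    cn_hf (A.ny u) (ce e1) (cp.smul (hg.continuous.continuousOn.smul (ce e2)))
  have c3 : Cn fun z => hf (A.P u z) e1 (((z ^ m)⁻¹ ^ 30 * gr i (hv 0 x) (hv 0 (z ^ m))) • e2) :=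
    cn_hf (A.ny u) (ce e1) ((((cn_inv m).pow 30).mul hg.continuous.continuousOn).smul (ce e2))
  unfold S K
  rw [← hx, ← hY]
  simp only [Mn_CI]
  rw [CI_lin _ _ c0, CI_lin2 _ _ c1, ← CI_mul, ← CI_mul, ← CI_sub (c2.cmul _) (c3.cmul _),
    ← CI_add (Cn.sum _ fun j => Cn.sum _ fun l => (c1 j l).cmul _)
      ((c2.cmul _).sub' (c3.cmul _))]
  exact CI_congr fun z hz => S_pt hG _ i tc htc x _ (pow_ne_zero _ (ne_of_norm hz)) Y hY

theorem stepY (hG : GStmt) (d : Dat) : ∃ C : ℝ, 0 ≤ C ∧ ∀ M : ℕ, 1 ≤ M → ∀ (A : AD d (M ^ 2)) (u : ℂ),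
    ‖u ^ (M ^ 2)‖ ≤ 4 → ∀ i, ‖S A i u - Ay A u‖ ≤ C / M * ((Ay A u).re + (Ny A u).re) := by
  obtain ⟨tc, htc⟩ := d.th_pf 0
  have cY : ∀ (i : Fin 4) (k : Fin 2), Continuous fun q : ℂ × ℂ => (gm i *ᵥ hv 0 q.1) k := by
    intro i k
    have h0 := ((diff_hv 0 0).continuous).comp (continuous_fst (X := ℂ) (Y := ℂ))
    have h1 := ((diff_hv 0 1).continuous).comp (continuous_fst (X := ℂ) (Y := ℂ))
    simp only [mulVec, dotProduct, Fin.sum_univ_two]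
    exact (continuous_const.mul h0).add (continuous_const.mul h1)
  obtain ⟨C1, hC1, b1⟩ := bdd (fun (p : Fin 4 × Fin 31 × Fin 31) (q : ℂ × ℂ) =>
    mon (gm p.1 *ᵥ hv 0 q.1) p.2.1 * (tc p.2.2).eval q.1) (fun p => by
      have h2 : Continuous fun q : ℂ × ℂ => (tc p.2.2).eval q.1 :=
        (tc p.2.2).continuous.comp continuous_fst
      exact (((cY p.1 0).pow _).mul ((cY p.1 1).pow _)).mul h2)
  obtain ⟨C2, hC2, b2⟩ := bdd (fun (p : Fin 4 × Fin 2) (q : ℂ × ℂ) =>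
    (gm p.1 *ᵥ hv 0 q.1) p.2 ^ 31) (fun p => (cY p.1 p.2).pow 31)
  obtain ⟨C3, hC3, b3⟩ := bdd (fun (i : Fin 4) (q : ℂ × ℂ) => gr i (hv 0 q.1) (hv 0 q.2))
    (fun i => (diff_gr i 0 0).continuous)
  refine ⟨31 * 31 * C1 + 2 * C2 * C3 ^ 2, by positivity, fun M hM A u hu i => ?_⟩
  have hM0 : (0 : ℝ) < M := by exact_mod_cast hM
  obtain ⟨x, hx⟩ : ∃ x, x = u ^ (M ^ 2) := ⟨_, rfl⟩
  obtain ⟨Y, hY⟩ : ∃ Y, Y = gm i *ᵥ hv 0 x := ⟨_, rfl⟩
  have key := S_eq hG A u i tc htc x hx Y hY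
  rw [← hx] at hu
  have one : Ay A u = ∑ j ∈ Finset.range 31, ∑ l ∈ Finset.range 31,
      conj (mon Y j * (tc l).eval x) * (if j = l then Ay A u else 0) := by
    have h1 := d.th_one 0 x i
    rw [htc, ← hY] at h1
    have h2 := congrArg conj h1
    rw [map_sum, map_one] at h2
    calc Ay A u = (∑ l ∈ Finset.range (30 + 1),
          conj ((tc l).eval x * (Y 0 ^ (30 - l) * Y 1 ^ l))) * Ay A u := by rw [h2, one_mul]
      _ = _ := by
        rw [Finset.sum_mul]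
        refine Finset.sum_congr rfl fun j hj => ?_
        simp only [mul_ite, mul_zero, Finset.sum_ite_eq, if_pos hj, mon]
        rw [mul_comm ((tc j).eval x)]
  have hA := A_nonneg (A.ny u) (hs_of (differentiable_const e1)) 0
  have hN := A_nonneg (A.ny u) (hs_of (differentiable_const e2)) 0
  have n1 := modeN1 hM A u i hC3 fun y hy => hx ▸ b3 i x y hu hy
  have n2 := modeN2 hM A u i hC3 fun y hy => hx ▸ b3 i x y hu hy
  rw [← hx] at n1 n2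
  have d0 : ‖conj ((gm i).det * Y 0 ^ 31)‖ ≤ C2 := by
    rw [Complex.norm_conj, norm_mul, det_norm hG, one_mul, hY]
    exact b2 (i, 0) x 0 hu (by simp)
  have d1 : ‖conj ((gm i).det * Y 1 ^ 31)‖ ≤ C2 := by
    rw [Complex.norm_conj, norm_mul, det_norm hG, one_mul, hY]
    exact b2 (i, 1) x 0 hu (by simp)
  have s1 : ‖(∑ j ∈ Finset.range 31, ∑ l ∈ Finset.range 31,
      conj (mon Y j * (tc l).eval x) *
        Mn (A.P u) (fun _ => e1) (fun v => ((v ^ (M ^ 2))⁻¹ ^ j * (v ^ (M ^ 2)) ^ l) • e1) 0) - Ay A u‖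
      ≤ 31 * 31 * C1 * ((Ay A u).re / M) := by
    rw [one, ← Finset.sum_sub_distrib]
    simp only [← Finset.sum_sub_distrib, ← mul_sub]
    rw [← one]
    have : ∀ j ∈ Finset.range 31, ‖∑ l ∈ Finset.range 31, conj (mon Y j * (tc l).eval x) *
        (Mn (A.P u) (fun _ => e1) (fun v => ((v ^ (M ^ 2))⁻¹ ^ j * (v ^ (M ^ 2)) ^ l) • e1) 0
          - if j = l then Ay A u else 0)‖ ≤ 31 * (C1 * ((Ay A u).re / M)) := by
      intro j hj
      refine (norm_sum_le_of_le _ (n := fun _ => C1 * ((Ay A u).re / M)) fun l hl => ?_).trans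
        (by simp)
      rw [norm_mul, Complex.norm_conj]
      rw [hY]
      exact mul_le_mul (b1 (i, ⟨j, Finset.mem_range.mp hj⟩, ⟨l, Finset.mem_range.mp hl⟩) x 0 hu
        (by simp)) (modeA hM A u j l) (norm_nonneg _) (by linarith)
    refine (norm_sum_le_of_le _ this).trans (le_of_eq ?_)
    simp; ring
  rw [key, add_sub_right_comm]
  refine (norm_add_le _ _).trans ?_
  refine (add_le_add s1 (norm_sub_le _ _)).trans ?_
  rw [norm_mul, norm_mul]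
  have t1 := mul_le_mul d0 n1 (norm_nonneg _) (by linarith)
  have t2 := mul_le_mul d1 n2 (norm_nonneg _) (by linarith)
  have hA' : 0 ≤ (Ay A u).re := hA
  have hN' : 0 ≤ (Ny A u).re := hN
  have t3 : 31 * 31 * C1 * ((Ay A u).re / M) ≤ 31 * 31 * C1 / M * ((Ay A u).re + (Ny A u).re) := by
    have : 0 ≤ 31 * 31 * C1 / M * (Ny A u).re := by positivity
    have e : 31 * 31 * C1 * ((Ay A u).re / M) = 31 * 31 * C1 / M * (Ay A u).re := by ring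
    rw [e, mul_add]; linarith
  have e : (31 * 31 * C1 + 2 * C2 * C3 ^ 2) / M * ((Ay A u).re + (Ny A u).re)
      = 31 * 31 * C1 / M * ((Ay A u).re + (Ny A u).re)
        + 2 * (C2 * (C3 ^ 2 / M * ((Ay A u).re + (Ny A u).re))) := by ring
  rw [e]
  linarith

end DD

end Crest.Agent.R258

end
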