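import Crest.Agent.R258.D3

set_option autoImplicit false

noncomputable section

namespace Crest.Agent.R258

open Matrix Complex
open scoped ComplexConjugate ComplexOrder Topology

namespace DD

open C2

lemma lin_bound {ι : Type} [Fintype ι] {n : ℕ} (a : ι → ℕ → ℂ)
    (h : ∀ e : ℕ → ℂ, (∀ s, ∑ l ∈ Finset.range n, a s l * e l = 0) → ∀ l < n, e l = 0) :
    ∃ C : ℝ, 0 ≤ C ∧ ∀ (e : ℕ → ℂ) (B : ℝ), 0 ≤ B →
      (∀ s, ‖∑ l ∈ Finset.range n, a s l * e l‖ ≤ B) → ∀ l < n, ‖e l‖ ≤ C * B := by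
  let L : (Fin n → ℂ) →ₗ[ℂ] (ι → ℂ) := Matrix.mulVecLin (Matrix.of fun s (l : Fin n) => a s l)
  have hL : ∀ (e : ℕ → ℂ) s, L (fun l => e l) s = ∑ l ∈ Finset.range n, a s l * e l := by
    intro e s
    simp only [L, mulVecLin_apply, mulVec, dotProduct, of_apply]
    exact Fin.sum_univ_eq_sum_range (fun l => a s l * e l) n
  have hk : LinearMap.ker L = ⊥ := by
    rw [LinearMap.ker_eq_bot']
    intro e he
    funext l
    have := h (fun l => if hl : l < n then e ⟨l, hl⟩ else 0) (fun s => by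
      rw [← hL]
      simp only [Fin.is_lt, dite_true]
      exact congrFun he s) l l.2
    simpa using this
  obtain ⟨K, _, hK⟩ := L.exists_antilipschitzWith hk
  refine ⟨K, K.2, fun e B hB he l hl => ?_⟩
  have h1 := hK.le_mul_dist (fun l : Fin n => e l) 0
  rw [dist_zero_right, map_zero, dist_zero_right] at h1
  have h2 : ‖L fun l : Fin n => e l‖ ≤ B :=
    (pi_norm_le_iff_of_nonneg hB).mpr fun s => by rw [hL]; exact he s
  have h3 := norm_le_pi_norm (fun l : Fin n => e l) ⟨l, hl⟩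
  exact h3.trans (h1.trans (mul_le_mul_of_nonneg_left h2 K.2))

def tt (s : Fin 31) : ℝ := 1 + (s : ℕ) / 10

lemma vand : ∃ C : ℝ, 0 ≤ C ∧ ∀ (e : ℕ → ℂ) (B : ℝ), 0 ≤ B →
    (∀ s, ‖∑ l ∈ Finset.range 31, ((tt s : ℝ) : ℂ) ^ l * e l‖ ≤ B) → ∀ l < 31, ‖e l‖ ≤ C * B := by
  refine lin_bound (fun s l => ((tt s : ℝ) : ℂ) ^ l) fun e he l hl => ?_
  set p : Polynomial ℂ := ∑ l ∈ Finset.range 31, Polynomial.monomial l (e l) with hp
  have hdeg : p.natDegree < 31 := by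
    refine Nat.lt_succ_of_le (Polynomial.natDegree_sum_le_of_forall_le _ _ fun l hl => ?_)
    exact (Polynomial.natDegree_monomial_le _).trans (Nat.lt_succ_iff.mp (Finset.mem_range.mp hl))
  have hinj : Function.Injective fun s : Fin 31 => ((tt s : ℝ) : ℂ) := by
    intro s s' h
    have h1 : tt s = tt s' := Complex.ofReal_injective h
    unfold tt at h1
    have h2 : ((s : ℕ) : ℝ) = (s' : ℕ) := by linarith
    exact Fin.ext (by exact_mod_cast h2)
  have h0 : p = 0 := Polynomial.eq_zero_of_natDegree_lt_card_of_eval_eq_zero p hinj (fun s => by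
    rw [hp, Polynomial.eval_finsetSum, ← he s]
    exact Finset.sum_congr rfl fun l _ => by rw [Polynomial.eval_monomial, mul_comm])
    (by simpa using hdeg)
  have := congrArg (fun q => q.coeff l) h0
  simp only [hp, Polynomial.finsetSum_coeff, Polynomial.coeff_monomial, Finset.sum_ite_eq',
    Finset.mem_range, if_pos hl, Polynomial.coeff_zero] at this
  exact this

open Polynomial in
def W (i : Fin 4) (j : ℕ) : Polynomial ℂ :=
  (C (gm i 0 0) + C (gm i 0 1) * X) ^ (30 - j) * (C (gm i 1 0) + C (gm i 1 1) * X) ^ j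

lemma W_eval (i : Fin 4) (j : ℕ) (x : ℂ) : (W i j).eval x = mon (gm i *ᵥ hv 0 x) j := by
  simp [W, mon, hv_zero, mulVec, dotProduct]

lemma W_deg (i : Fin 4) {j : ℕ} (hj : j < 31) : (W i j).natDegree < 31 := by
  have h : ∀ a b : ℂ, (Polynomial.C a + Polynomial.C b * Polynomial.X).natDegree ≤ 1 := by
    intro a b; compute_degree
  have h1 := (Polynomial.natDegree_pow_le (p := Polynomial.C (gm i 0 0)
    + Polynomial.C (gm i 0 1) * Polynomial.X) (n := 30 - j)).trans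
      (Nat.mul_le_mul_left _ (h _ _))
  have h2 := (Polynomial.natDegree_pow_le (p := Polynomial.C (gm i 1 0)
    + Polynomial.C (gm i 1 1) * Polynomial.X) (n := j)).trans (Nat.mul_le_mul_left _ (h _ _))
  have h3 : (W i j).natDegree ≤ _ := Polynomial.natDegree_mul_le.trans (add_le_add h1 h2)
  omega

lemma mon_eq (i : Fin 4) {j : ℕ} (hj : j < 31) (x : ℂ) :
    mon (gm i *ᵥ hv 0 x) j = ∑ l ∈ Finset.range 31, (W i j).coeff l * x ^ l := by
  rw [← W_eval, Polynomial.eval_eq_sum_range' (W_deg i hj)]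

lemma mon_smul (c : ℂ) (Y : V2) {j : ℕ} (hj : j < 31) : mon (c • Y) j = c ^ 30 * mon Y j := by
  have e : c ^ 30 = c ^ (30 - j) * c ^ j := by rw [← pow_add]; congr 1; omega
  simp only [mon, Pi.smul_apply, smul_eq_mul, mul_pow, e]
  ring

lemma invar (hG : GStmt) : ∃ C : ℝ, 0 ≤ C ∧ ∀ (κ : ℕ → ℂ) (B : ℝ), 0 ≤ B →
    (∀ p : Fin 4 × Fin 31, ‖∑ j ∈ Finset.range 31,
      conj ((W p.1 j).coeff p.2 - (W 0 j).coeff p.2) * κ j‖ ≤ B) → ∀ j < 31, ‖κ j‖ ≤ C * B := by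
  refine lin_bound (fun (p : Fin 4 × Fin 31) j => conj ((W p.1 j).coeff p.2 - (W 0 j).coeff p.2))
    fun κ h j hj => ?_
  set F : V2 → ℂ := fun Y => ∑ j ∈ Finset.range 31, conj (κ j) * mon Y j with hF
  have hsm : ∀ c Y, F (c • Y) = c ^ 30 * F Y := by
    intro c Y
    simp only [hF, Finset.mul_sum]
    exact Finset.sum_congr rfl fun j hj => by rw [mon_smul _ _ (Finset.mem_range.mp hj)]; ring
  have hg0 : gm 0 = 1 := rfl
  have h1 : ∀ i x, F (gm i *ᵥ hv 0 x) = F (hv 0 x) := by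
    intro i x
    have e0 : hv 0 x = gm 0 *ᵥ hv 0 x := by rw [hg0, one_mulVec]
    conv_rhs => rw [e0]
    rw [← sub_eq_zero]
    simp only [hF, ← Finset.sum_sub_distrib]
    rw [Finset.sum_congr rfl fun j hj => by
      rw [mon_eq i (Finset.mem_range.mp hj), mon_eq 0 (Finset.mem_range.mp hj), ← mul_sub,
        ← Finset.sum_sub_distrib, Finset.mul_sum], Finset.sum_comm]
    refine Finset.sum_eq_zero fun l hl => ?_
    have := congrArg conj (h (i, ⟨l, Finset.mem_range.mp hl⟩))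
    rw [map_sum, map_zero] at this
    simp only [map_mul, conj_conj] at this
    calc _ = (∑ j ∈ Finset.range 31, ((W i j).coeff l - (W 0 j).coeff l) * conj (κ j)) * x ^ l := by
          rw [Finset.sum_mul]
          exact Finset.sum_congr rfl fun j _ => by ring
      _ = 0 := by rw [this, zero_mul]
  have hcF : Continuous F := by
    simp only [hF, mon]
    fun_prop
  have h2 : ∀ i Y, F (gm i *ᵥ Y) = F Y := by
    intro i Y
    have hne : ∀ Y : V2, Y 0 ≠ 0 → F (gm i *ᵥ Y) = F Y := by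
      intro Y hY
      have e : Y = Y 0 • hv 0 (Y 1 / Y 0) := by
        funext k
        fin_cases k
        · simp [hv_zero]
        · simp [hv_zero]; field_simp
      rw [e, mulVec_smul, hsm, hsm, h1]
    have c1 : Continuous fun t : ℂ => F (gm i *ᵥ ![t, Y 1]) :=
      hcF.comp (continuous_const.matrix_mulVec (by fun_prop))
    have c2 : Continuous fun t : ℂ => F ![t, Y 1] := hcF.comp (by fun_prop)
    have := c1.ext_on (dense_compl_singleton (0 : ℂ)) c2 fun t ht => hne _ (by simpa using ht)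
    have e : Y = ![Y 0, Y 1] := by
      funext k; fin_cases k <;> rfl
    rw [e]
    exact congrFun this (Y 0)
  have h3 : ∀ Y, F ((gm 1 * gm 2 * gm 3) *ᵥ Y) = F Y := by
    intro Y
    rw [← mulVec_mulVec, ← mulVec_mulVec, h2, h2, h2]
  have h4 : ∀ Y, F Y = 0 := by
    intro Y
    have e : F (((gm 1 * gm 2 * gm 3) ^ 3) *ᵥ Y) = F Y := by
      rw [pow_succ, pow_two, ← mulVec_mulVec, ← mulVec_mulVec, h3, h3, h3]
    rw [hG.scal, smul_mulVec, one_mulVec, hsm] at e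
    have e2 : (-I) ^ 30 = -1 := by
      rw [show 30 = 2 * 15 from rfl, pow_mul, neg_sq, I_sq]; norm_num
    rw [e2] at e
    linear_combination (-1 / 2 : ℂ) * e
  set p : Polynomial ℂ := ∑ l ∈ Finset.range 31, Polynomial.monomial l (conj (κ l)) with hp
  have h0 : p = 0 := Polynomial.funext fun x => by
    rw [hp, Polynomial.eval_finsetSum, Polynomial.eval_zero, ← h4 (hv 0 x)]
    exact Finset.sum_congr rfl fun l _ => by simp [mon, hv_zero]
  have := congrArg (fun q => q.coeff j) h0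
  simp only [hp, Polynomial.finsetSum_coeff, Polynomial.coeff_monomial, Finset.sum_ite_eq',
    Finset.mem_range, if_pos hj, Polynomial.coeff_zero] at this
  simpa using this

lemma zpow_bd {x : ℂ} (h1 : 1 ≤ ‖x‖) (h4 : ‖x‖ ≤ 4) {i : ℤ} (hi : |i| ≤ 60) :
    ‖x ^ (-i)‖ ≤ 4 ^ 60 := by
  rw [norm_zpow]
  have hi' := abs_le.mp hi
  calc ‖x‖ ^ (-i) ≤ ‖x‖ ^ (60 : ℤ) := zpow_le_zpow_right₀ h1 (by omega)
    _ = ‖x‖ ^ (60 : ℕ) := by norm_cast
    _ ≤ 4 ^ 60 := pow_le_pow_left₀ (norm_nonneg _) h4 _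

lemma hf_add_le {P : M2} (hP : P.PosDef) (s t : V2) :
    (hf P (s + t) (s + t)).re ≤ 2 * (hf P s s).re + 2 * (hf P t t).re := by
  have h := hf_add_smul P s t 1
  rw [one_smul, hf_conj hP s t] at h
  have h2 := hf_norm_le hP s t one_pos
  have h3 := Complex.re_le_norm (hf P s t)
  rw [h]
  simp only [map_one, one_mul, add_re, conj_re]
  linarith

lemma TR_mono {f g : ℂ → ℂ → ℝ} (hf : Cn2 f) (hg : Cn2 g) {ρ ρ' : ℝ}
    (h : ∀ u v, ‖u‖ = Real.exp ρ → ‖v‖ = Real.exp ρ' → f u v ≤ g u v) : TR f ρ ρ' ≤ TR g ρ ρ' :=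
  CI_mono (hf.ci _) (hg.ci _) fun u hu =>
    CI_mono (hf.right (ne_of_norm hu)) (hg.right (ne_of_norm hu)) fun v hv => h u v hu hv

lemma TR_lin {f g : ℂ → ℂ → ℝ} (hf : Cn2 f) (hg : Cn2 g) (a b ρ ρ' : ℝ) :
    TR (fun u v => a * f u v + b * g u v) ρ ρ' = a * TR f ρ ρ' + b * TR g ρ ρ' := by
  unfold TR
  rw [← CI_mulR, ← CI_mulR, ← CI_add (g := fun u => a * CI (f u) ρ') (g' := fun u => b * CI (g u) ρ')
    (continuousOn_const.mul (hf.ci _)) (continuousOn_const.mul (hg.ci _))]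
  refine CI_congr fun u hu => ?_
  rw [← CI_mulR, ← CI_mulR, ← CI_add (g := fun v => a * f u v) (g' := fun v => b * g u v)
    (continuousOn_const.mul (hf.right (ne_of_norm hu)))
    (continuousOn_const.mul (hg.right (ne_of_norm hu)))]

def lr (m : ℕ) (r : ℝ) : ℝ := Real.log r / m

lemma norm_pow_of {z : ℂ} {ρ : ℝ} (h : ‖z‖ = Real.exp ρ) (m : ℕ) : ‖z ^ m‖ = Real.exp (m * ρ) := by
  rw [norm_pow, h, Real.exp_nat_mul]

lemma exp_lr {m : ℕ} (hm : 1 ≤ m) {r : ℝ} (hr : 0 < r) : Real.exp (m * lr m r) = r := by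
  have : (m : ℝ) ≠ 0 := by positivity
  unfold lr
  rw [mul_div_cancel₀ _ this, Real.exp_log hr]

lemma lr_mono (m : ℕ) {r r' : ℝ} (hr : 0 < r) (h : r ≤ r') : lr m r ≤ lr m r' :=
  div_le_div_of_nonneg_right (Real.log_le_log hr h) (Nat.cast_nonneg m)

lemma lr_nonneg (m : ℕ) {r : ℝ} (hr : 1 ≤ r) : 0 ≤ lr m r :=
  div_nonneg (Real.log_nonneg hr) (Nat.cast_nonneg m)

lemma pow_mem {m : ℕ} (hm : 1 ≤ m) {z : ℂ} {ρ : ℝ} (h : ‖z‖ = Real.exp ρ) (h0 : 0 ≤ ρ)
    (h4 : ρ ≤ lr m 4) : 1 ≤ ‖z ^ m‖ ∧ ‖z ^ m‖ ≤ 4 := by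
  rw [norm_pow_of h]
  refine ⟨Real.one_le_exp (by positivity), ?_⟩
  rw [← exp_lr hm (by norm_num : (0 : ℝ) < 4)]
  exact Real.exp_le_exp.mpr (mul_le_mul_of_nonneg_left h4 (Nat.cast_nonneg m))

lemma exp_grow {m : ℕ} (hm : 1 ≤ m) {r : ℝ} (hr : 1 ≤ r) {k : ℕ} (hk : k ≤ 31 * m) :
    Real.exp (2 * k * (lr m r - 0)) ≤ r ^ 62 := by
  have h0 := lr_nonneg m hr
  have h1 : (k : ℝ) ≤ 31 * m := by exact_mod_cast hk
  calc Real.exp (2 * k * (lr m r - 0)) ≤ Real.exp ((62 : ℕ) * (m * lr m r)) :=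
        Real.exp_le_exp.mpr (by push_cast; nlinarith)
    _ = r ^ 62 := by rw [Real.exp_nat_mul, exp_lr hm (by linarith)]

end DD

end Crest.Agent.R258

end
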