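import Crest.Agent.R258.D4

set_option autoImplicit false

noncomputable section

namespace Crest.Agent.R258

open Matrix Complex
open scoped ComplexConjugate ComplexOrder Topology

namespace DD

open C2

variable {d : Dat} {m : ℕ}

/-- squared norm of a section -/
def sq (A : AD d m) (σ : ℂ → ℂ → V2) (u v : ℂ) : ℝ := (hf (A.P u v) (σ u v) (σ u v)).re

def s1 : ℂ → ℂ → V2 := fun _ _ => e1
def s3 : ℂ → ℂ → V2 := fun _ _ => e2
def s2 (d : Dat) (m : ℕ) : ℂ → ℂ → V2 := fun u v => x2 d 0 0 (u ^ m) (v ^ m)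

abbrev Ent (σ : ℂ → ℂ → V2) : Prop := Differentiable ℂ fun q : ℂ × ℂ => σ q.1 q.2

lemma ent1 : Ent s1 := differentiable_const _
lemma ent3 : Ent s3 := differentiable_const _
lemma ent2 (d : Dat) (m : ℕ) : Ent (s2 d m) :=
  (diff_x2 d 0 0).comp (f := fun q : ℂ × ℂ => (q.1 ^ m, q.2 ^ m)) (by fun_prop)

lemma Ent.y {σ : ℂ → ℂ → V2} (h : Ent σ) (u : ℂ) : Differentiable ℂ (σ u) :=
  h.comp (f := fun v => (u, v)) (by fun_prop)

lemma Ent.x {σ : ℂ → ℂ → V2} (h : Ent σ) (v : ℂ) : Differentiable ℂ fun u => σ u v :=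
  h.comp (f := fun u => (u, v)) (by fun_prop)

lemma Ent.cn {σ : ℂ → ℂ → V2} (h : Ent σ) : Cn2 σ := h.continuous.continuousOn

lemma cn2_hf (A : AD d m) {s t : ℂ → ℂ → V2} (hs : Cn2 s) (ht : Cn2 t) :
    Cn2 fun u v => hf (A.P u v) (s u v) (t u v) := by
  simp only [hf_eq]
  refine continuousOn_finsetSum _ fun i _ => continuousOn_finsetSum _ fun j _ => ?_
  refine (Complex.continuous_conj.comp_continuousOn
    ((continuous_apply i).comp_continuousOn ht)).mul ?_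
  exact (A.cont i j).continuousOn.mul ((continuous_apply j).comp_continuousOn hs)

lemma cn2_sq (A : AD d m) {σ : ℂ → ℂ → V2} (h : Ent σ) : Cn2 (sq A σ) :=
  Complex.continuous_re.comp_continuousOn (cn2_hf A h.cn h.cn)

lemma sq_nonneg' (A : AD d m) (σ : ℂ → ℂ → V2) (u v : ℂ) : 0 ≤ sq A σ u v :=
  hf_nonneg ((A.ny u).pos v) _

lemma TR_nonneg (A : AD d m) (σ : ℂ → ℂ → V2) (ρ ρ' : ℝ) : 0 ≤ TR (sq A σ) ρ ρ' :=
  CI_nonneg fun u => CI_nonneg fun v => sq_nonneg' A σ u v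

lemma CI_y (A : AD d m) {σ : ℂ → ℂ → V2} (h : Ent σ) (u : ℂ) (ρ : ℝ) :
    CI (sq A σ u) ρ = (Mn (A.P u) (σ u) (σ u) ρ).re :=
  (CI_re (cn_hf (A.ny u) (h.y u).continuous.continuousOn (h.y u).continuous.continuousOn) ρ).symm

lemma CI_x (A : AD d m) {σ : ℂ → ℂ → V2} (h : Ent σ) (v : ℂ) (ρ : ℝ) :
    CI (fun u => sq A σ u v) ρ
      = (Mn (fun u => A.P u v) (fun u => σ u v) (fun u => σ u v) ρ).re :=
  (CI_re (cn_hf (A.nx v) (h.x v).continuous.continuousOn (h.x v).continuous.continuousOn) ρ).symm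

lemma TR_grow (A : AD d m) {σ : ℂ → ℂ → V2} (h : Ent σ) {ρ₁ ρ₂ ρ₁' ρ₂' : ℝ} (h1 : ρ₁ ≤ ρ₂)
    (h2 : ρ₁' ≤ ρ₂') : TR (sq A σ) ρ₁ ρ₁' ≤ TR (sq A σ) ρ₂ ρ₂' := by
  have a1 := TR_le_y (cn2_sq A h) (ρ := ρ₁) (ρ₁ := ρ₁') (ρ₂ := ρ₂') (c := 1) fun u _ => by
    rw [one_mul, CI_y A h, CI_y A h]
    exact C2.mono (A.ny u) (h.y u) h2
  have a2 := TR_le_x (cn2_sq A h) (ρ := ρ₂') (ρ₁ := ρ₁) (ρ₂ := ρ₂) (c := 1) fun v _ => by
    rw [one_mul, CI_x A h, CI_x A h]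
    exact C2.mono (A.nx v) (h.x v) h1
  linarith

def NN (A : AD d m) : ℝ := TR (sq A s1) (lr m 4) (lr m 6) + TR (sq A (s2 d m)) (lr m 4) (lr m 6)

lemma NN_pos (A : AD d m) : 0 < NN A := by
  have h1 : 0 < TR (sq A s1) (lr m 4) (lr m 6) := by
    refine CI_pos ((cn2_sq A ent1).ci _) fun u hu => CI_pos ((cn2_sq A ent1).right hu) fun v _ => ?_
    have := ((A.ny u).pos v).dotProduct_mulVec_pos (x := e1) (by simp [e1])
    exact (Complex.pos_iff.mp this).1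
  have h2 := TR_nonneg A (s2 d m) (lr m 4) (lr m 6)
  unfold NN
  linarith

lemma T1_le (A : AD d m) {ρ : ℝ} (h : ρ ≤ lr m 4) : TR (sq A s1) ρ 0 ≤ NN A := by
  have := TR_grow A ent1 h (lr_nonneg m (by norm_num : (1 : ℝ) ≤ 6))
  have h2 := TR_nonneg A (s2 d m) (lr m 4) (lr m 6)
  unfold NN
  linarith

lemma T2_le (A : AD d m) {ρ : ℝ} (h : ρ ≤ lr m 4) : TR (sq A (s2 d m)) ρ 0 ≤ NN A := by
  have := TR_grow A (ent2 d m) h (lr_nonneg m (by norm_num : (1 : ℝ) ≤ 6))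
  have h2 := TR_nonneg A s1 (lr m 4) (lr m 6)
  unfold NN
  linarith

theorem stepN (hG : GStmt) (d : Dat) : ∃ C : ℝ, 0 ≤ C ∧ ∀ m : ℕ, 1 ≤ m → ∀ (A : AD d m) (ρ : ℝ),
    ρ ≤ lr m 4 → TR (sq A s3) ρ 0 ≤ C * NN A := by
  obtain ⟨C1, hC1, b1⟩ := bdd (fun (_ : Unit) (q : ℂ × ℂ) => d.th 0 q.1 (hv 0 q.2))
    fun _ => (PF.diff (d.th_pf 0) 0).continuous
  have hK : IsCompact (Metric.sphere (0 : ℂ) 4 ×ˢ Metric.sphere (0 : ℂ) 6) :=
    (isCompact_sphere _ _).prod (isCompact_sphere _ _)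
  obtain ⟨C2, b2⟩ := hK.exists_bound_of_continuousOn
    (f := fun q : ℂ × ℂ => (gam (hv 0 q.1) (hv 0 q.2))⁻¹)
    ((diff_gam 0 0).continuous.continuousOn.inv₀ fun q hq =>
      hG.far _ _ (by simpa using hq.1) (by simpa using hq.2))
  refine ⟨2 * C2 ^ 2 * C1 ^ 2, by positivity, fun m hm A ρ hρ => ?_⟩
  refine (TR_grow A ent3 hρ (lr_nonneg m (by norm_num : (1 : ℝ) ≤ 6))).trans ?_
  unfold NN
  rw [mul_add, ← TR_lin (cn2_sq A ent1) (cn2_sq A (ent2 d m))]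
  refine TR_mono (cn2_sq A ent3) ((continuousOn_const.mul (cn2_sq A ent1)).add
    (continuousOn_const.mul (cn2_sq A (ent2 d m)))) fun u v hu hv' => ?_
  have hx : ‖u ^ m‖ = 4 := by rw [norm_pow_of hu, exp_lr hm (by norm_num)]
  have hy : ‖v ^ m‖ = 6 := by rw [norm_pow_of hv', exp_lr hm (by norm_num)]
  have hg := hG.far _ _ hx hy
  have c1 := b1 () _ _ hx.le hy.le
  have c2 := b2 (u ^ m, v ^ m) ⟨by simpa using hx, by simpa using hy⟩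
  simp only at c1 c2
  have e : e2 = (gam (hv 0 (u ^ m)) (hv 0 (v ^ m)))⁻¹ •
      (x2 d 0 0 (u ^ m) (v ^ m) + (-d.th 0 (u ^ m) (hv 0 (v ^ m))) • e1) := by
    rw [x2_eq, neg_smul, add_neg_cancel_comm, smul_smul, inv_mul_cancel₀ hg, one_smul]
  have h1 := hf_add_le ((A.ny u).pos v) (x2 d 0 0 (u ^ m) (v ^ m))
    ((-d.th 0 (u ^ m) (hv 0 (v ^ m))) • e1)
  rw [hf_smul_smul, norm_neg] at h1
  have ha := sq_nonneg' A s1 u v
  have hb := sq_nonneg' A (s2 d m) u v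
  have h0 := hf_nonneg ((A.ny u).pos v) (x2 d 0 0 (u ^ m) (v ^ m)
    + (-d.th 0 (u ^ m) (hv 0 (v ^ m))) • e1)
  show (hf (A.P u v) e2 e2).re ≤ 2 * C2 ^ 2 * C1 ^ 2 * sq A s1 u v
    + 2 * C2 ^ 2 * C1 ^ 2 * sq A (s2 d m) u v
  conv_lhs => rw [e, hf_smul_smul]
  have p1 := pow_le_pow_left₀ (norm_nonneg _) c1 2
  have p2 := pow_le_pow_left₀ (norm_nonneg _) c2 2
  have p3 : 1 ≤ C1 ^ 2 := by nlinarith
  change _ ≤ 2 * sq A (s2 d m) u v + 2 * (_ * sq A s1 u v) at h1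
  have p4 : 2 * sq A (s2 d m) u v + 2 * (‖d.th 0 (u ^ m) (hv 0 (v ^ m))‖ ^ 2 * sq A s1 u v)
      ≤ 2 * C1 ^ 2 * (sq A s1 u v + sq A (s2 d m) u v) := by nlinarith
  calc _ ≤ C2 ^ 2 * (2 * C1 ^ 2 * (sq A s1 u v + sq A (s2 d m) u v)) :=
        mul_le_mul p2 (h1.trans p4) h0 (by positivity)
    _ = _ := by ring

lemma cn_zpow (m : ℕ) (i : ℤ) : Cn fun u : ℂ => (u ^ m) ^ i :=
  (continuous_pow m).continuousOn.zpow₀ i fun _ hu => Or.inl (pow_ne_zero _ hu)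

lemma hs_zpow (m : ℕ) (i : ℤ) : Hs fun u : ℂ => (u ^ m) ^ i • e1 := by
  refine DifferentiableOn.smul_const ?_ e1
  exact (differentiable_pow m).differentiableOn.zpow (Or.inl fun _ hu => pow_ne_zero _ hu)

lemma cn2_K (A : AD d m) (j : ℕ) :
    Cn2 fun u v => hf (A.P u v) e1 ((v ^ m)⁻¹ ^ j • x2 d 0 0 (u ^ m) (v ^ m)) := by
  refine cn2_hf A (s := s1) (t := fun u v => (v ^ m)⁻¹ ^ j • s2 d m u v) ent1.cn ?_
  refine ContinuousOn.smul (f := fun q : ℂ × ℂ => (q.2 ^ m)⁻¹ ^ j) ?_ (ent2 d m).cn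
  exact ((cn_inv m).pow j).comp continuousOn_snd fun _ hq => hq.2

lemma cn_K (A : AD d m) (j : ℕ) : Cn (K A j) := (cn2_K A j).ci 0

def kk (A : AD d m) (i : ℤ) (j : ℕ) (ρ : ℝ) : ℂ := CI (fun u => (u ^ m) ^ (-i) * K A j u) ρ

def Mx (A : AD d m) (i : ℤ) (ρ : ℝ) (v : ℂ) : ℂ :=
  Mn (fun u => A.P u v) (fun u => s2 d m u v) (fun u => (u ^ m) ^ (-i) • e1) ρ

lemma cn_Mx (A : AD d m) (i : ℤ) (ρ : ℝ) : Cn (Mx A i ρ) := by
  have h : Cn2 fun u v => hf (A.P u v) (s2 d m u v) ((u ^ m) ^ (-i) • e1) := by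
    refine cn2_hf A (t := fun u _ => (u ^ m) ^ (-i) • e1) (ent2 d m).cn ?_
    exact ((cn_zpow m (-i)).comp continuousOn_fst fun _ hq => hq.1).smul continuousOn_const
  exact h.swap.ci ρ

lemma kk_eq (A : AD d m) (i : ℤ) (j : ℕ) (ρ : ℝ) :
    kk A i j ρ = CI (fun v => conj ((v ^ m)⁻¹ ^ j * Mx A i ρ v)) 0 := by
  have h : Cn2 fun u v => (u ^ m) ^ (-i) *
      hf (A.P u v) e1 ((v ^ m)⁻¹ ^ j • x2 d 0 0 (u ^ m) (v ^ m)) :=
    ((cn_zpow m (-i)).comp continuousOn_fst fun _ hq => hq.1).mul (cn2_K A j)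
  have e : kk A i j ρ = CI (fun u => CI (fun v => (u ^ m) ^ (-i) *
      hf (A.P u v) e1 ((v ^ m)⁻¹ ^ j • x2 d 0 0 (u ^ m) (v ^ m))) 0) ρ :=
    CI_congr fun u _ => by rw [CI_mul, K, Mn_CI]
  rw [e, CI_swap h]
  refine CI_congr fun v _ => ?_
  unfold Mx
  rw [Mn_CI, ← CI_mul, ← CI_conj]
  refine CI_congr fun u _ => ?_
  rw [hf_smul_right, hf_smul_right, hf_conj ((A.ny u).pos v) e1]
  simp only [map_mul, conj_conj, s2]
  ring

theorem stepX {M : ℕ} (hM : 1 ≤ M) (A : AD d (M ^ 2)) {i : ℤ} (hi : |i| ≤ 60) (j : ℕ) {ρ : ℝ}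
    (h0 : 0 ≤ ρ) (h4 : ρ ≤ lr (M ^ 2) 4) :
    ‖kk A i j ρ - kk A i j 0‖ ≤ (1 + 4 * (4 ^ 60) ^ 2) / M * NN A := by
  have hM0 : (0 : ℝ) < M := by exact_mod_cast hM
  have hm : 1 ≤ M ^ 2 := Nat.one_le_pow _ _ hM
  have cc : ∀ ρ, Cn fun v => conj ((v ^ (M ^ 2))⁻¹ ^ j * Mx A i ρ v) := fun ρ =>
    Complex.continuous_conj.comp_continuousOn (((cn_inv _).pow j).mul (cn_Mx A i ρ))
  have c1 := (cn2_sq A ent1).swap.ci ρ
  have c2 := (cn2_sq A (ent2 d (M ^ 2))).swap.ci ρ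
  rw [kk_eq, kk_eq, ← CI_sub (cc ρ) (cc 0)]
  have hMρ : M * ρ ≤ 4 / M := by
    have : Real.log 4 ≤ 4 := (Real.log_le_sub_one_of_pos (by norm_num)).trans (by norm_num)
    unfold lr at h4
    rw [le_div_iff₀ (by positivity)] at h4
    rw [le_div_iff₀ hM0]
    push_cast at h4
    nlinarith
  refine (CI_norm_le (g' := fun v => (1 / (2 * M)) * CI (fun u => sq A (s2 d (M ^ 2)) u v) ρ
      + (4 / M * (4 ^ 60) ^ 2) * CI (fun u => sq A s1 u v) ρ)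
    ((continuousOn_const.mul c2).add (continuousOn_const.mul c1)) fun v hv' => ?_).trans ?_
  · have hy : ‖v ^ (M ^ 2)‖ = 1 := by rw [norm_pow, hv']; simp
    rw [← map_sub, Complex.norm_conj, ← mul_sub, norm_mul, norm_pow, norm_inv, hy, inv_one, one_pow,
      one_mul]
    have := C2.var (A.nx v) (A.nx' v) ((ent2 d (M ^ 2)).x v)
      (diff_x (f := fun x y => x2 d 1 0 x y) (diff_x2 d 1 0) (v ^ (M ^ 2)) (M ^ 2))
      (relX2 A v) (hs_zpow (M ^ 2) (-i)) 0 ρ ((4 ^ 60) ^ 2 * CI (fun u => sq A s1 u v) ρ) M h0 hM0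
      (fun r hr => by
        refine (Mn_smul_le (A.nx v) (s := fun _ => e1) continuousOn_const (cn_zpow _ _)
          (C := 4 ^ 60) fun z hz => ?_).trans ?_
        · have := pow_mem hm hz hr.1 (hr.2.trans h4)
          exact zpow_bd this.1 this.2 hi
        · rw [CI_x A ent1]
          exact mul_le_mul_of_nonneg_left (C2.mono (A.nx v) (ent1.x v) hr.2) (by positivity))
    refine this.trans ?_
    rw [← CI_x A (ent2 d (M ^ 2))]
    have hp : 0 ≤ (4 ^ 60) ^ 2 * CI (fun u => sq A s1 u v) ρ := by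
      have := CI_nonneg (ρ := ρ) fun u => sq_nonneg' A s1 u v
      positivity
    have := mul_le_mul_of_nonneg_right hMρ hp
    have e : CI (fun u => sq A (s2 d (M ^ 2)) u v) ρ / (2 * M)
      = 1 / (2 * M) * CI (fun u => sq A (s2 d (M ^ 2)) u v) ρ := by ring
    rw [e, sub_zero]
    nlinarith
  · rw [CI_add (g := fun v => (1 / (2 * M)) * CI (fun u => sq A (s2 d (M ^ 2)) u v) ρ)
      (g' := fun v => (4 / M * (4 ^ 60) ^ 2) * CI (fun u => sq A s1 u v) ρ)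
      (continuousOn_const.mul c2) (continuousOn_const.mul c1), CI_mulR, CI_mulR]
    have t1 : CI (fun v => CI (fun u => sq A s1 u v) ρ) 0 ≤ NN A :=
      (TR_swap (cn2_sq A ent1) ρ 0).symm.le.trans (T1_le A h4)
    have t2 : CI (fun v => CI (fun u => sq A (s2 d (M ^ 2)) u v) ρ) 0 ≤ NN A :=
      (TR_swap (cn2_sq A (ent2 d _)) ρ 0).symm.le.trans (T2_le A h4)
    have hN := (NN_pos A).le
    have u1 := mul_le_mul_of_nonneg_left t1 (by positivity : (0 : ℝ) ≤ 4 / M * (4 ^ 60) ^ 2)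
    have u2 := mul_le_mul_of_nonneg_left t2 (by positivity : (0 : ℝ) ≤ 1 / (2 * M))
    have u3 : 1 / (2 * M) * NN A ≤ 1 / M * NN A := by
      refine mul_le_mul_of_nonneg_right ?_ hN
      exact one_div_le_one_div_of_le hM0 (by linarith)
    have e : (1 + 4 * (4 ^ 60) ^ 2) / M * NN A
      = 1 / M * NN A + 4 / M * (4 ^ 60) ^ 2 * NN A := by ring
    rw [e]
    linarith

end DD

end Crest.Agent.R258

end
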