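import Crest.Agent.R258.D5

set_option autoImplicit false

noncomputable section

namespace Crest.Agent.R258

open Matrix Complex
open Crest.AlgGeometry.QuadricBundle
open scoped ComplexConjugate ComplexOrder Topology

namespace DD

open C2

variable {d : Dat} {m : ℕ}

lemma cn_S (A : AD d m) (i : Fin 4) : Cn (S A i) := by
  refine Cn.sum _ fun j => ContinuousOn.mul ?_ (cn_K A j)
  simp only [← W_eval]
  exact (Complex.continuous_conj.comp ((W i j).continuous.comp (continuous_pow m))).continuousOn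

lemma cn_Ay (A : AD d m) : Cn (Ay A) := (cn2_hf A ent1.cn ent1.cn).ci 0

lemma Ay_re (A : AD d m) (u : ℂ) : (Ay A u).re = CI (sq A s1 u) 0 := (CI_y A ent1 u 0).symm
lemma Ny_re (A : AD d m) (u : ℂ) : (Ny A u).re = CI (sq A s3 u) 0 := (CI_y A ent3 u 0).symm

lemma SS_eq (A : AD d m) (i : Fin 4) (n : ℤ) (ρ : ℝ) :
    CI (fun u => (u ^ m) ^ (-n) * S A i u) ρ = ∑ l ∈ Finset.range 31, ∑ j ∈ Finset.range 31,
      (((Real.exp (m * ρ) ^ 2 : ℝ) : ℂ) ^ l * conj ((W i j).coeff l)) * kk A (l + n) j ρ := by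
  unfold kk
  rw [CI_lin2 _ _ (g := fun (l j : ℕ) u => (u ^ m) ^ (-((l : ℤ) + n)) * K A j u)
    fun l j => (cn_zpow m _).mul (cn_K A j)]
  refine CI_congr fun u hu => ?_
  have hx : u ^ m ≠ 0 := pow_ne_zero _ (ne_of_norm hu)
  have hn := norm_pow_of hu m
  unfold S
  generalize u ^ m = x at hx hn ⊢
  rw [Finset.sum_comm, Finset.mul_sum]
  refine Finset.sum_congr rfl fun j hj => ?_
  rw [mon_eq i (Finset.mem_range.mp hj), map_sum, Finset.sum_mul, Finset.mul_sum]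
  refine Finset.sum_congr rfl fun l _ => ?_
  have e : conj x = ((Real.exp (m * ρ) ^ 2 : ℝ) : ℂ) * x⁻¹ := by
    rw [← hn, ← Complex.normSq_eq_norm_sq, ← Complex.mul_conj]
    field_simp
  rw [map_mul, map_pow, e, neg_add, zpow_add₀ hx, mul_pow, zpow_neg x (l : ℤ), zpow_natCast, inv_pow]
  ring

lemma TR_eq (A : AD d m) (σ : ℂ → ℂ → V2) (ρ : ℝ) :
    CI (fun u => CI (sq A σ u) 0) ρ = TR (sq A σ) ρ 0 := rfl

/-- the integrated form of step Y -/
lemma stepY' (hG : GStmt) (d : Dat) : ∃ C : ℝ, 0 ≤ C ∧ ∀ M : ℕ, 1 ≤ M → ∀ (A : AD d (M ^ 2))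
    (ρ : ℝ), 0 ≤ ρ → ρ ≤ lr (M ^ 2) 4 → ∀ n : ℤ, |n| ≤ 60 → ∀ i,
    ‖CI (fun u => (u ^ (M ^ 2)) ^ (-n) * S A i u) ρ
      - CI (fun u => (u ^ (M ^ 2)) ^ (-n) * Ay A u) ρ‖ ≤ C / M * NN A := by
  obtain ⟨C1, hC1, h1⟩ := stepY hG d
  obtain ⟨C2, hC2, h2⟩ := stepN hG d
  refine ⟨4 ^ 60 * C1 * (1 + C2), by positivity, fun M hM A ρ h0 h4 n hn i => ?_⟩
  have hM0 : (0 : ℝ) < M := by exact_mod_cast hM
  have hm : 1 ≤ M ^ 2 := Nat.one_le_pow _ _ hM
  have c1 := (cn2_sq A ent1).ci 0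
  have c3 := (cn2_sq A ent3).ci 0
  rw [← CI_sub (g := fun u => (u ^ (M ^ 2)) ^ (-n) * S A i u)
    (g' := fun u => (u ^ (M ^ 2)) ^ (-n) * Ay A u) ((cn_zpow _ _).mul (cn_S A i))
    ((cn_zpow _ _).mul (cn_Ay A))]
  refine (CI_norm_le (g' := fun u => (4 ^ 60 * C1 / M) * (CI (sq A s1 u) 0 + CI (sq A s3 u) 0))
    (continuousOn_const.mul (c1.add c3)) fun u hu => ?_).trans ?_
  · have hx := pow_mem hm hu h0 h4
    have := h1 M hM A u hx.2 i
    rw [Ay_re, Ny_re] at this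
    rw [← mul_sub, norm_mul]
    refine (mul_le_mul (zpow_bd hx.1 hx.2 hn) this (norm_nonneg _) (by positivity)).trans
      (le_of_eq (by ring))
  · rw [CI_mulR, CI_add c1 c3, TR_eq, TR_eq]
    have t1 := T1_le A h4
    have t3 := h2 _ hm A ρ h4
    calc _ ≤ (4 ^ 60 * C1 / M) * (NN A + C2 * NN A) :=
          mul_le_mul_of_nonneg_left (add_le_add t1 t3) (by positivity)
      _ = _ := by ring

theorem stepZ (hG : GStmt) (d : Dat) : ∃ C : ℝ, 0 ≤ C ∧ ∀ M : ℕ, 1 ≤ M → ∀ (A : AD d (M ^ 2)),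
    TR (sq A s1) 0 0 ≤ C / M * NN A := by
  obtain ⟨C1, hC1, h1⟩ := stepY' hG d
  obtain ⟨Cv, hCv, hv'⟩ := vand
  obtain ⟨Ci, hCi, hi⟩ := invar hG
  obtain ⟨Cw, hCw, hw⟩ := bdd (fun (p : Fin 4 × Fin 31 × Fin 31) (_ : ℂ × ℂ) =>
    (W p.1 p.2.1).coeff p.2.2) fun _ => continuous_const
  have hw' : ∀ i, ∀ j ∈ Finset.range 31, ∀ l ∈ Finset.range 31, ‖(W i j).coeff l‖ ≤ Cw :=
    fun i j hj l hl => hw (i, ⟨j, Finset.mem_range.mp hj⟩, ⟨l, Finset.mem_range.mp hl⟩) 0 0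
      (by simp) (by simp)
  set Cx : ℝ := 1 + 4 * (4 ^ 60) ^ 2 with hCx
  have hCx0 : 0 ≤ Cx := by positivity
  set C4 : ℝ := 2 * C1 + 31 * 31 * (4 ^ 30 * (2 * Cw) * Cx) with hC4
  have hC40 : 0 ≤ C4 := by positivity
  refine ⟨C1 + 31 * 31 * (Cw * (Ci * (Cv * C4))), by positivity, fun M hM A => ?_⟩
  have hM0 : (0 : ℝ) < M := by exact_mod_cast hM
  have hm : 1 ≤ M ^ 2 := Nat.one_le_pow _ _ hM
  have hN := (NN_pos A).le
  set ε : ℝ := NN A / M with hε
  have hε0 : 0 ≤ ε := by positivity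
  have div_eq : ∀ C : ℝ, C / M * NN A = C * ε := fun C => by rw [hε]; ring
  have z1 : ∀ (i : Fin 4) (n : ℤ), |n| ≤ 30 → ∀ s : Fin 31,
      ‖∑ l ∈ Finset.range 31, ((tt s : ℝ) : ℂ) ^ l * ∑ j ∈ Finset.range 31,
        conj ((W i j).coeff l - (W 0 j).coeff l) * kk A (l + n) j 0‖ ≤ C4 * ε := by
    intro i n hn s
    have ht1 : 1 ≤ tt s := by unfold tt; have : (0 : ℝ) ≤ (s : ℕ) := Nat.cast_nonneg _; linarith
    have ht4 : tt s ≤ 4 := by
      unfold tt
      have : ((s : ℕ) : ℝ) ≤ 30 := by exact_mod_cast Nat.lt_succ_iff.mp s.2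
      linarith
    have hs1 : 1 ≤ Real.sqrt (tt s) := Real.one_le_sqrt.mpr ht1
    have hs4 : Real.sqrt (tt s) ≤ 4 := Real.sqrt_le_iff.mpr ⟨by norm_num, by linarith⟩
    set ρ := lr (M ^ 2) (Real.sqrt (tt s)) with hρ
    have h0 : 0 ≤ ρ := lr_nonneg _ hs1
    have h4 : ρ ≤ lr (M ^ 2) 4 := lr_mono _ (by linarith) hs4
    have he : Real.exp ((M ^ 2 : ℕ) * ρ) ^ 2 = tt s := by
      rw [hρ, exp_lr hm (by linarith), Real.sq_sqrt (by linarith)]
    have a1 := h1 M hM A ρ h0 h4 n (by omega) i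
    have a0 := h1 M hM A ρ h0 h4 n (by omega) 0
    rw [SS_eq, he, div_eq] at a1 a0
    have b : ‖∑ l ∈ Finset.range 31, ∑ j ∈ Finset.range 31,
        ((tt s : ℝ) : ℂ) ^ l * conj ((W i j).coeff l - (W 0 j).coeff l) *
          (kk A (l + n) j ρ - kk A (l + n) j 0)‖ ≤ 31 * 31 * (4 ^ 30 * (2 * Cw) * Cx) * ε := by
      have : ∀ l ∈ Finset.range 31, ‖∑ j ∈ Finset.range 31,
          ((tt s : ℝ) : ℂ) ^ l * conj ((W i j).coeff l - (W 0 j).coeff l) *
            (kk A (l + n) j ρ - kk A (l + n) j 0)‖ ≤ 31 * (4 ^ 30 * (2 * Cw) * (Cx * ε)) := by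
        intro l hl
        refine (norm_sum_le_of_le _ (n := fun _ => 4 ^ 30 * (2 * Cw) * (Cx * ε))
          fun j hj => ?_).trans (by simp)
        have hl' := Finset.mem_range.mp hl
        have k1 := stepX hM A (i := l + n) (by
          rw [abs_le] at hn ⊢; omega) j h0 h4
        rw [div_eq] at k1
        have k2 : ‖conj ((W i j).coeff l - (W 0 j).coeff l)‖ ≤ 2 * Cw := by
          rw [Complex.norm_conj]
          linarith [norm_sub_le ((W i j).coeff l) ((W 0 j).coeff l), hw' i j hj l hl,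
            hw' 0 j hj l hl]
        have k3 : ‖((tt s : ℝ) : ℂ) ^ l‖ ≤ 4 ^ 30 := by
          rw [norm_pow, Complex.norm_real, Real.norm_of_nonneg (by linarith)]
          exact (pow_le_pow_left₀ (by linarith) ht4 l).trans
            (pow_le_pow_right₀ (by norm_num) (by omega))
        rw [norm_mul, norm_mul]
        exact mul_le_mul (mul_le_mul k3 k2 (norm_nonneg _) (by positivity)) k1 (norm_nonneg _)
          (by positivity)
      refine (norm_sum_le_of_le _ this).trans (le_of_eq ?_)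
      simp only [Finset.sum_const, Finset.card_range, nsmul_eq_mul]
      push_cast
      ring
    set Q := CI (fun u => (u ^ (M ^ 2)) ^ (-n) * Ay A u) ρ
    have e : ∑ l ∈ Finset.range 31, ((tt s : ℝ) : ℂ) ^ l * ∑ j ∈ Finset.range 31,
        conj ((W i j).coeff l - (W 0 j).coeff l) * kk A (l + n) j 0
        = ((∑ l ∈ Finset.range 31, ∑ j ∈ Finset.range 31,
            ((tt s : ℝ) : ℂ) ^ l * conj ((W i j).coeff l) * kk A (l + n) j ρ - Q)
          - (∑ l ∈ Finset.range 31, ∑ j ∈ Finset.range 31,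
            ((tt s : ℝ) : ℂ) ^ l * conj ((W 0 j).coeff l) * kk A (l + n) j ρ - Q))
          - ∑ l ∈ Finset.range 31, ∑ j ∈ Finset.range 31,
            ((tt s : ℝ) : ℂ) ^ l * conj ((W i j).coeff l - (W 0 j).coeff l) *
              (kk A (l + n) j ρ - kk A (l + n) j 0) := by
      rw [sub_sub_sub_cancel_right, ← Finset.sum_sub_distrib, ← Finset.sum_sub_distrib]
      refine Finset.sum_congr rfl fun l _ => ?_
      rw [Finset.mul_sum, ← Finset.sum_sub_distrib, ← Finset.sum_sub_distrib]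
      refine Finset.sum_congr rfl fun j _ => ?_
      rw [map_sub]; ring
    rw [e]
    refine (norm_sub_le _ _).trans ((add_le_add ((norm_sub_le _ _).trans (add_le_add a1 a0)) b).trans
      (le_of_eq ?_))
    rw [hC4]; ring
  have z2 : ∀ l < 31, ∀ j < 31, ‖kk A ((l : ℕ) : ℤ) j 0‖ ≤ Ci * (Cv * (C4 * ε)) := by
    intro l hl
    refine hi (fun j => kk A ((l : ℕ) : ℤ) j 0) _ (by positivity) fun p => ?_
    have := hv' (fun l' => ∑ j ∈ Finset.range 31,
      conj ((W p.1 j).coeff l' - (W 0 j).coeff l') * kk A (l' + ((l : ℤ) - (p.2 : ℕ))) j 0)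
      _ (by positivity) (z1 p.1 ((l : ℤ) - (p.2 : ℕ)) (by
        have := p.2.2
        rw [abs_le]; omega)) p.2 p.2.2
    simpa only [add_sub_cancel] using this
  have a0 := h1 M hM A 0 le_rfl (lr_nonneg _ (by norm_num)) 0 (by simp) 0
  rw [SS_eq, div_eq] at a0
  simp only [neg_zero, zpow_zero, one_mul, mul_zero, Real.exp_zero, one_pow, ofReal_one,
    add_zero] at a0
  have b : ‖∑ l ∈ Finset.range 31, ∑ j ∈ Finset.range 31,
      conj ((W 0 j).coeff l) * kk A l j 0‖ ≤ 31 * 31 * (Cw * (Ci * (Cv * C4))) * ε := by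
    have : ∀ l ∈ Finset.range 31, ‖∑ j ∈ Finset.range 31, conj ((W 0 j).coeff l) * kk A l j 0‖
        ≤ 31 * (Cw * (Ci * (Cv * (C4 * ε)))) := by
      intro l hl
      refine (norm_sum_le_of_le _ (n := fun _ => Cw * (Ci * (Cv * (C4 * ε))))
        fun j hj => ?_).trans (by simp)
      rw [norm_mul, Complex.norm_conj]
      exact mul_le_mul (hw' 0 j hj l hl)
        (z2 l (Finset.mem_range.mp hl) j (Finset.mem_range.mp hj)) (norm_nonneg _) (by linarith)
    refine (norm_sum_le_of_le _ this).trans (le_of_eq ?_)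
    simp only [Finset.sum_const, Finset.card_range, nsmul_eq_mul]
    push_cast
    ring
  have c : TR (sq A s1) 0 0 = (CI (fun u => Ay A u) 0).re := by
    rw [CI_re (cn_Ay A)]
    exact CI_congr fun u _ => (Ay_re A u).symm
  rw [c, div_eq]
  refine (Complex.re_le_norm _).trans ?_
  have := norm_sub_norm_le (CI (fun u => Ay A u) 0) (∑ l ∈ Finset.range 31,
    ∑ j ∈ Finset.range 31, conj ((W 0 j).coeff l) * kk A l j 0)
  rw [norm_sub_rev] at this
  linarith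

end DD

end Crest.Agent.R258

end
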