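import Crest.Agent.R258.D6

set_option autoImplicit false

noncomputable section

namespace Crest.Agent.R258

open Matrix Complex
open Crest.AlgGeometry.QuadricBundle
open scoped ComplexConjugate ComplexOrder Topology

namespace DD

open C2

variable {d : Dat} {m : ℕ}

lemma cauchy {x y : ℂ} (hx : ‖x‖ = 2) (hy : ‖y‖ = 1) :
    x - y ≠ 0 ∧ ‖x / (x - y)‖ ≤ 2 ∧ 2 / 9 ≤ (x / (x - y)).re := by
  have h1 : 1 ≤ ‖x - y‖ := by linarith [norm_sub_norm_le x y]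
  have h3 : ‖x - y‖ ≤ 3 := by linarith [norm_sub_le x y]
  have h0 : x - y ≠ 0 := by
    intro h; rw [h, norm_zero] at h1; linarith
  refine ⟨h0, ?_, ?_⟩
  · rw [norm_div, hx, div_le_iff₀ (by linarith)]; linarith
  · have hx2 : x.re ^ 2 + x.im ^ 2 = 4 := by
      have := Complex.sq_norm x
      rw [hx, Complex.normSq_apply] at this; linarith
    have hy2 : y.re ^ 2 + y.im ^ 2 = 1 := by
      have := Complex.sq_norm y
      rw [hy, Complex.normSq_apply] at this; linarith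
    have hn : Complex.normSq (x - y) ≤ 9 := by rw [Complex.normSq_eq_norm_sq]; nlinarith
    have hp : 0 < Complex.normSq (x - y) := Complex.normSq_pos.mpr h0
    rw [Complex.div_re, ← add_div, le_div_iff₀ hp]
    simp only [sub_re, sub_im]
    nlinarith [sq_nonneg (x.re - 2 * y.re), sq_nonneg (x.im - 2 * y.im)]

lemma pointB {P : M2} (hP : P.PosDef) {x y : ℂ} (hx : ‖x‖ = 2) (hy : ‖y‖ = 1) {C : ℝ}
    (hC : ‖d.th 0 x (hv 0 y)‖ ≤ C) :
    (hf P (x2 d 0 0 x y) (x2 d 0 0 x y)).re ≤ 108 * C ^ 2 * (hf P e1 e1).re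
      + -6 * (hf P (x2 d 0 0 x y) (x • gr 0 (hv 0 x) (hv 0 y) • e2)).re := by
  obtain ⟨h0, h1, h2⟩ := cauchy hx hy
  set φ := x / (x - y) with hφ
  have hg : gam (hv 0 x) (hv 0 y) = (y - x) * gr 0 (hv 0 x) (hv 0 y) := by
    rw [gam_eq 0]
    congr 1
    have : gm 0 = 1 := rfl
    rw [this, one_mulVec]
    simp [det2, hv_zero]
  have e : φ • x2 d 0 0 x y = (φ * d.th 0 x (hv 0 y)) • e1
      + (-1 : ℂ) • x • gr 0 (hv 0 x) (hv 0 y) • e2 := by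
    rw [x2_eq, smul_add, smul_smul, smul_smul, smul_smul, smul_smul, hg]
    congr 2
    rw [hφ]; field_simp; ring
  have e1' := congrArg (fun t => (hf P (x2 d 0 0 x y) t).re) e
  simp only [hf_add_right] at e1'
  rw [hf_smul_right, hf_smul_right _ _ _ (-1)] at e1'
  have hb := hf_nonneg hP (x2 d 0 0 x y)
  have ha := hf_nonneg hP e1
  have him : (hf P (x2 d 0 0 x y) (x2 d 0 0 x y)).im = 0 := by
    have := congrArg Complex.im (hf_conj hP (x2 d 0 0 x y) (x2 d 0 0 x y))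
    rw [conj_im] at this; linarith
  have k1 := hf_norm_le hP (x2 d 0 0 x y) ((φ * d.th 0 x (hv 0 y)) • e1) (τ := 9) (by norm_num)
  rw [hf_smul_smul, norm_mul] at k1
  have k2 := Complex.re_le_norm (hf P (x2 d 0 0 x y) ((φ * d.th 0 x (hv 0 y)) • e1))
  have k3 : (‖φ‖ * ‖d.th 0 x (hv 0 y)‖) ^ 2 ≤ (2 * C) ^ 2 :=
    pow_le_pow_left₀ (by positivity) (mul_le_mul h1 hC (norm_nonneg _) (by norm_num)) 2
  have k4 := mul_le_mul_of_nonneg_right k3 ha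
  have k5 := mul_le_mul_of_nonneg_right h2 hb
  simp only [add_re, mul_re, conj_re, conj_im, him, map_neg, map_one, neg_re, one_re, neg_im,
    one_im] at e1'
  nlinarith

theorem stepB (hG : GStmt) (d : Dat) : ∃ C C' : ℝ, 0 ≤ C ∧ 0 ≤ C' ∧ ∀ M : ℕ, 1 ≤ M →
    ∀ (A : AD d (M ^ 2)), TR (sq A (s2 d (M ^ 2))) (lr (M ^ 2) 2) 0
      ≤ C * TR (sq A s1) (lr (M ^ 2) 2) 0 + C' / M * NN A := by
  obtain ⟨C1, hC1, b1⟩ := bdd (fun (_ : Unit) (q : ℂ × ℂ) => d.th 0 q.1 (hv 0 q.2))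
    fun _ => (PF.diff (d.th_pf 0) 0).continuous
  obtain ⟨C3, hC3, b3⟩ := bdd (fun (_ : Unit) (q : ℂ × ℂ) => 2 * gr 0 (hv 0 q.1) (hv 0 q.2))
    (fun _ => continuous_const.mul (diff_gr 0 0 0).continuous)
  obtain ⟨C2, hC2, h2⟩ := stepN hG d
  refine ⟨108 * C1 ^ 2, 6 * C3 ^ 2 * (1 + C2), by positivity, by positivity, fun M hM A => ?_⟩
  have hM0 : (0 : ℝ) < M := by exact_mod_cast hM
  have hm : 1 ≤ M ^ 2 := Nat.one_le_pow _ _ hM
  set ρ := lr (M ^ 2) 2 with hρ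
  have h4 : ρ ≤ lr (M ^ 2) 4 := lr_mono _ (by norm_num) (by norm_num)
  have c1 := (cn2_sq A ent1).swap.ci ρ
  have c2 := (cn2_sq A (ent2 d (M ^ 2))).swap.ci ρ
  have c3 := (cn2_sq A ent3).swap.ci ρ
  have key : ∀ v, ‖v‖ = Real.exp 0 → CI (fun u => sq A (s2 d (M ^ 2)) u v) ρ
      ≤ 108 * C1 ^ 2 * CI (fun u => sq A s1 u v) ρ + 6 * C3 ^ 2 / M *
        (CI (fun u => sq A (s2 d (M ^ 2)) u v) ρ + CI (fun u => sq A s3 u v) ρ) := by
    intro v hv'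
    have hv0 := ne_of_norm hv'
    have hy : ‖v ^ (M ^ 2)‖ = 1 := by rw [norm_pow, hv']; simp
    have hg := diff_x (f := fun x y => gr 0 (hv 0 x) (hv 0 y)) (diff_gr 0 0 0) (v ^ (M ^ 2)) (M ^ 2)
    have hσ : Differentiable ℂ fun u : ℂ => gr 0 (hv 0 (u ^ (M ^ 2))) (hv 0 (v ^ (M ^ 2))) • e2 :=
      hg.smul_const e2
    have cp : Cn fun u : ℂ => u ^ (M ^ 2) := (continuous_pow _).continuousOn
    have ck : Cn fun u => hf (A.P u v) (s2 d (M ^ 2) u v)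
        (u ^ (M ^ 2) • gr 0 (hv 0 (u ^ (M ^ 2))) (hv 0 (v ^ (M ^ 2))) • e2) :=
      cn_hf (A.nx v) ((ent2 d _).x v).continuous.continuousOn (cp.smul hσ.continuous.continuousOn)
    have ck' := Complex.continuous_re.comp_continuousOn ck
    have ca := (cn2_sq A ent1).left hv0
    have p1 := CI_mono (ρ := ρ) ((cn2_sq A (ent2 d (M ^ 2))).left hv0)
      (g' := fun u => 108 * C1 ^ 2 * sq A s1 u v + -6 * (hf (A.P u v) (s2 d (M ^ 2) u v)
        (u ^ (M ^ 2) • gr 0 (hv 0 (u ^ (M ^ 2))) (hv 0 (v ^ (M ^ 2))) • e2)).re)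
      ((continuousOn_const.mul ca).add (continuousOn_const.mul ck')) fun u hu => by
        have hx : ‖u ^ (M ^ 2)‖ = 2 := by rw [norm_pow_of hu, hρ, exp_lr hm (by norm_num)]
        exact pointB ((A.ny u).pos v) hx hy (b1 () _ _ (by rw [hx]; norm_num) (by rw [hy]; norm_num))
    rw [CI_add (g := fun u => 108 * C1 ^ 2 * sq A s1 u v)
      (g' := fun u => -6 * (hf (A.P u v) (s2 d (M ^ 2) u v)
        (u ^ (M ^ 2) • gr 0 (hv 0 (u ^ (M ^ 2))) (hv 0 (v ^ (M ^ 2))) • e2)).re)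
      (continuousOn_const.mul ca) (continuousOn_const.mul ck'), CI_mulR, CI_mulR,
      ← CI_re ck] at p1
    have z := R258.C2.zero (A.nx v) (A.nx' v) ((ent2 d (M ^ 2)).x v)
      (diff_x (f := fun x y => x2 d 1 0 x y) (diff_x2 d 1 0) (v ^ (M ^ 2)) (M ^ 2))
      (relX2 A v) hσ (M ^ 2) ρ M hm hM0
    have z2 := Mn_smul_le (A.nx v) (s := fun _ => e2) continuousOn_const
      (φ := fun u => u ^ (M ^ 2) * gr 0 (hv 0 (u ^ (M ^ 2))) (hv 0 (v ^ (M ^ 2))))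
      (cp.mul hg.continuous.continuousOn) (C := C3) (ρ := ρ) fun u hu => by
        have hx : ‖u ^ (M ^ 2)‖ = 2 := by rw [norm_pow_of hu, hρ, exp_lr hm (by norm_num)]
        have := b3 () _ _ (by rw [hx]; norm_num : ‖u ^ (M ^ 2)‖ ≤ 4)
          (by rw [hy]; norm_num : ‖v ^ (M ^ 2)‖ ≤ 6)
        rw [norm_mul, hx]
        simpa using this
    simp only [← smul_smul] at z2
    push_cast at z
    have z3 := z.trans (half_add hM0 (A_nonneg (A.nx v) (hs_of ((ent2 d (M ^ 2)).x v)) ρ)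
      (A_nonneg (A.nx v) (hs_of (differentiable_const e2)) ρ) hC3 z2)
    rw [← CI_x A (ent2 d (M ^ 2))] at z3
    have e3 : (Mn (fun u => A.P u v) (fun _ => e2) (fun _ => e2) ρ).re
      = CI (fun u => sq A s3 u v) ρ := (CI_x A ent3 v ρ).symm
    rw [e3, Mn_CI] at z3
    have z4 := (Complex.abs_re_le_norm _).trans z3
    have z5 := (abs_le.mp z4).1
    have e4 : 6 * C3 ^ 2 / M * (CI (fun u => sq A (s2 d (M ^ 2)) u v) ρ
        + CI (fun u => sq A s3 u v) ρ) = 6 * (C3 ^ 2 / M * (CI (fun u => sq A (s2 d (M ^ 2)) u v) ρ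
        + CI (fun u => sq A s3 u v) ρ)) := by ring
    rw [e4]
    linarith
  have p := CI_mono c2 ((continuousOn_const.mul c1).add (continuousOn_const.mul (c2.add c3))) key
  have p' : CI (fun v => CI (fun u => sq A (s2 d (M ^ 2)) u v) ρ) 0 ≤
      CI (fun v => 108 * C1 ^ 2 * CI (fun u => sq A s1 u v) ρ + 6 * C3 ^ 2 / M *
        (CI (fun u => sq A (s2 d (M ^ 2)) u v) ρ + CI (fun u => sq A s3 u v) ρ)) 0 := p
  rw [CI_add (g := fun v => 108 * C1 ^ 2 * CI (fun u => sq A s1 u v) ρ)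
    (g' := fun v => 6 * C3 ^ 2 / M *
        (CI (fun u => sq A (s2 d (M ^ 2)) u v) ρ + CI (fun u => sq A s3 u v) ρ))
    (continuousOn_const.mul c1) (continuousOn_const.mul (c2.add c3)), CI_mulR, CI_mulR,
    CI_add c2 c3] at p'
  have t1 : CI (fun v => CI (fun u => sq A s1 u v) ρ) 0 = TR (sq A s1) ρ 0 :=
    (TR_swap (cn2_sq A ent1) ρ 0).symm
  have t2 : CI (fun v => CI (fun u => sq A (s2 d (M ^ 2)) u v) ρ) 0
      = TR (sq A (s2 d (M ^ 2))) ρ 0 := (TR_swap (cn2_sq A (ent2 d _)) ρ 0).symm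
  have t3 : CI (fun v => CI (fun u => sq A s3 u v) ρ) 0 = TR (sq A s3) ρ 0 :=
    (TR_swap (cn2_sq A ent3) ρ 0).symm
  rw [t1, t2, t3] at p'
  have u1 := mul_le_mul_of_nonneg_left (add_le_add (T2_le A h4) (h2 _ hm A ρ h4))
    (by positivity : (0 : ℝ) ≤ 6 * C3 ^ 2 / M)
  have e : 6 * C3 ^ 2 * (1 + C2) / M * NN A = 6 * C3 ^ 2 / M * (NN A + C2 * NN A) := by ring
  rw [e]
  linarith

lemma grow1 (hm : 1 ≤ m) (A : AD d m) {r : ℝ} (hr : 1 ≤ r) :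
    TR (sq A s1) (lr m r) 0 ≤ r ^ 62 * TR (sq A s1) 0 0 := by
  refine TR_le_x (cn2_sq A ent1) fun v _ => ?_
  rw [CI_x A ent1, CI_x A ent1]
  refine (C2.grow (A.nx' v) (differentiable_const e1) (relX1 A v) (lr_nonneg m hr)).trans ?_
  exact mul_le_mul_of_nonneg_right (exp_grow hm hr (by omega))
    (A_nonneg (A.nx v) (hs_of (differentiable_const e1)) 0)

lemma grow2 (hm : 1 ≤ m) (A : AD d m) :
    TR (sq A s1) (lr m 4) (lr m 6) ≤ 6 ^ 62 * TR (sq A s1) (lr m 4) 0 := by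
  refine TR_le_y (cn2_sq A ent1) fun u _ => ?_
  rw [CI_y A ent1, CI_y A ent1]
  refine (C2.grow (A.ny' u) (differentiable_const e1) (relY1 A u)
    (lr_nonneg m (by norm_num : (1 : ℝ) ≤ 6))).trans ?_
  exact mul_le_mul_of_nonneg_right (exp_grow hm (by norm_num) (by omega))
    (A_nonneg (A.ny u) (hs_of (differentiable_const e1)) 0)

lemma grow3 (hm : 1 ≤ m) (A : AD d m) :
    TR (sq A (s2 d m)) (lr m 4) (lr m 6) ≤ 6 ^ 62 * TR (sq A (s2 d m)) (lr m 4) 0 := by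
  refine TR_le_y (cn2_sq A (ent2 d m)) fun u _ => ?_
  rw [CI_y A (ent2 d m), CI_y A (ent2 d m)]
  refine (C2.grow (A.ny' u) (diff_y (f := fun x y => x2 d 0 1 x y) (diff_x2 d 0 1) (u ^ m) m)
    (relY2 A u) (lr_nonneg m (by norm_num : (1 : ℝ) ≤ 6))).trans ?_
  exact mul_le_mul_of_nonneg_right (exp_grow hm (by norm_num) (by omega))
    (A_nonneg (A.ny u) (hs_of ((ent2 d m).y u)) 0)

lemma grow4 (hm : 1 ≤ m) (A : AD d m) :
    TR (sq A (s2 d m)) (lr m 4) 0 ≤ 4 ^ 62 * TR (sq A (s2 d m)) (lr m 2) 0 := by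
  refine TR_le_x (cn2_sq A (ent2 d m)) fun v _ => ?_
  rw [CI_x A (ent2 d m), CI_x A (ent2 d m)]
  refine (C2.grow (A.nx' v) (diff_x (f := fun x y => x2 d 1 0 x y) (diff_x2 d 1 0) (v ^ m) m)
    (relX2 A v) (lr_mono m (by norm_num : (0 : ℝ) < 2) (by norm_num : (2 : ℝ) ≤ 4))).trans ?_
  refine mul_le_mul_of_nonneg_right ?_ (A_nonneg (A.nx v) (hs_of ((ent2 d m).x v)) _)
  refine le_trans (Real.exp_le_exp.mpr ?_) (exp_grow (k := 1) hm (by norm_num : (1 : ℝ) ≤ 4)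
    (by omega))
  have := lr_nonneg m (by norm_num : (1 : ℝ) ≤ 2)
  push_cast
  linarith

theorem no_AD (hG : GStmt) (d : Dat) : ∃ M : ℕ, 1 ≤ M ∧ IsEmpty (AD d (M ^ 2)) := by
  obtain ⟨C1, hC1, h1⟩ := stepZ hG d
  obtain ⟨C2, C3, hC2, hC3, h2⟩ := stepB hG d
  set C : ℝ := 6 ^ 62 * 4 ^ 62 * C1 + 6 ^ 62 * 4 ^ 62 * (C2 * (2 ^ 62 * C1) + C3) with hC
  have hC0 : 0 ≤ C := by positivity
  obtain ⟨M, hM⟩ := exists_nat_gt C
  have hM0 : (0 : ℝ) < M := lt_of_le_of_lt hC0 hM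
  have hM1 : 1 ≤ M := by exact_mod_cast hM0
  refine ⟨M, hM1, ⟨fun A => ?_⟩⟩
  have hm : 1 ≤ M ^ 2 := Nat.one_le_pow _ _ hM1
  have hN := NN_pos A
  set ε : ℝ := NN A / M with hε
  have hε0 : 0 < ε := by positivity
  have div_eq : ∀ C : ℝ, C / M * NN A = C * ε := fun C => by rw [hε]; ring
  have a1 := h1 M hM1 A
  have a2 := h2 M hM1 A
  rw [div_eq] at a1 a2
  have g1 := grow1 hm A (by norm_num : (1 : ℝ) ≤ 4)
  have g1' := grow1 hm A (by norm_num : (1 : ℝ) ≤ 2)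
  have g2 := grow2 hm A
  have g3 := grow3 hm A
  have g4 := grow4 hm A
  have b1 : TR (sq A s1) (lr (M ^ 2) 4) (lr (M ^ 2) 6) ≤ 6 ^ 62 * (4 ^ 62 * (C1 * ε)) :=
    g2.trans (mul_le_mul_of_nonneg_left (g1.trans (mul_le_mul_of_nonneg_left a1 (by positivity)))
      (by positivity))
  have b2 : TR (sq A s1) (lr (M ^ 2) 2) 0 ≤ 2 ^ 62 * (C1 * ε) :=
    g1'.trans (mul_le_mul_of_nonneg_left a1 (by positivity))
  have b3 : TR (sq A (s2 d (M ^ 2))) (lr (M ^ 2) 2) 0 ≤ C2 * (2 ^ 62 * (C1 * ε)) + C3 * ε :=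
    a2.trans (add_le_add (mul_le_mul_of_nonneg_left b2 hC2) le_rfl)
  have b4 : TR (sq A (s2 d (M ^ 2))) (lr (M ^ 2) 4) (lr (M ^ 2) 6)
      ≤ 6 ^ 62 * (4 ^ 62 * (C2 * (2 ^ 62 * (C1 * ε)) + C3 * ε)) :=
    g3.trans (mul_le_mul_of_nonneg_left (g4.trans (mul_le_mul_of_nonneg_left b3 (by positivity)))
      (by positivity))
  have b5 : NN A ≤ C * ε := by
    refine (add_le_add b1 b4).trans (le_of_eq ?_)
    rw [hC]; ring
  have b6 : NN A = M * ε := by rw [hε]; field_simp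
  nlinarith

end DD

theorem dStmt : DStmt := by
  intro hG h1 _ d
  obtain ⟨M, hM, hA⟩ := DD.no_AD hG d
  exact ⟨M ^ 2, Nat.one_le_pow _ _ hM, fun H hH hP => hA.false (DD.exists_AD h1 d _ H hH hP).some⟩

end Crest.Agent.R258

end
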