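import Mathlib
import Crest.Prelude.Def_QuadricBundle

set_option autoImplicit false

noncomputable section

namespace Crest.Agent.R258

open Matrix Polynomial Complex
open Crest.AlgGeometry.QuadricBundle
open scoped ComplexConjugate ComplexOrder

abbrev V2 : Type := Fin 2 → ℂ
abbrev M2 : Type := Matrix (Fin 2) (Fin 2) ℂ

/-- golden ratio -/
def ph : ℂ := (((1 + Real.sqrt 5) / 2 : ℝ) : ℂ)

/-- the identity and three reflections of order two (icosahedral group `G₂₂`) -/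
def gm : Fin 4 → M2 :=
  ![1, !![0, 1; 1, 0],
    !![ph / 2, 1 / 2 - I * (ph - 1) / 2; 1 / 2 + I * (ph - 1) / 2, -ph / 2],
    !![-ph / 2, 1 / 2 - I * (ph - 1) / 2; 1 / 2 + I * (ph - 1) / 2, ph / 2]]

/-- homogeneous coordinates of the point `x` of chart `a` of the projective line -/
def hv (a : Fin 2) (x : ℂ) : V2 := if a = 0 then ![1, x] else ![x, 1]

def det2 (X Y : V2) : ℂ := X 0 * Y 1 - X 1 * Y 0

/-- equation of the union of the four graphs, bidegree `(4,4)` -/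
def gam (X Y : V2) : ℂ := ∏ i, det2 X (gm i *ᵥ Y)

/-- binary forms of degree `d` in `Y` whose coefficients are polynomials in `x` -/
def PF (d : ℕ) (φ : ℂ → V2 → ℂ) : Prop :=
  ∃ c : ℕ → ℂ[X], ∀ x Y,
    φ x Y = ∑ l ∈ Finset.range (d + 1), (c l).eval x * (Y 0 ^ (d - l) * Y 1 ^ l)

/-- facts about the four matrices -/
structure GStmt : Prop where
  sq : ∀ i, gm i * gm i = 1
  pow : ∀ i k, (gm i * gm k) ^ 30 = 1
  cop : ∀ i j k, i < j → j < k → ∀ z : V2, z ≠ 0 →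
    det2 z ((gm i * gm k) *ᵥ z) = 0 → det2 z ((gm j * gm k) *ᵥ z) ≠ 0
  ne : ∀ (a : Fin 2) i k, i < k → ∃ x, det2 (hv a x) ((gm i * gm k) *ᵥ hv a x) ≠ 0
  scal : (gm 1 * gm 2 * gm 3) ^ 3 = (-I) • (1 : M2)
  inv : ∃ f : Fin 2 → MvPolynomial (Fin 2) ℂ, (∀ k, (f k).IsHomogeneous 60) ∧
    (∀ k i z, MvPolynomial.eval (gm i *ᵥ z) (f k) = MvPolynomial.eval z (f k)) ∧
    ∀ z : V2, z ≠ 0 → ∃ k, MvPolynomial.eval z (f k) ≠ 0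
  far : ∀ x y : ℂ, ‖x‖ = 4 → ‖y‖ = 6 → gam (hv 0 x) (hv 0 y) ≠ 0

/-- algebraic data of the bundle `G` and of two sections of `S² G` -/
structure Dat where
  th : Fin 2 → ℂ → V2 → ℂ
  th_pf : ∀ a, PF 30 (th a)
  th_one : ∀ a x i, th a x (gm i *ᵥ hv a x) = 1
  D : ℕ
  E : Fin 2 → ℂ → V2 → ℂ
  E_pf : ∀ a, PF 26 (E a)
  E_eq : ∀ a x Y, x ≠ 0 →
    th a.rev x⁻¹ Y - x ^ 30 * th a x Y = gam (hv a x) Y * (x⁻¹ ^ D * E a x Y)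
  E_symm : ∀ a x Y, x ≠ 0 → x ^ D * E a.rev x⁻¹ Y = -(x⁻¹ ^ 26 * (x⁻¹ ^ D * E a x Y))
  f : Fin 2 → MvPolynomial (Fin 2) ℂ
  f_hom : ∀ k, (f k).IsHomogeneous 60
  f_ne : ∀ z : V2, z ≠ 0 → ∃ k, MvPolynomial.eval z (f k) ≠ 0
  c1 : Fin 2 → Fin 2 → ℂ → V2 → ℂ
  c2 : Fin 2 → Fin 2 → ℂ → V2 → ℂ
  c1_pf : ∀ k a, PF 26 (c1 k a)
  c2_pf : ∀ k a, PF 52 (c2 k a)
  c_eq : ∀ k a x Y, MvPolynomial.eval (hv a x) (f k) * th a x Y ^ 2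
    + c1 k a x Y * th a x Y * gam (hv a x) Y + c2 k a x Y * gam (hv a x) Y ^ 2
      = MvPolynomial.eval Y (f k)
  c1_compat : ∀ k a x Y, x ≠ 0 → c1 k a x Y =
    2 * x ^ 30 * (x⁻¹ ^ D * E a x Y) * MvPolynomial.eval (hv a.rev x⁻¹) (f k)
      + x ^ 26 * c1 k a.rev x⁻¹ Y
  c2_compat : ∀ k a x Y, x ≠ 0 → c2 k a x Y =
    (x⁻¹ ^ D * E a x Y) ^ 2 * MvPolynomial.eval (hv a.rev x⁻¹) (f k)
      + x⁻¹ ^ 4 * (x⁻¹ ^ D * E a x Y) * c1 k a.rev x⁻¹ Y + x⁻¹ ^ 8 * c2 k a.rev x⁻¹ Y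

def AStmt : Prop := GStmt → Nonempty Dat

def lam (a a' : Fin 2) (x : ℂ) : ℂ := if a = a' then 1 else x

/-- transition matrices of `G` -/
def G0 (d : Dat) : Transition 2 := fun α β p =>
  !![lam α.1 β.1 (p 0) ^ 30, 0;
     if α.1 = β.1 then 0 else (p 0)⁻¹ ^ d.D * d.E α.1 (p 0) (hv α.2 (p 1)),
     (lam α.1 β.1 (p 0))⁻¹ ^ 4 * lam α.2 β.2 (p 1) ^ 26]

def pw (m : ℕ) (p : Fin 2 → ℂ) : Fin 2 → ℂ := ![p 0 ^ m, p 1 ^ m]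

/-- transition matrices of `E = (x^m, y^m)^* G ⊗ O(1,1)` -/
def GE (d : Dat) (m : ℕ) : Transition 2 := fun α β p =>
  (lam α.1 β.1 (p 0) * lam α.2 β.2 (p 1)) • G0 d α β (pw m p)

def BStmt : Prop := ∀ (d : Dat) (m : ℕ), 1 ≤ m → IsHoloCocycle (GE d m) ∧ IsAmple (GE d m)

/-- Hermitian form of the matrix `P`, linear in `s`, antilinear in `t` -/
def hf (P : M2) (s t : V2) : ℂ := star t ⬝ᵥ (P *ᵥ s)

/-- real directional derivative -/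
def Dd (ω : ℂ) (F : ℂ → ℂ) : ℂ → ℂ := fun ζ => fderiv ℝ F ζ ω

def lap (F : ℂ → ℂ) (ζ : ℂ) : ℂ := Dd 1 (Dd 1 F) ζ + Dd I (Dd I F) ζ

/-- a smooth positive Hermitian matrix function on a complex line for which squared norms of
holomorphic sections are subharmonic (in the logarithmic coordinate) -/
structure NegLine (P : ℂ → M2) : Prop where
  smooth : ∀ i j, ContDiff ℝ (⊤ : ℕ∞) (fun z => P z i j)
  pos : ∀ z, (P z).PosDef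
  sh : ∀ s : ℂ → V2, Differentiable ℂ s → ∀ ζ,
    0 ≤ (lap (fun ζ => hf (P (exp ζ)) (s ζ) (s ζ)) ζ).re

def C1Stmt : Prop := ∀ (g : Transition 2) (H : MetricData 2), IsHermitianMetric g H →
  IsGriffithsPositive H → ∀ (α : Chart) (c : ℂ),
    NegLine (fun z => (H α ![z, c])⁻¹) ∧ NegLine (fun z => (H α ![c, z])⁻¹)

/-- circle integral at radius `exp ρ` -/
def Mn (P : ℂ → M2) (s t : ℂ → V2) (ρ : ℝ) : ℂ :=
  ∫ θ in (-Real.pi)..Real.pi,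
    hf (P (exp (ρ + θ * I))) (s (exp (ρ + θ * I))) (t (exp (ρ + θ * I)))

/-- `s` in the chart at `0` and `s'` in the chart at `∞` represent `s` and `z ^ (-d) s` -/
def Rel (d : ℕ) (P P' : ℂ → M2) (s s' : ℂ → V2) : Prop :=
  ∀ z, z ≠ 0 → hf (P z) (s z) (s z) = ((‖z‖ ^ (2 * d) : ℝ) : ℂ) * hf (P' z⁻¹) (s' z⁻¹) (s' z⁻¹)

structure C2Stmt : Prop where
  mono : ∀ P s, NegLine P → Differentiable ℂ s → Monotone fun ρ => (Mn P s s ρ).re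
  grow : ∀ d P P' s s', NegLine P' → Differentiable ℂ s' → Rel d P P' s s' → ∀ ρ₁ ρ₂, ρ₁ ≤ ρ₂ →
    (Mn P s s ρ₂).re ≤ Real.exp (2 * d * (ρ₂ - ρ₁)) * (Mn P s s ρ₁).re
  var : ∀ P P' s s' t, NegLine P → NegLine P' → Differentiable ℂ s → Differentiable ℂ s' →
    Rel 1 P P' s s' → DifferentiableOn ℂ t {z | z ≠ 0} → ∀ ρ₁ ρ₂ β τ : ℝ, ρ₁ ≤ ρ₂ → 0 < τ →
    (∀ ρ ∈ Set.Icc ρ₁ ρ₂, (Mn P t t ρ).re ≤ β) →
    ‖Mn P s t ρ₂ - Mn P s t ρ₁‖ ≤ (Mn P s s ρ₂).re / (2 * τ) + τ * ((ρ₂ - ρ₁) * β)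
  zero : ∀ P P' s s' σ, NegLine P → NegLine P' → Differentiable ℂ s → Differentiable ℂ s' →
    Rel 1 P P' s s' → Differentiable ℂ σ → ∀ (n : ℕ) (ρ τ : ℝ), 1 ≤ n → 0 < τ →
    ‖Mn P s (fun z => z ^ n • σ z) ρ‖ ≤ (Mn P s s ρ).re / (2 * τ)
      + τ * (Mn P (fun z => z ^ n • σ z) (fun z => z ^ n • σ z) ρ).re / (2 * n)

def DStmt : Prop := GStmt → C1Stmt → C2Stmt → ∀ d : Dat, ∃ m : ℕ, 1 ≤ m ∧
  ∀ H : MetricData 2, IsHermitianMetric (GE d m) H → ¬ IsGriffithsPositive H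

theorem final (hG : GStmt) (hA : AStmt) (hB : BStmt) (h1 : C1Stmt) (h2 : C2Stmt) (hD : DStmt) :
    ∃ g : Transition 2, IsHoloCocycle g ∧ IsAmple g ∧
      ∀ H : MetricData 2, IsHermitianMetric g H → ¬ IsGriffithsPositive H := by
  obtain ⟨d⟩ := hA hG
  obtain ⟨m, hm, h⟩ := hD hG h1 h2 d
  exact ⟨GE d m, (hB d m hm).1, (hB d m hm).2, h⟩

end Crest.Agent.R258

end
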