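import Crest.Agent.R258.Defs

set_option autoImplicit false

noncomputable section

namespace Crest.Agent.R258

open Matrix Complex

namespace Grp

theorem ph_sq : ph ^ 2 = ph + 1 := by
  have h : (Real.sqrt 5) ^ 2 = 5 := Real.sq_sqrt (by norm_num)
  unfold ph
  have : ((1 + Real.sqrt 5) / 2 : ℝ) ^ 2 = (1 + Real.sqrt 5) / 2 + 1 := by nlinarith
  exact_mod_cast congrArg (fun x : ℝ => (x : ℂ)) this

theorem gm0 : gm 0 = 1 := rfl
theorem gm1 : gm 1 = !![0, 1; 1, 0] := rfl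
theorem gm2 : gm 2 =
    !![ph / 2, 1 / 2 - I * (ph - 1) / 2; 1 / 2 + I * (ph - 1) / 2, -ph / 2] := rfl
theorem gm3 : gm 3 =
    !![-ph / 2, 1 / 2 - I * (ph - 1) / 2; 1 / 2 + I * (ph - 1) / 2, ph / 2] := rfl

theorem ch (u : M2) : u * u = u.trace • u - u.det • (1 : M2) := by
  ext a b
  fin_cases a <;> fin_cases b <;>
    simp [Matrix.mul_apply, Fin.sum_univ_two, Matrix.trace_fin_two, Matrix.det_fin_two] <;> ring

theorem sq (i : Fin 4) : gm i * gm i = 1 := by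
  have h1 := ph_sq
  have h2 := I_sq
  fin_cases i
  · simp [gm0]
  · ext a b; fin_cases a <;> fin_cases b <;> simp [gm1, Matrix.mul_apply, Fin.sum_univ_two]
  · ext a b
    fin_cases a <;> fin_cases b <;> simp [gm2, Matrix.mul_apply, Fin.sum_univ_two] <;> grind
  · ext a b
    fin_cases a <;> fin_cases b <;> simp [gm3, Matrix.mul_apply, Fin.sum_univ_two] <;> grind

theorem pow_of_sq {u : M2} (h : u * u = 1) : u ^ 30 = 1 := by
  have : u ^ 30 = (u * u) ^ 15 := by rw [← pow_two, ← pow_mul]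
  rw [this, h, one_pow]

theorem pow_of_one {u : M2} (hd : u.det = 1) (ht : u.trace = 1) : u ^ 30 = 1 := by
  have h := ch u
  rw [hd, ht, one_smul, one_smul] at h
  have h3 : u ^ 3 = -1 := by
    rw [pow_succ, pow_two, h, sub_mul, h]; simp
  have : u ^ 30 = (u ^ 3) ^ 10 := by rw [← pow_mul]
  rw [this, h3]; norm_num

theorem pow_of_five {u : M2} (hd : u.det = 1) (ht : u.trace = 1 - ph) : u ^ 30 = 1 := by
  have h := ch u
  have h1 := ph_sq
  rw [hd, ht, one_smul] at h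
  have h3 : u ^ 3 = (1 - ph) • u - (1 - ph) • (1 : M2) := by
    rw [pow_succ, pow_two, h, sub_mul, smul_mul_assoc, h, one_mul, smul_sub, smul_smul]
    have : (1 - ph) * (1 - ph) = (1 - ph) + 1 := by linear_combination h1
    rw [this, add_smul, one_smul]; abel
  have h4 : u ^ 4 = u - (1 - ph) • (1 : M2) := by
    rw [pow_succ, h3, sub_mul, smul_mul_assoc, smul_mul_assoc, h, one_mul, smul_sub, smul_smul]
    have : (1 - ph) * (1 - ph) = (1 - ph) + 1 := by linear_combination h1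
    rw [this, add_smul, one_smul]; abel
  have h5 : u ^ 5 = -1 := by
    rw [pow_succ, h4, sub_mul, smul_mul_assoc, h, one_mul]; abel
  have : u ^ 30 = (u ^ 5) ^ 6 := by rw [← pow_mul]
  rw [this, h5]; norm_num

theorem pow (i k : Fin 4) : (gm i * gm k) ^ 30 = 1 := by
  have h1 := ph_sq
  have h2 := I_sq
  by_cases hi : i = 0
  · rw [hi, gm0, one_mul]; exact pow_of_sq (sq k)
  by_cases hk : k = 0
  · rw [hk, gm0, mul_one]; exact pow_of_sq (sq i)
  by_cases hik : i = k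
  · rw [hik, sq, one_pow]
  have hd : ∀ j : Fin 4, j ≠ 0 → (gm j).det = -1 := by
    intro j hj
    fin_cases j
    · simp at hj
    · simp [gm1, Matrix.det_fin_two]
    · simp [gm2, Matrix.det_fin_two]; grind
    · simp [gm3, Matrix.det_fin_two]; grind
  have hdet : (gm i * gm k).det = 1 := by rw [Matrix.det_mul, hd i hi, hd k hk]; norm_num
  have ht : (gm i * gm k).trace = 1 ∨ (gm i * gm k).trace = 1 - ph := by
    clear hdet hd
    fin_cases i <;> fin_cases k <;> simp at hi hk hik <;>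
      simp [gm1, gm2, gm3, Matrix.trace_fin_two] <;> grind
  rcases ht with ht | ht
  · exact pow_of_one hdet ht
  · exact pow_of_five hdet ht

theorem scal : (gm 1 * gm 2 * gm 3) ^ 3 = (-I) • (1 : M2) := by
  have h1 := ph_sq
  have h2 := I_sq
  have h := ch (gm 1 * gm 2 * gm 3)
  have hd : (gm 1 * gm 2 * gm 3).det = -1 := by
    simp [gm1, gm2, gm3, Matrix.det_fin_two]; grind
  have ht : (gm 1 * gm 2 * gm 3).trace = -I := by
    simp [gm1, gm2, gm3, Matrix.trace_fin_two]; grind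
  rw [hd, ht] at h
  rw [pow_succ, pow_two, h, sub_mul, smul_mul_assoc, smul_mul_assoc, h, one_mul, smul_sub,
    smul_smul, smul_smul]
  have : -I * -I = -1 := by linear_combination h2
  rw [this]
  module

/-- two binary quadratic forms with non-zero resultant have no common zero -/
theorem res {a0 a1 a2 b0 b1 b2 x y : ℂ}
    (hR : (a0 * b2 - a2 * b0) ^ 2 - (a0 * b1 - a1 * b0) * (a1 * b2 - a2 * b1) ≠ 0)
    (ha : a0 * x ^ 2 + a1 * (x * y) + a2 * y ^ 2 = 0)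
    (hb : b0 * x ^ 2 + b1 * (x * y) + b2 * y ^ 2 = 0) : x = 0 ∧ y = 0 := by
  constructor
  · have : ((a0 * b2 - a2 * b0) ^ 2 - (a0 * b1 - a1 * b0) * (a1 * b2 - a2 * b1)) * x ^ 3 = 0 := by
      linear_combination
        (((a0 * b2 - a2 * b0) * b2 + (a1 * b2 - a2 * b1) * (-b1)) * x
          - (a1 * b2 - a2 * b1) * b2 * y) * ha
        + ((-(a0 * b2 - a2 * b0) * a2 + (a1 * b2 - a2 * b1) * a1) * x
          + (a1 * b2 - a2 * b1) * a2 * y) * hb
    exact pow_eq_zero_iff (by norm_num) |>.1 ((mul_eq_zero.1 this).resolve_left hR)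
  · have : ((a0 * b2 - a2 * b0) ^ 2 - (a0 * b1 - a1 * b0) * (a1 * b2 - a2 * b1)) * y ^ 3 = 0 := by
      linear_combination
        ((-(a0 * b2 - a2 * b0) * b0 + (a0 * b1 - a1 * b0) * b1) * y
          + (a0 * b1 - a1 * b0) * b0 * x) * ha
        + (((a0 * b2 - a2 * b0) * a0 - (a0 * b1 - a1 * b0) * a1) * y
          - (a0 * b1 - a1 * b0) * a0 * x) * hb
    exact pow_eq_zero_iff (by norm_num) |>.1 ((mul_eq_zero.1 this).resolve_left hR)

theorem det2_mulVec (u : M2) (z : V2) :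
    det2 z (u *ᵥ z) = u 1 0 * z 0 ^ 2 + (u 1 1 - u 0 0) * (z 0 * z 1) + (-u 0 1) * z 1 ^ 2 := by
  simp [det2, Matrix.mulVec, dotProduct, Fin.sum_univ_two]; ring

theorem zero_of {z : V2} (h : z 0 = 0 ∧ z 1 = 0) : z = 0 := by
  ext i; fin_cases i
  · exact h.1
  · exact h.2

theorem cop (i j k : Fin 4) (hij : i < j) (hjk : j < k) (z : V2) (hz : z ≠ 0)
    (h : det2 z ((gm i * gm k) *ᵥ z) = 0) : det2 z ((gm j * gm k) *ᵥ z) ≠ 0 := by
  intro h'
  have h1 := ph_sq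
  have h2 := I_sq
  rw [det2_mulVec] at h h'
  refine hz (zero_of (res ?_ h h'))
  clear h h' hz
  fin_cases i <;> fin_cases j <;> simp at hij <;> fin_cases k <;> simp at hjk <;>
    simp [gm0, gm1, gm2, gm3] <;> grind

theorem ne (a : Fin 2) (i k : Fin 4) (hik : i < k) :
    ∃ x, det2 (hv a x) ((gm i * gm k) *ᵥ hv a x) ≠ 0 := by
  by_contra hc
  push Not at hc
  have h1 := ph_sq
  have h2 := I_sq
  have e0 := hc 0
  have e1 := hc 1
  have e2 := hc (-1)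
  rw [det2_mulVec] at e0 e1 e2
  clear hc
  fin_cases a <;> fin_cases i <;> fin_cases k <;> simp at hik <;>
    simp [gm0, gm1, gm2, gm3, hv] at e0 e1 e2 <;> grind

/-- quadratic form attached to a vector -/
def Aq (v : ℂ × ℂ × ℂ) (z : V2) : ℂ :=
  (v.1 + I * v.2.1) * z 0 ^ 2 + (-2 * v.2.2) * (z 0 * z 1) + (-v.1 + I * v.2.1) * z 1 ^ 2

def Ap (v : ℂ × ℂ × ℂ) : MvPolynomial (Fin 2) ℂ :=
  MvPolynomial.C (v.1 + I * v.2.1) * (MvPolynomial.X 0 * MvPolynomial.X 0)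
    + MvPolynomial.C (-2 * v.2.2) * (MvPolynomial.X 0 * MvPolynomial.X 1)
    + MvPolynomial.C (-v.1 + I * v.2.1) * (MvPolynomial.X 1 * MvPolynomial.X 1)

theorem eval_Ap (v : ℂ × ℂ × ℂ) (z : V2) : MvPolynomial.eval z (Ap v) = Aq v z := by
  simp [Ap, Aq]; ring

theorem Ap_hom (v : ℂ × ℂ × ℂ) : (Ap v).IsHomogeneous 2 := by
  have h : ∀ (c : ℂ) (a b : Fin 2), (MvPolynomial.C c * (MvPolynomial.X a * MvPolynomial.X b) :
      MvPolynomial (Fin 2) ℂ).IsHomogeneous 2 := fun c a b =>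
    ((MvPolynomial.isHomogeneous_X ℂ a).mul (MvPolynomial.isHomogeneous_X ℂ b)).C_mul c
  exact ((h _ _ _).add (h _ _ _)).add (h _ _ _)

def v0 : ℂ × ℂ × ℂ := (0, 1, ph)
def v1 : ℂ × ℂ × ℂ := (1, ph, 0)
def v2 : ℂ × ℂ × ℂ := (ph, 0, 1)
def v3 : ℂ × ℂ × ℂ := (0, 1, -ph)
def v4 : ℂ × ℂ × ℂ := (1, -ph, 0)
def v5 : ℂ × ℂ × ℂ := (-ph, 0, 1)

def F0 {R : Type*} [CommRing R] (a b c d e f : R) : R := (a * b * c * d * e * f) ^ 5

def F1 {R : Type*} [CommRing R] (a b c d e f : R) : R :=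
  ((b * c * d * e * f) ^ 2 + (a * c * d * e * f) ^ 2 + (a * b * d * e * f) ^ 2
    + (a * b * c * e * f) ^ 2 + (a * b * c * d * f) ^ 2 + (a * b * c * d * e) ^ 2) ^ 3

def ff : Fin 2 → MvPolynomial (Fin 2) ℂ :=
  ![F0 (Ap v0) (Ap v1) (Ap v2) (Ap v3) (Ap v4) (Ap v5),
    F1 (Ap v0) (Ap v1) (Ap v2) (Ap v3) (Ap v4) (Ap v5)]

theorem eval_ff0 (z : V2) : MvPolynomial.eval z (ff 0) =
    F0 (Aq v0 z) (Aq v1 z) (Aq v2 z) (Aq v3 z) (Aq v4 z) (Aq v5 z) := by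
  simp [ff, F0, eval_Ap]

theorem eval_ff1 (z : V2) : MvPolynomial.eval z (ff 1) =
    F1 (Aq v0 z) (Aq v1 z) (Aq v2 z) (Aq v3 z) (Aq v4 z) (Aq v5 z) := by
  simp [ff, F1, eval_Ap]

theorem ff_hom (k : Fin 2) : (ff k).IsHomogeneous 60 := by
  have h5 : ∀ a b c d e : ℂ × ℂ × ℂ,
      ((Ap a * Ap b * Ap c * Ap d * Ap e) ^ 2).IsHomogeneous 20 := fun a b c d e =>
    (((((Ap_hom a).mul (Ap_hom b)).mul (Ap_hom c)).mul (Ap_hom d)).mul (Ap_hom e)).pow 2
  fin_cases k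
  · exact ((((((Ap_hom v0).mul (Ap_hom v1)).mul (Ap_hom v2)).mul (Ap_hom v3)).mul
      (Ap_hom v4)).mul (Ap_hom v5)).pow 5
  · exact ((((((h5 _ _ _ _ _).add (h5 _ _ _ _ _)).add (h5 _ _ _ _ _)).add (h5 _ _ _ _ _)).add
      (h5 _ _ _ _ _)).add (h5 _ _ _ _ _)).pow 3

theorem act1 (z : V2) :
    Aq v0 (gm 1 *ᵥ z) = Aq v0 z ∧ Aq v1 (gm 1 *ᵥ z) = -Aq v4 z ∧ Aq v2 (gm 1 *ᵥ z) = Aq v5 z ∧
    Aq v3 (gm 1 *ᵥ z) = Aq v3 z ∧ Aq v4 (gm 1 *ᵥ z) = -Aq v1 z ∧ Aq v5 (gm 1 *ᵥ z) = Aq v2 z := by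
  refine ⟨?_, ?_, ?_, ?_, ?_, ?_⟩ <;>
    simp [Aq, v0, v1, v2, v3, v4, v5, gm1, Matrix.mulVec, dotProduct, Fin.sum_univ_two] <;> ring

theorem act2 (z : V2) :
    Aq v0 (gm 2 *ᵥ z) = -Aq v2 z ∧ Aq v1 (gm 2 *ᵥ z) = Aq v3 z ∧ Aq v2 (gm 2 *ᵥ z) = -Aq v0 z ∧
    Aq v3 (gm 2 *ᵥ z) = Aq v1 z ∧ Aq v4 (gm 2 *ᵥ z) = Aq v4 z ∧ Aq v5 (gm 2 *ᵥ z) = Aq v5 z := by
  have h1 := ph_sq
  have h2 := I_sq
  refine ⟨?_, ?_, ?_, ?_, ?_, ?_⟩ <;>
    simp [Aq, v0, v1, v2, v3, v4, v5, gm2, Matrix.mulVec, dotProduct, Fin.sum_univ_two] <;> grind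

theorem act3 (z : V2) :
    Aq v0 (gm 3 *ᵥ z) = Aq v1 z ∧ Aq v1 (gm 3 *ᵥ z) = Aq v0 z ∧ Aq v2 (gm 3 *ᵥ z) = Aq v2 z ∧
    Aq v3 (gm 3 *ᵥ z) = Aq v5 z ∧ Aq v4 (gm 3 *ᵥ z) = Aq v4 z ∧ Aq v5 (gm 3 *ᵥ z) = Aq v3 z := by
  have h1 := ph_sq
  have h2 := I_sq
  refine ⟨?_, ?_, ?_, ?_, ?_, ?_⟩ <;>
    simp [Aq, v0, v1, v2, v3, v4, v5, gm3, Matrix.mulVec, dotProduct, Fin.sum_univ_two] <;> grind

theorem ff_inv (k : Fin 2) (i : Fin 4) (z : V2) :
    MvPolynomial.eval (gm i *ᵥ z) (ff k) = MvPolynomial.eval z (ff k) := by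
  have hk : k = 0 ∨ k = 1 := by fin_cases k <;> simp
  have hi : i = 0 ∨ i = 1 ∨ i = 2 ∨ i = 3 := by fin_cases i <;> simp
  rcases hi with rfl | rfl | rfl | rfl
  · rw [gm0, Matrix.one_mulVec]
  · obtain ⟨e0, e1, e2, e3, e4, e5⟩ := act1 z
    rcases hk with rfl | rfl
    · rw [eval_ff0, eval_ff0, e0, e1, e2, e3, e4, e5]; unfold F0; congr 1; ring
    · rw [eval_ff1, eval_ff1, e0, e1, e2, e3, e4, e5]; unfold F1; congr 1; ring
  · obtain ⟨e0, e1, e2, e3, e4, e5⟩ := act2 z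
    rcases hk with rfl | rfl
    · rw [eval_ff0, eval_ff0, e0, e1, e2, e3, e4, e5]; unfold F0; congr 1; ring
    · rw [eval_ff1, eval_ff1, e0, e1, e2, e3, e4, e5]; unfold F1; congr 1; ring
  · obtain ⟨e0, e1, e2, e3, e4, e5⟩ := act3 z
    rcases hk with rfl | rfl
    · rw [eval_ff0, eval_ff0, e0, e1, e2, e3, e4, e5]; unfold F0; congr 1; ring
    · rw [eval_ff1, eval_ff1, e0, e1, e2, e3, e4, e5]; unfold F1; congr 1; ring

def vv : Fin 6 → ℂ × ℂ × ℂ := ![v0, v1, v2, v3, v4, v5]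

theorem pair (i j : Fin 6) (hij : i < j) (z : V2) (hi : Aq (vv i) z = 0) (hj : Aq (vv j) z = 0) :
    z = 0 := by
  have h1 := ph_sq
  have h2 := I_sq
  refine zero_of (res ?_ hi hj)
  clear hi hj
  fin_cases i <;> fin_cases j <;> simp at hij <;>
    simp [vv, v0, v1, v2, v3, v4, v5] <;> grind

theorem ff_ne (z : V2) (hz : z ≠ 0) : ∃ k, MvPolynomial.eval z (ff k) ≠ 0 := by
  by_contra hc
  push Not at hc
  have h0 := hc 0
  have h1 := hc 1
  rw [eval_ff0] at h0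
  rw [eval_ff1] at h1
  have p := fun i j hij hi hj => hz (pair i j hij z hi hj)
  have p01 := p 0 1 (by decide)
  have p02 := p 0 2 (by decide)
  have p03 := p 0 3 (by decide)
  have p04 := p 0 4 (by decide)
  have p05 := p 0 5 (by decide)
  have p12 := p 1 2 (by decide)
  have p13 := p 1 3 (by decide)
  have p14 := p 1 4 (by decide)
  have p15 := p 1 5 (by decide)
  have p23 := p 2 3 (by decide)
  have p24 := p 2 4 (by decide)
  have p25 := p 2 5 (by decide)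
  have p34 := p 3 4 (by decide)
  have p35 := p 3 5 (by decide)
  have p45 := p 4 5 (by decide)
  change Aq v0 z = 0 → Aq v1 z = 0 → False at p01
  change Aq v0 z = 0 → Aq v2 z = 0 → False at p02
  change Aq v0 z = 0 → Aq v3 z = 0 → False at p03
  change Aq v0 z = 0 → Aq v4 z = 0 → False at p04
  change Aq v0 z = 0 → Aq v5 z = 0 → False at p05
  change Aq v1 z = 0 → Aq v2 z = 0 → False at p12
  change Aq v1 z = 0 → Aq v3 z = 0 → False at p13
  change Aq v1 z = 0 → Aq v4 z = 0 → False at p14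
  change Aq v1 z = 0 → Aq v5 z = 0 → False at p15
  change Aq v2 z = 0 → Aq v3 z = 0 → False at p23
  change Aq v2 z = 0 → Aq v4 z = 0 → False at p24
  change Aq v2 z = 0 → Aq v5 z = 0 → False at p25
  change Aq v3 z = 0 → Aq v4 z = 0 → False at p34
  change Aq v3 z = 0 → Aq v5 z = 0 → False at p35
  change Aq v4 z = 0 → Aq v5 z = 0 → False at p45
  clear p hc hz
  generalize Aq v0 z = a at *
  generalize Aq v1 z = b at *
  generalize Aq v2 z = c at *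
  generalize Aq v3 z = d at *
  generalize Aq v4 z = e at *
  generalize Aq v5 z = f at *
  simp only [F0, pow_eq_zero_iff (show 5 ≠ 0 by norm_num), mul_eq_zero] at h0
  rcases h0 with ((((rfl | rfl) | rfl) | rfl) | rfl) | rfl <;> simp [F1] at h1 <;>
    rcases h1 with (((h | h) | h) | h) | h <;> subst h <;> simp at *

theorem norm_ph : ‖ph‖ ≤ 2 := by
  unfold ph
  rw [Complex.norm_real, Real.norm_eq_abs, abs_of_nonneg (by positivity)]
  have : Real.sqrt 5 ≤ 3 := Real.sqrt_le_iff.2 ⟨by norm_num, by norm_num⟩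
  linarith

theorem norm_a : 1 / 2 ≤ ‖1 / 2 - I * (ph - 1) / 2‖ := by
  refine le_trans ?_ (Complex.abs_re_le_norm _)
  simp [ph]

theorem norm_conj_a : ‖1 / 2 + I * (ph - 1) / 2‖ = ‖1 / 2 - I * (ph - 1) / 2‖ := by
  rw [← Complex.norm_conj]
  congr 1
  simp [ph, sub_eq_add_neg, neg_div, map_ofNat]

theorem far_aux {a b c x y : ℂ} (ha : 1 / 2 ≤ ‖a‖) (hb : ‖b‖ = ‖a‖) (hc : ‖c‖ ≤ 1)
    (hx : ‖x‖ = 4) (hy : ‖y‖ = 6) : b - c * y - x * (c + a * y) ≠ 0 := by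
  intro h
  have e : a * x * y = b - c * y - c * x := by linear_combination -h
  have h1 : ‖a * x * y‖ = 24 * ‖a‖ := by rw [norm_mul, norm_mul, hx, hy]; ring
  have h2 : ‖b - c * y - c * x‖ ≤ ‖b‖ + ‖c * y‖ + ‖c * x‖ :=
    (norm_sub_le _ _).trans (by gcongr; exact norm_sub_le _ _)
  rw [norm_mul, norm_mul, hx, hy, ← e, h1, hb] at h2
  linarith

theorem far (x y : ℂ) (hx : ‖x‖ = 4) (hy : ‖y‖ = 6) : gam (hv 0 x) (hv 0 y) ≠ 0 := by
  have hp : ‖ph / 2‖ ≤ 1 := by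
    rw [norm_div]; have := norm_ph; simp; linarith
  have hp' : ‖-ph / 2‖ ≤ 1 := by rw [neg_div, norm_neg]; exact hp
  unfold gam
  rw [Fin.prod_univ_four]
  refine mul_ne_zero (mul_ne_zero (mul_ne_zero ?_ ?_) ?_) ?_
  · simp only [gm0, det2, hv, Matrix.one_mulVec]
    simp
    intro h
    have : y = x := by linear_combination h
    rw [this, hx] at hy; norm_num at hy
  · simp [gm1, det2, hv, Matrix.mulVec, dotProduct, Fin.sum_univ_two]
    intro h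
    have : x * y = 1 := by linear_combination -h
    have h2 := congrArg norm this
    rw [norm_mul, hx, hy] at h2; norm_num at h2
  · have := far_aux norm_a norm_conj_a hp hx hy
    convert this using 1
    simp [gm2, det2, hv, Matrix.mulVec, dotProduct, Fin.sum_univ_two]; ring
  · have := far_aux norm_a norm_conj_a hp' hx hy
    convert this using 1
    simp [gm3, det2, hv, Matrix.mulVec, dotProduct, Fin.sum_univ_two]; ring

end Grp

theorem gStmt : GStmt where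
  sq := Grp.sq
  pow := Grp.pow
  cop := Grp.cop
  ne := Grp.ne
  scal := Grp.scal
  inv := ⟨Grp.ff, Grp.ff_hom, Grp.ff_inv, Grp.ff_ne⟩
  far := Grp.far

end Crest.Agent.R258

end
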