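import Crest.Agent.R258.Defs

set_option autoImplicit false

noncomputable section

namespace Crest.Agent.R258

open Matrix Complex
open scoped ComplexConjugate

namespace GB

def r : ℝ := (1 + Real.sqrt 5) / 2

lemma ph_eq : ph = (r : ℂ) := rfl

lemma r_sq : r ^ 2 = r + 1 := by
  have := Real.sq_sqrt (show (0 : ℝ) ≤ 5 by norm_num)
  unfold r; nlinarith

lemma r_pos : 0 < r := by unfold r; positivity

lemma r_gt : 1.6 < r := by nlinarith [r_sq, r_pos]

lemma r_lt : r < 1.62 := by nlinarith [r_sq, r_pos]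

lemma hph : ph ^ 2 = ph + 1 := by rw [ph_eq]; exact_mod_cast r_sq

lemma hI : I ^ 2 = -1 := I_sq

lemma sq (i : Fin 4) : gm i * gm i = 1 := by
  have := hph
  have := hI
  ext a b
  fin_cases i <;> fin_cases a <;> fin_cases b <;>
    simp [gm, Matrix.mul_apply, Fin.sum_univ_two] <;> grind

lemma pow_of_sq {u : M2} (h : u * u = 1) : u ^ 30 = 1 := by
  rw [show 30 = 2 * 15 from rfl, pow_mul, pow_two, h, one_pow]

lemma pow_of_three {u : M2} (h : u * u = u - 1) : u ^ 30 = 1 := by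
  have h3 : u ^ 3 = -1 := by
    rw [pow_succ, pow_two, h, sub_mul, h]; simp
  rw [show 30 = 3 * 10 from rfl, pow_mul, h3]
  exact Even.neg_one_pow (by decide)

lemma pow_of_five {u : M2} (h : u * u = (1 - ph) • u - 1) : u ^ 30 = 1 := by
  have := hph
  have h3 : u ^ 3 = (1 - ph) • u - (1 - ph) • 1 := by
    rw [pow_succ, pow_two, h, sub_mul, smul_mul_assoc, h, one_mul]
    ext a b; simp only [Matrix.sub_apply, Matrix.smul_apply, smul_eq_mul]; grind
  have h4 : u ^ 4 = u - (1 - ph) • 1 := by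
    rw [pow_succ', h3, mul_sub, mul_smul_comm, mul_smul_comm, h, mul_one]
    ext a b; simp only [Matrix.sub_apply, Matrix.smul_apply, smul_eq_mul]; grind
  have h5 : u ^ 5 = -1 := by
    rw [pow_succ, h4, sub_mul, smul_mul_assoc, h, one_mul]
    abel
  rw [show 30 = 5 * 6 from rfl, pow_mul, h5]
  exact Even.neg_one_pow (by decide)

lemma pow (i k : Fin 4) : (gm i * gm k) ^ 30 = 1 := by
  have := hph
  have := hI
  have g0 : gm 0 = 1 := rfl
  by_cases h : i = k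
  · rw [h, sq, one_pow]
  by_cases hi : i = 0
  · rw [hi, g0, one_mul]; exact pow_of_sq (sq k)
  by_cases hk : k = 0
  · rw [hk, g0, mul_one]; exact pow_of_sq (sq i)
  by_cases h1 : i = 1 ∨ k = 1
  · apply pow_of_three
    ext a b
    fin_cases i <;> fin_cases k <;> simp at h hi hk h1 <;> fin_cases a <;> fin_cases b <;>
      simp [gm, Matrix.mul_apply, Fin.sum_univ_two] <;> grind
  · apply pow_of_five
    ext a b
    fin_cases i <;> fin_cases k <;> simp at h hi hk h1 <;> fin_cases a <;> fin_cases b <;>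
      simp [gm, Matrix.mul_apply, Fin.sum_univ_two] <;> grind

lemma scal : (gm 1 * gm 2 * gm 3) ^ 3 = (-I) • (1 : M2) := by
  have := hph
  have := hI
  ext a b
  fin_cases a <;> fin_cases b <;>
    simp [gm, pow_succ, Matrix.mul_apply, Fin.sum_univ_two] <;> grind

/-- the quadratic form attached to a real vector -/
def Aq (v : Fin 3 → ℝ) (z : V2) : ℂ :=
  v 0 * (z 0 ^ 2 - z 1 ^ 2) + v 1 * (I * (z 0 ^ 2 + z 1 ^ 2)) + v 2 * (-2 * z 0 * z 1)

def cr (v w : Fin 3 → ℝ) : ℝ :=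
  (v 1 * w 2 - v 2 * w 1) ^ 2 + (v 2 * w 0 - v 0 * w 2) ^ 2 + (v 0 * w 1 - v 1 * w 0) ^ 2

lemma common {v w : Fin 3 → ℝ} (h : cr v w ≠ 0) {z : V2} (hv : Aq v z = 0) (hw : Aq w z = 0) :
    z = 0 := by
  have := hI
  have hc : ((cr v w : ℝ) : ℂ) ≠ 0 := by exact_mod_cast h
  unfold cr at hc
  push_cast at hc
  unfold Aq at hv hw
  generalize ha : z 0 ^ 2 - z 1 ^ 2 = a at hv hw
  generalize hb : I * (z 0 ^ 2 + z 1 ^ 2) = b at hv hw
  generalize hd : -2 * z 0 * z 1 = c at hv hw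
  have hn : a ^ 2 + b ^ 2 + c ^ 2 = 0 := by rw [← ha, ← hb, ← hd]; grind
  generalize (v 0 : ℂ) = v0, (v 1 : ℂ) = v1, (v 2 : ℂ) = v2, (w 0 : ℂ) = w0, (w 1 : ℂ) = w1,
    (w 2 : ℂ) = w2 at hv hw hc
  have x1 : b * (v0 * w1 - v1 * w0) = c * (v2 * w0 - v0 * w2) := by
    linear_combination v0 * hw - w0 * hv
  have x2 : c * (v1 * w2 - v2 * w1) = a * (v0 * w1 - v1 * w0) := by
    linear_combination v1 * hw - w1 * hv
  have x3 : a * (v2 * w0 - v0 * w2) = b * (v1 * w2 - v2 * w1) := by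
    linear_combination v2 * hw - w2 * hv
  generalize v1 * w2 - v2 * w1 = u0, v2 * w0 - v0 * w2 = u1, v0 * w1 - v1 * w0 = u2 at hc x1 x2 x3
  have a0 : a ^ 2 * (u0 ^ 2 + u1 ^ 2 + u2 ^ 2) = 0 := by
    linear_combination u0 ^ 2 * hn + (a * u1 + b * u0) * x3 - (a * u2 + c * u0) * x2
  have b0 : b ^ 2 * (u0 ^ 2 + u1 ^ 2 + u2 ^ 2) = 0 := by
    linear_combination u1 ^ 2 * hn - (a * u1 + b * u0) * x3 + (b * u2 + c * u1) * x1
  have a1 : a = 0 := pow_eq_zero_iff two_ne_zero |>.mp ((mul_eq_zero.mp a0).resolve_right hc)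
  have b1 : b = 0 := pow_eq_zero_iff two_ne_zero |>.mp ((mul_eq_zero.mp b0).resolve_right hc)
  rw [a1] at ha
  rw [b1] at hb
  have hb' : z 0 ^ 2 + z 1 ^ 2 = 0 := (mul_eq_zero.mp hb).resolve_left I_ne_zero
  have z0 : z 0 = 0 := pow_eq_zero_iff two_ne_zero |>.mp (by linear_combination (ha + hb') / 2)
  have z1 : z 1 = 0 := pow_eq_zero_iff two_ne_zero |>.mp (by linear_combination (hb' - ha) / 2)
  funext i; fin_cases i
  · exact z0
  · exact z1

/-- axes of the products `gm i * gm k` -/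
def ax (i k : Fin 4) : Fin 3 → ℝ :=
  !![![0, 0, 0], ![1, 0, 0], ![1 / 2, (r - 1) / 2, r / 2], ![1 / 2, (r - 1) / 2, -r / 2];
     ![0, 0, 0], ![0, 0, 0], ![0, -r / 2, (r - 1) / 2], ![0, r / 2, (r - 1) / 2];
     ![0, 0, 0], ![0, 0, 0], ![0, 0, 0], ![-1 / 2, r / 2, 0];
     ![0, 0, 0], ![0, 0, 0], ![0, 0, 0], ![0, 0, 0]] i k

lemma det_ax (i k : Fin 4) (h : i < k) (z : V2) :
    det2 z ((gm i * gm k) *ᵥ z) = (if i = 0 then 1 else I) * Aq (ax i k) z := by
  have := hph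
  have := hI
  fin_cases i <;> fin_cases k <;> simp at h <;>
    simp [gm, ax, Aq, det2, mulVec, dotProduct, Matrix.mul_apply, Fin.sum_univ_two, ← ph_eq] <;>
    grind

lemma ax_zero (i k : Fin 4) (h : i < k) {z : V2} (hz : det2 z ((gm i * gm k) *ᵥ z) = 0) :
    Aq (ax i k) z = 0 := by
  rw [det_ax i k h] at hz
  refine (mul_eq_zero.mp hz).resolve_left ?_
  split_ifs
  · exact one_ne_zero
  · exact I_ne_zero

lemma cop (i j k : Fin 4) (h1 : i < j) (h2 : j < k) (z : V2) (hz : z ≠ 0)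
    (ha : det2 z ((gm i * gm k) *ᵥ z) = 0) : det2 z ((gm j * gm k) *ᵥ z) ≠ 0 := by
  intro hb
  refine hz (common (v := ax i k) (w := ax j k) ?_ (ax_zero i k (h1.trans h2) ha)
    (ax_zero j k h2 hb))
  have := r_sq
  have := r_gt
  have := r_lt
  fin_cases i <;> fin_cases j <;> simp at h1 <;> fin_cases k <;> simp at h2 <;>
    simp only [cr, ax] <;> simp <;> nlinarith

lemma ne (a : Fin 2) (i k : Fin 4) (h : i < k) :
    ∃ x, det2 (hv a x) ((gm i * gm k) *ᵥ hv a x) ≠ 0 := by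
  by_contra hc
  push Not at hc
  have h0 := ax_zero i k h (hc 0)
  have h1 := ax_zero i k h (hc 1)
  have h2 := ax_zero i k h (hc (-1))
  have := hI
  have hv0 : ((ax i k 0 : ℝ) : ℂ) = 0 ∧ ((ax i k 1 : ℝ) : ℂ) = 0 := by
    have hI0 := I_ne_zero
    fin_cases a <;> simp [Aq, hv] at h0 h1 h2 <;> grind
  have h3 : ax i k 0 = 0 := by exact_mod_cast hv0.1
  have h4 : ax i k 1 = 0 := by exact_mod_cast hv0.2
  have := r_gt
  fin_cases i <;> fin_cases k <;> simp at h <;> simp [ax] at h3 h4 <;> linarith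

def vx : Fin 6 → Fin 3 → ℝ := ![![0, 1, r], ![1, r, 0], ![r, 0, 1], ![0, 1, -r], ![1, -r, 0], ![-r, 0, 1]]

lemma vx_cr (i j : Fin 6) (h : i ≠ j) : cr (vx i) (vx j) ≠ 0 := by
  have := r_sq
  have := r_gt
  have := r_lt
  fin_cases i <;> fin_cases j <;> simp at h <;> simp only [cr, vx] <;> simp <;> nlinarith

open MvPolynomial in
def Ap (v : Fin 3 → ℝ) : MvPolynomial (Fin 2) ℂ :=
  C (v 0 : ℂ) * (X 0 * X 0 - X 1 * X 1) + C (v 1 * I) * (X 0 * X 0 + X 1 * X 1)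
    + C (-2 * v 2 : ℂ) * (X 0 * X 1)

lemma Ap_eval (v : Fin 3 → ℝ) (z : V2) : MvPolynomial.eval z (Ap v) = Aq v z := by
  simp [Ap, Aq]; ring

open MvPolynomial in
lemma Ap_hom (v : Fin 3 → ℝ) : (Ap v).IsHomogeneous 2 := by
  have h : ∀ i j : Fin 2, (X i * X j : MvPolynomial (Fin 2) ℂ).IsHomogeneous 2 :=
    fun i j => (isHomogeneous_X ℂ i).mul (isHomogeneous_X ℂ j)
  exact ((((h 0 0).sub (h 1 1)).C_mul _).add (((h 0 0).add (h 1 1)).C_mul _)).add
    ((h 0 1).C_mul _)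

def f0 (a : Fin 6 → ℂ) : ℂ := (∏ i, a i) ^ 5
def f1 (a : Fin 6 → ℂ) : ℂ := (∑ i, ∏ j ∈ Finset.univ.erase i, a j ^ 2) ^ 3

def pm : Fin 4 → Fin 6 → Fin 6 :=
  ![![0, 1, 2, 3, 4, 5], ![0, 4, 5, 3, 1, 2], ![2, 3, 0, 1, 4, 5], ![1, 0, 2, 5, 4, 3]]

def sg : Fin 4 → Fin 6 → ℂ :=
  ![![1, 1, 1, 1, 1, 1], ![1, -1, 1, 1, -1, 1], ![-1, 1, -1, 1, 1, 1], ![1, 1, 1, 1, 1, 1]]

lemma A_act (i : Fin 4) (j : Fin 6) (z : V2) :
    Aq (vx j) (gm i *ᵥ z) = sg i j * Aq (vx (pm i j)) z := by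
  have := hph
  have := hI
  fin_cases i <;> fin_cases j <;>
    simp [gm, vx, pm, sg, Aq, mulVec, dotProduct, Fin.sum_univ_two, ← ph_eq] <;> grind

lemma erase_prod (a : Fin 6 → ℂ) : ∑ i, ∏ j ∈ Finset.univ.erase i, a j
    = a 1 * a 2 * a 3 * a 4 * a 5 + a 0 * a 2 * a 3 * a 4 * a 5 + a 0 * a 1 * a 3 * a 4 * a 5
      + a 0 * a 1 * a 2 * a 4 * a 5 + a 0 * a 1 * a 2 * a 3 * a 5 + a 0 * a 1 * a 2 * a 3 * a 4 := by
  have h : ∀ i : Fin 6, ∏ j ∈ Finset.univ.erase i, a j = ∏ j, if j = i then 1 else a j := by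
    intro i
    rw [Finset.prod_ite, Finset.prod_const_one, one_mul]
    congr 1
    ext j; simp
  simp only [h, Fin.sum_univ_six, Fin.prod_univ_six]
  simp

lemma inv : ∃ f : Fin 2 → MvPolynomial (Fin 2) ℂ, (∀ k, (f k).IsHomogeneous 60) ∧
    (∀ k i z, MvPolynomial.eval (gm i *ᵥ z) (f k) = MvPolynomial.eval z (f k)) ∧
    ∀ z : V2, z ≠ 0 → ∃ k, MvPolynomial.eval z (f k) ≠ 0 := by
  refine ⟨![(∏ i, Ap (vx i)) ^ 5, (∑ i, ∏ j ∈ Finset.univ.erase i, Ap (vx j) ^ 2) ^ 3], ?_, ?_, ?_⟩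
  · intro k
    fin_cases k
    · have := MvPolynomial.IsHomogeneous.prod Finset.univ (fun i => Ap (vx i)) (fun _ => 2)
        fun i _ => Ap_hom _
      exact this.pow 5
    · refine MvPolynomial.IsHomogeneous.pow (m := 20) ?_ 3
      refine MvPolynomial.IsHomogeneous.sum _ _ _ fun i _ => ?_
      have := MvPolynomial.IsHomogeneous.prod (Finset.univ.erase i) (fun j => Ap (vx j) ^ 2)
        (fun _ => 4) fun j _ => (Ap_hom _).pow 2
      simpa [Finset.card_erase_of_mem] using this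
  · intro k i z
    fin_cases k
    · simp only [Fin.zero_eta, cons_val_zero, map_pow, map_prod, Ap_eval, A_act]
      rw [Fin.prod_univ_six, Fin.prod_univ_six]
      congr 1
      fin_cases i <;> simp [pm, sg, -mul_eq_mul_right_iff, -mul_eq_mul_left_iff] <;> ring
    · simp only [Fin.mk_one, cons_val_one, cons_val_zero, map_pow, map_sum, map_prod, Ap_eval,
        A_act]
      rw [erase_prod, erase_prod]
      congr 1
      fin_cases i <;> simp [pm, sg] <;> ring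
  · intro z hz
    by_contra hc
    push Not at hc
    have h0 := hc 0
    have h1 := hc 1
    simp only [cons_val_zero, cons_val_one, map_pow, map_sum, map_prod, Ap_eval] at h0 h1
    obtain ⟨i, _, hi⟩ := Finset.prod_eq_zero_iff.mp (pow_eq_zero_iff (by norm_num) |>.mp h0)
    have h2 := pow_eq_zero_iff (by norm_num) |>.mp h1
    rw [Finset.sum_eq_single i (fun j _ hj => Finset.prod_eq_zero (i := i)
      (by simp [hj.symm]) (by rw [hi]; simp)) (by simp)] at h2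
    obtain ⟨j, hj, hj0⟩ := Finset.prod_eq_zero_iff.mp h2
    exact hz (common (vx_cr j i (Finset.ne_of_mem_erase hj))
      (pow_eq_zero_iff two_ne_zero |>.mp hj0) hi)

lemma nz {a b c e x y : ℂ} (hx : ‖x‖ = 4) (hy : ‖y‖ = 6)
    (h : ‖a‖ + ‖b‖ * 4 + ‖c‖ * 6 < ‖e‖ * 24) : a + b * x + c * y + e * (x * y) ≠ 0 := by
  intro h0
  have h1 : e * (x * y) = -(a + b * x + c * y) := by linear_combination h0
  have h2 := congrArg norm h1
  rw [norm_neg, norm_mul, norm_mul, hx, hy] at h2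
  have h3 := (norm_add_le (a + b * x) (c * y)).trans (add_le_add (norm_add_le a (b * x)) le_rfl)
  rw [norm_mul, norm_mul, hx, hy] at h3
  linarith

lemma far (x y : ℂ) (hx : ‖x‖ = 4) (hy : ‖y‖ = 6) : gam (hv 0 x) (hv 0 y) ≠ 0 := by
  have hr := r_sq
  have h1 := r_gt
  have h2 := r_lt
  have n1 : ‖ph / 2‖ = r / 2 := by
    rw [norm_div, ph_eq, Complex.norm_real, Real.norm_of_nonneg r_pos.le]; simp
  have n2 : ∀ s : ℝ, s ^ 2 = 1 → 0.58 < ‖1 / 2 + s * I * (ph - 1) / 2‖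
      ∧ ‖1 / 2 + s * I * (ph - 1) / 2‖ < 0.6 := by
    intro s hs
    have e : ‖1 / 2 + s * I * (ph - 1) / 2‖ ^ 2 = 1 / 4 + (r - 1) ^ 2 / 4 := by
      rw [Complex.sq_norm, Complex.normSq_apply, ph_eq]
      simp
      nlinarith
    have := norm_nonneg (1 / 2 + s * I * (ph - 1) / 2)
    constructor <;> nlinarith
  have p1 := n2 1 (by norm_num)
  have p2 := n2 (-1) (by norm_num)
  refine Finset.prod_ne_zero_iff.mpr fun i _ => ?_
  fin_cases i
  · have : det2 (hv 0 x) (gm 0 *ᵥ hv 0 y) = y - x := by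
      simp [gm, hv, det2]
    simp only [Fin.zero_eta]
    rw [this]
    intro h
    rw [sub_eq_zero] at h
    rw [h, hx] at hy; norm_num at hy
  · have := nz (a := 1) (b := 0) (c := 0) (e := -1) hx hy (by norm_num)
    convert this using 1
    simp [gm, hv, det2, mulVec, dotProduct]; ring
  · have := nz (a := 1 / 2 + (1 : ℝ) * I * (ph - 1) / 2) (b := -(ph / 2)) (c := -(ph / 2))
      (e := -(1 / 2 + (-1 : ℝ) * I * (ph - 1) / 2)) hx hy (by
        rw [norm_neg, norm_neg, n1]; linarith [p1.2, p2.1])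
    convert this using 1
    simp [gm, hv, det2, mulVec, dotProduct]; ring
  · have := nz (a := 1 / 2 + (1 : ℝ) * I * (ph - 1) / 2) (b := ph / 2) (c := ph / 2)
      (e := -(1 / 2 + (-1 : ℝ) * I * (ph - 1) / 2)) hx hy (by
        rw [norm_neg, n1]; linarith [p1.2, p2.1])
    convert this using 1
    simp [gm, hv, det2, mulVec, dotProduct]; ring

end GB

theorem gStmtB : GStmt :=
  ⟨GB.sq, GB.pow, GB.cop, GB.ne, GB.scal, GB.inv, GB.far⟩

end Crest.Agent.R258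

end
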