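import Crest.Agent.R258.Circ1

set_option autoImplicit false

noncomputable section

namespace Crest.Agent.R258

open Matrix Complex Filter
open Crest.AlgGeometry.QuadricBundle
open scoped ComplexConjugate ComplexOrder Topology

namespace NB

open C2

def Jet (f : ℝ → ℝ) (c : ℝ) : Prop :=
  ∃ f1 : ℝ → ℝ, (∀ᶠ t in 𝓝 (0 : ℝ), HasDerivAt f (f1 t) t) ∧ HasDerivAt f1 c 0

lemma Jet.eq {f : ℝ → ℝ} {c : ℝ} (h : Jet f c) : deriv (deriv f) 0 = c := by
  obtain ⟨f1, h1, h2⟩ := h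
  have : deriv f =ᶠ[𝓝 0] f1 := h1.mono fun t ht => ht.deriv
  rw [this.deriv_eq, h2.deriv]

lemma Jet.add {f g : ℝ → ℝ} {c c' : ℝ} (h : Jet f c) (h' : Jet g c') :
    Jet (fun t => f t + g t) (c + c') := by
  obtain ⟨f1, h1, h2⟩ := h
  obtain ⟨g1, g1', g2⟩ := h'
  exact ⟨fun t => f1 t + g1 t, (h1.and g1').mono fun t ht => ht.1.fun_add ht.2, h2.fun_add g2⟩

lemma Jet.cmul {f : ℝ → ℝ} {c : ℝ} (h : Jet f c) (a : ℝ) : Jet (fun t => a * f t) (a * c) := by
  obtain ⟨f1, h1, h2⟩ := h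
  exact ⟨fun t => a * f1 t, h1.mono fun t ht => ht.const_mul a, h2.const_mul a⟩

lemma Jet.nonneg {f : ℝ → ℝ} {c : ℝ} (h : Jet f c) (hm : IsLocalMin f 0) : 0 ≤ c := by
  by_contra hc
  push Not at hc
  have hcont : ContinuousAt f 0 := h.choose_spec.1.self_of_nhds.continuousAt
  have hmax := isLocalMax_of_deriv_deriv_neg (h.eq ▸ hc) hm.deriv_eq_zero hcont
  have e : f =ᶠ[𝓝 0] fun _ => f 0 := (hm.and hmax).mono fun t ht => le_antisymm ht.2 ht.1
  have e2 := e.deriv.deriv_eq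
  rw [h.eq] at e2
  simp at e2
  linarith

lemma jet_curve {N : ℂ → ℝ} {c c' : ℝ → ℂ} {c2 : ℂ} (hN : ContDiffAt ℝ 2 N (c 0))
    (hc : ∀ t, HasDerivAt c (c' t) t) (hc' : HasDerivAt c' c2 0) :
    Jet (fun t => N (c t))
      (fderiv ℝ (fderiv ℝ N) (c 0) (c' 0) (c' 0) + fderiv ℝ N (c 0) c2) := by
  refine ⟨fun t => fderiv ℝ N (c t) (c' t), ?_, ?_⟩
  · have h1 : ∀ᶠ z in 𝓝 (c 0), ContDiffAt ℝ 2 N z := hN.eventually (by simp)
    refine ((hc 0).continuousAt.eventually h1).mono fun t ht => ?_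
    exact (ht.differentiableAt (by simp)).hasFDerivAt.comp_hasDerivAt t (hc t)
  · have h1 : DifferentiableAt ℝ (fderiv ℝ N) (c 0) :=
      (hN.fderiv_right (m := 1) (by norm_num)).differentiableAt (by simp)
    exact (h1.hasFDerivAt.comp_hasDerivAt 0 (hc 0)).clm_apply hc'

lemma line_hd (ζ ω : ℂ) (t : ℝ) : HasDerivAt (fun t : ℝ => ζ + (t : ℂ) * ω) ω t := by
  simpa using ((Complex.ofRealCLM.hasDerivAt (x := t)).mul_const ω).const_add ζ

lemma re_d {f : ℝ → ℂ} {f' : ℂ} {x : ℝ} (h : HasDerivAt f f' x) :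
    HasDerivAt (fun y => (f y).re) f'.re x :=
  Complex.reCLM.hasFDerivAt.comp_hasDerivAt x h

lemma jet_sm {F : ℂ → ℂ} (h : Sm F) (ζ ω : ℂ) :
    Jet (fun t => (F (ζ + t * ω)).re) (Dd ω (Dd ω F) ζ).re := by
  refine ⟨fun t => (Dd ω F (ζ + t * ω)).re, Eventually.of_forall fun t => re_d (line_deriv h ζ ω t),
    ?_⟩
  simpa using re_d (line_deriv (h.dd ω) ζ ω 0)

lemma jet_hol {φ : ℂ → ℂ} {ζ : ℂ} (h : AnalyticAt ℂ φ ζ) (ω : ℂ) :
    Jet (fun t => (φ (ζ + t * ω)).re) (deriv (deriv φ) ζ * ω * ω).re := by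
  have hc : ContinuousAt (fun t : ℝ => ζ + (t : ℂ) * ω) 0 := (line_hd ζ ω 0).continuousAt
  refine ⟨fun t => (deriv φ (ζ + t * ω) * ω).re, ?_, ?_⟩
  · have h1 : ∀ᶠ z in 𝓝 ((fun t : ℝ => ζ + (t : ℂ) * ω) 0), AnalyticAt ℂ φ z := by
      simpa using h.eventually_analyticAt
    refine (hc.eventually h1).mono fun t ht => re_d ?_
    exact ht.differentiableAt.hasDerivAt.comp_of_eq t (line_hd ζ ω t) rfl
  · have h1 : HasDerivAt (deriv φ) (deriv (deriv φ) ζ) ((fun t : ℝ => ζ + (t : ℂ) * ω) 0) := by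
      simpa using h.deriv.differentiableAt.hasDerivAt
    exact re_d ((h1.comp_of_eq 0 (line_hd ζ ω 0) rfl).mul_const ω)

lemma var_ineq {H : M2} (hH : H.PosDef) (l v : V2) :
    2 * (∑ i, l i * v i).re - (∑ i, ∑ j, H i j * v i * conj (v j)).re ≤ (hf H⁻¹ l l).re := by
  have hu : IsUnit H.det := hH.det_pos.ne'.isUnit
  have h := hf_nonneg hH (star v + (-1 : ℂ) • (H⁻¹ *ᵥ l))
  rw [hf_add_smul, hf_conj hH (H⁻¹ *ᵥ l) (star v)] at h
  have e1 : hf H (H⁻¹ *ᵥ l) (star v) = ∑ i, l i * v i := by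
    unfold hf
    rw [mulVec_mulVec, mul_nonsing_inv _ hu, one_mulVec, star_star]
    simp [dotProduct, mul_comm]
  have e2 : hf H (H⁻¹ *ᵥ l) (H⁻¹ *ᵥ l) = conj (hf H⁻¹ l l) := by
    unfold hf
    rw [mulVec_mulVec, mul_nonsing_inv _ hu, one_mulVec]
    simp [dotProduct, mul_comm]
  have e3 : hf H (star v) (star v) = ∑ i, ∑ j, H i j * v i * conj (v j) := by
    simp only [hf_eq, Fin.sum_univ_two, Pi.star_apply, RCLike.star_def, conj_conj]
    ring
  rw [e1, e2, e3] at h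
  simp only [add_re, mul_re, map_neg, map_one, neg_re, one_re, neg_im, one_im, conj_re,
    conj_im, mul_im] at h
  linarith

lemma var_eq {H : M2} (hH : H.PosDef) (l : V2) :
    2 * (∑ i, l i * star (H⁻¹ *ᵥ l) i).re
      - (∑ i, ∑ j, H i j * star (H⁻¹ *ᵥ l) i * conj (star (H⁻¹ *ᵥ l) j)).re = (hf H⁻¹ l l).re := by
  have hu : IsUnit H.det := hH.det_pos.ne'.isUnit
  have e2 : hf H (H⁻¹ *ᵥ l) (H⁻¹ *ᵥ l) = conj (hf H⁻¹ l l) := by
    unfold hf
    rw [mulVec_mulVec, mul_nonsing_inv _ hu, one_mulVec]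
    simp [dotProduct, mul_comm]
  have e3 : ∑ i, ∑ j, H i j * star (H⁻¹ *ᵥ l) i * conj (star (H⁻¹ *ᵥ l) j)
      = hf H (H⁻¹ *ᵥ l) (H⁻¹ *ᵥ l) := by
    simp only [hf_eq, Fin.sum_univ_two, Pi.star_apply, RCLike.star_def, conj_conj]
    ring
  have e4 : ∑ i, l i * star (H⁻¹ *ᵥ l) i = conj (hf H⁻¹ l l) := by
    unfold hf
    simp [dotProduct]
  rw [e3, e2, e4, conj_re]
  ring

lemma smooth_inv {H : ℂ → M2} (hs : ∀ i j, ContDiff ℝ (⊤ : ℕ∞) fun z => H z i j)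
    (hp : ∀ z, (H z).PosDef) (i j : Fin 2) : ContDiff ℝ (⊤ : ℕ∞) fun z => (H z)⁻¹ i j := by
  have h2 : ∀ z, (H z)⁻¹ i j = (H z).det⁻¹ * (H z).adjugate i j := by
    intro z
    rw [Matrix.inv_def, Ring.inverse_eq_inv']
    simp
  simp only [h2]
  refine ContDiff.mul (ContDiff.inv ?_ fun z => (hp z).det_pos.ne') ?_
  · simp only [det_fin_two]
    exact ((hs 0 0).mul (hs 1 1)).sub ((hs 0 1).mul (hs 1 0))
  · simp only [adjugate_fin_two]
    fin_cases i <;> fin_cases j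
    · simpa using hs 1 1
    · simpa using (hs 0 1).neg
    · simpa using (hs 1 0).neg
    · simpa using hs 0 0

theorem negLine {g : Transition 2} {H : MetricData 2} (hH : IsHermitianMetric g H)
    (hG : IsGriffithsPositive H) (α : Chart) (p₀ e : V2) (he : e ≠ 0) :
    NegLine fun z => (H α (p₀ + z • e))⁻¹ := by
  have hemb : ContDiff ℝ (⊤ : ℕ∞) fun z : ℂ => p₀ + z • e := by fun_prop
  have hs : ∀ i j, ContDiff ℝ (⊤ : ℕ∞) fun z : ℂ => H α (p₀ + z • e) i j :=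
    fun i j => (hH.smooth α i j).comp hemb
  have hsm := smooth_inv (H := fun z => H α (p₀ + z • e)) hs fun z => hH.posDef α _
  have hpos : ∀ z : ℂ, (H α (p₀ + z • e))⁻¹.PosDef := fun z => (hH.posDef α _).inv
  refine ⟨hsm, hpos, fun s hsd ζ => ?_⟩
  set F : ℂ → ℂ := fun ζ => hf (H α (p₀ + exp ζ • e))⁻¹ (s ζ) (s ζ) with hF
  have sF : Sm F := by
    simp only [hF, hf_eq]
    refine ContDiff.sum fun i _ => ContDiff.sum fun j _ => ?_
    refine (sm_conj (sm_of_entire ((differentiable_pi.mp hsd) i))).mul (ContDiff.mul ?_ ?_)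
    · exact (hsm i j).comp (sm_of_entire Complex.differentiable_exp)
    · exact sm_of_entire ((differentiable_pi.mp hsd) j)
  unfold lap
  rw [add_re]
  by_cases h0 : s ζ = 0
  · have : ∀ ω : ℂ, 0 ≤ (Dd ω (Dd ω F) ζ).re := fun ω => (jet_sm sF ζ ω).nonneg
      (Eventually.of_forall fun t => by
        have := hf_nonneg (hpos (exp (ζ + t * ω))) (s (ζ + t * ω))
        simpa [hF, h0, hf] using this)
    exact add_nonneg (this 1) (this I)
  set z₀ := exp ζ with hz₀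
  have hz : z₀ ≠ 0 := Complex.exp_ne_zero ζ
  have hu : IsUnit (H α (p₀ + z₀ • e)).det := (hH.posDef α _).det_pos.ne'.isUnit
  have hv0 : star ((H α (p₀ + z₀ • e))⁻¹ *ᵥ s ζ) ≠ 0 := by
    intro h
    apply h0
    have h1 : (H α (p₀ + z₀ • e))⁻¹ *ᵥ s ζ = 0 := star_eq_zero.mp h
    have h2 := congrArg (fun w => H α (p₀ + z₀ • e) *ᵥ w) h1
    simpa only [mulVec_mulVec, mul_nonsing_inv _ hu, one_mulVec, mulVec_zero] using h2
  obtain ⟨U, S, hU, hpU, hS, hSp, hlev⟩ := hG α (p₀ + z₀ • e) (z₀ • e) _ (smul_ne_zero hz he) hv0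
  have hembd : Differentiable ℂ fun z : ℂ => p₀ + z • e := by fun_prop
  have hSa : ∀ i, AnalyticAt ℂ (fun z : ℂ => S (p₀ + z • e) i) z₀ := by
    intro i
    have ho : IsOpen ((fun z : ℂ => p₀ + z • e) ⁻¹' U) := hU.preimage hembd.continuous
    have hd : DifferentiableOn ℂ (fun z : ℂ => S (p₀ + z • e) i)
        ((fun z : ℂ => p₀ + z • e) ⁻¹' U) :=
      differentiableOn_pi.mp (hS.comp hembd.differentiableOn fun _ hz => hz) i
    exact hd.analyticAt (ho.mem_nhds hpU)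
  set N : ℂ → ℝ := fun z => hNormSq H α (p₀ + z • e) (S (p₀ + z • e)) with hN
  have hNs : ContDiffAt ℝ 2 N z₀ := by
    have h1 : ∀ i, ContDiffAt ℝ 2 (fun z : ℂ => S (p₀ + z • e) i) z₀ :=
      fun i => (hSa i).contDiffAt.restrict_scalars ℝ
    refine Complex.reCLM.contDiff.contDiffAt.comp z₀ (f := fun z => ∑ i, ∑ j,
      H α (p₀ + z • e) i j * S (p₀ + z • e) i * conj (S (p₀ + z • e) j)) ?_
    refine ContDiffAt.sum fun i _ => ContDiffAt.sum fun j _ => ?_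
    refine (((hs i j).contDiffAt.of_le (WithTop.coe_le_coe.mpr le_top : ((2 : ℕ∞) : WithTop ℕ∞) ≤ _)).mul (h1 i)).mul ?_
    exact Complex.conjCLE.contDiff.contDiffAt.comp z₀ (h1 j)
  set φ : ℂ → ℂ := fun ζ => ∑ i, s ζ i * S (p₀ + exp ζ • e) i with hφ
  have hφa : AnalyticAt ℂ φ ζ := by
    refine Finset.analyticAt_fun_sum _ fun i _ => AnalyticAt.mul ?_ ?_
    · exact ((differentiable_pi.mp hsd) i).analyticAt ζ
    · exact (hSa i).comp_of_eq (Complex.differentiable_exp.analyticAt ζ) rfl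
  have key : ∀ ω : ℂ, 0 ≤ (Dd ω (Dd ω F) ζ).re + -2 * (deriv (deriv φ) ζ * ω * ω).re
      + (fderiv ℝ (fderiv ℝ N) z₀ (z₀ * ω) (z₀ * ω) + fderiv ℝ N z₀ (z₀ * ω * ω)) := by
    intro ω
    have c0 : exp (ζ + ((0 : ℝ) : ℂ) * ω) = z₀ := by simp [hz₀]
    have hc : ∀ t : ℝ, HasDerivAt (fun t : ℝ => exp (ζ + t * ω)) (exp (ζ + t * ω) * ω) t :=
      fun t => (line_hd ζ ω t).cexp
    have j3 := jet_curve (N := N) (c := fun t : ℝ => exp (ζ + t * ω)) (by rw [c0]; exact hNs) hc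
      ((hc 0).mul_const ω)
    simp only [c0] at j3
    refine (((jet_sm sF ζ ω).add ((jet_hol hφa ω).cmul (-2))).add j3).nonneg
      (Eventually.of_forall fun t => ?_)
    have a1 := var_ineq (hH.posDef α (p₀ + exp (ζ + t * ω) • e)) (s (ζ + t * ω))
      (S (p₀ + exp (ζ + t * ω) • e))
    have a2 := var_eq (hH.posDef α (p₀ + z₀ • e)) (s ζ)
    rw [← hSp] at a2
    simp only [ofReal_zero, zero_mul, add_zero, hF, hφ, hN, hNormSq, ← hz₀]
    linarith
  have lev : ∀ ω : ℂ, secondDerivAlong (fun q => hNormSq H α q (S q)) (p₀ + z₀ • e) (ω • z₀ • e)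
      = fderiv ℝ (fderiv ℝ N) z₀ (z₀ * ω) (z₀ * ω) := by
    intro ω
    have c0 : z₀ + ((0 : ℝ) : ℂ) * (z₀ * ω) = z₀ := by simp
    have j3 := jet_curve (N := N) (c := fun t : ℝ => z₀ + t * (z₀ * ω)) (by rw [c0]; exact hNs)
      (line_hd z₀ (z₀ * ω)) (hasDerivAt_const 0 _)
    simp only [c0, map_zero, add_zero] at j3
    rw [← j3.eq]
    unfold secondDerivAlong
    congr 2
    funext t
    have : p₀ + z₀ • e + (t : ℂ) • ω • z₀ • e = p₀ + (z₀ + t * (z₀ * ω)) • e := by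
      rw [smul_smul, smul_smul, add_smul, add_assoc]; congr 3; ring
    simp only [hN, this]
  unfold leviAlong at hlev
  have l1 := lev 1
  rw [one_smul] at l1
  rw [l1, lev I] at hlev
  have k1 := key 1
  have k2 := key I
  have e1 : z₀ * I * I = -(z₀ * 1 * 1) := by rw [mul_assoc, I_mul_I]; ring
  have e2 : deriv (deriv φ) ζ * I * I = -(deriv (deriv φ) ζ * 1 * 1) := by
    rw [mul_assoc, I_mul_I]; ring
  rw [e1, e2, map_neg, neg_re] at k2
  linarith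

end NB

theorem c1StmtB : C1Stmt := by
  intro g H hH hG α c
  constructor
  · have := NB.negLine hH hG α ![0, c] ![1, 0] (by simp)
    have e : ∀ z : ℂ, (![0, c] : V2) + z • ![1, 0] = ![z, c] := fun z => by
      funext i; fin_cases i <;> simp
    simpa only [e] using this
  · have := NB.negLine hH hG α ![c, 0] ![0, 1] (by simp)
    have e : ∀ z : ℂ, (![c, 0] : V2) + z • ![0, 1] = ![c, z] := fun z => by
      funext i; fin_cases i <;> simp
    simpa only [e] using this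

end Crest.Agent.R258

end
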